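import Crest.Agent.R224.T.Iface
import Mathlib.Analysis.Convex.Contractible

-- ▼ part R224/T/LocB
section

set_option autoImplicit false

noncomputable section

open Topology Set Filter

namespace Crest.Agent.R224.T.Loc

variable {X : Type} [TopologicalSpace X] {Y : Type} [TopologicalSpace Y]
  {Z : Type} [TopologicalSpace Z]

/-- chains of characteristic two -/
theorem add_self {n : ℕ} (c : Ch n X) : c + c = 0 := by
  ext σ
  simpa using CharTwo.add_self_eq_zero (c σ)

theorem add_cancel {n : ℕ} (a b : Ch n X) : a + b + b = a := by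
  rw [add_assoc, add_self, add_zero]

theorem eq_of_add_eq_zero {n : ℕ} {a b : Ch n X} (h : a + b = 0) : a = b := by
  have := add_cancel a b
  rw [h, zero_add] at this
  exact this.symm

theorem bd_single (n : ℕ) (σ : C(Dl (n + 1), X)) :
    bd n (Finsupp.single σ 1) =
      ∑ i : Fin (n + 2), Finsupp.single (σ.comp (face n i)) (1 : ZMod 2) := by
  simp [bd, Finsupp.linearCombination_single]

theorem push_single (f : C(X, Y)) (n : ℕ) (σ : C(Dl n, X)) (a : ZMod 2) :
    push f n (Finsupp.single σ a) = Finsupp.single (f.comp σ) a := by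
  simp [push, Finsupp.lmapDomain_apply, Finsupp.mapDomain_single]

/-- induction principle: a property of linear operators -/
theorem lin_ext {n m : ℕ} {L L' : Ch n X →ₗ[ZMod 2] Ch m Y}
    (h : ∀ σ, L (Finsupp.single σ 1) = L' (Finsupp.single σ 1)) : L = L' := by
  refine Finsupp.lhom_ext' fun σ => LinearMap.ext_ring ?_
  exact h σ

theorem bd_push (f : C(X, Y)) (n : ℕ) (c : Ch (n + 1) X) :
    bd n (push f (n + 1) c) = push f n (bd n c) := by
  have : (bd n).comp (push f (n + 1)) = (push f n).comp (bd n) := by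
    refine lin_ext fun σ => ?_
    simp only [LinearMap.comp_apply, push_single, bd_single, map_sum]
    rfl
  exact congrArg (fun L : Ch (n + 1) X →ₗ[ZMod 2] Ch n Y => L c) this

theorem push_push (f : C(X, Y)) (g : C(Y, Z)) (n : ℕ) (c : Ch n X) :
    push g n (push f n c) = push (g.comp f) n c := by
  have : (push g n).comp (push f n) = push (g.comp f) n := by
    refine lin_ext fun σ => ?_
    simp only [LinearMap.comp_apply, push_single]
    rfl
  exact congrArg (fun L : Ch n X →ₗ[ZMod 2] Ch n Z => L c) this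

theorem push_id (n : ℕ) (c : Ch n X) : push (ContinuousMap.id X) n c = c := by
  have : push (ContinuousMap.id X) n = LinearMap.id := by
    refine lin_ext fun σ => ?_
    simp only [push_single, LinearMap.id_apply]
    rfl
  rw [this]; rfl

/-- two faces -/
theorem face_face (n : ℕ) (i : Fin (n + 3)) (j : Fin (n + 2)) :
    (face (n + 1) i).comp (face n j) =
      (face (n + 1) (i.succAbove j)).comp (face n (j.predAbove i)) := by
  ext x : 1
  simp only [ContinuousMap.comp_apply, face, ContinuousMap.coe_mk, stdSimplex.map_comp_apply]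
  congr 1
  funext k
  simp only [Function.comp_apply]
  exact (Fin.succAbove_succAbove_succAbove_predAbove i j k).symm

theorem bd_bd (n : ℕ) (c : Ch (n + 2) X) : bd n (bd (n + 1) c) = 0 := by
  have : (bd n).comp (bd (n + 1)) = (0 : Ch (n + 2) X →ₗ[ZMod 2] Ch n X) := by
    refine lin_ext fun σ => ?_
    simp only [LinearMap.comp_apply, bd_single, map_sum, LinearMap.zero_apply]
    rw [← Finset.sum_product' (f := fun (i : Fin (n + 1 + 2)) (j : Fin (n + 2)) =>
      Finsupp.single ((σ.comp (face (n + 1) i)).comp (face n j)) (1 : ZMod 2))]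
    refine Finset.sum_involution (fun p _ => (p.1.succAbove p.2, p.2.predAbove p.1)) ?_ ?_ ?_ ?_
    · rintro ⟨i, j⟩ -
      have : (σ.comp (face (n + 1) i)).comp (face n j) =
          (σ.comp (face (n + 1) (i.succAbove j))).comp (face n (j.predAbove i)) := by
        rw [ContinuousMap.comp_assoc, ContinuousMap.comp_assoc, face_face]
      simp only [this]
      rw [← Finsupp.single_add]
      have h2 : (1 : ZMod 2) + 1 = 0 := by decide
      rw [h2, Finsupp.single_zero]
    · rintro ⟨i, j⟩ - - h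
      exact Fin.succAbove_ne i j (congrArg Prod.fst h)
    · intro _ _; exact Finset.mem_univ _
    · rintro ⟨i, j⟩ -
      have h1 : (i.succAbove j).succAbove (j.predAbove i) = i :=
        Fin.succAbove_succAbove_predAbove i j
      have h2 : (j.predAbove i).predAbove (i.succAbove j) = j :=
        Fin.predAbove_predAbove_succAbove i j
      simp only [h1, h2]
  exact congrArg (fun L : Ch (n + 2) X →ₗ[ZMod 2] Ch n X => L c) this

/-! ### chains in a subset -/

/-- the submodule of chains in `A` -/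
abbrev sub (A : Set X) (n : ℕ) : Submodule (ZMod 2) (Ch n X) :=
  Finsupp.supported (ZMod 2) (ZMod 2) {σ : C(Dl n, X) | range σ ⊆ A}

theorem in_iff (A : Set X) {n : ℕ} (c : Ch n X) : In A c ↔ c ∈ sub A n := by
  rw [Finsupp.mem_supported]
  constructor
  · intro h σ hσ; exact h σ hσ
  · intro h σ hσ; exact h hσ

theorem in_zero (A : Set X) {n : ℕ} : In A (0 : Ch n X) := (in_iff _ _).2 (Submodule.zero_mem _)

theorem in_add {A : Set X} {n : ℕ} {a b : Ch n X} (ha : In A a) (hb : In A b) : In A (a + b) :=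
  (in_iff _ _).2 (Submodule.add_mem _ ((in_iff _ _).1 ha) ((in_iff _ _).1 hb))

theorem in_mono {A B : Set X} {n : ℕ} {a : Ch n X} (ha : In A a) (h : A ⊆ B) : In B a :=
  fun σ hσ => (ha σ hσ).trans h

theorem in_inter {A B : Set X} {n : ℕ} {a : Ch n X} (ha : In A a) (hb : In B a) :
    In (A ∩ B) a :=
  fun σ hσ => subset_inter (ha σ hσ) (hb σ hσ)

theorem in_single {A : Set X} {n : ℕ} {σ : C(Dl n, X)} (h : range σ ⊆ A) :
    In A (Finsupp.single σ (1 : ZMod 2)) := by
  intro τ hτ
  have := Finsupp.support_single_subset hτ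
  rw [Finset.mem_singleton] at this
  rw [this]; exact h

/-- a linear operator respects supports as soon as it does on simplices -/
theorem in_lin {A : Set X} {B : Set Y} {n m : ℕ} (L : Ch n X →ₗ[ZMod 2] Ch m Y)
    (h : ∀ σ : C(Dl n, X), range σ ⊆ A → In B (L (Finsupp.single σ 1))) {c : Ch n X}
    (hc : In A c) : In B (L c) := by
  rw [in_iff] at hc ⊢
  have hle : sub A n ≤ (sub B m).comap L := by
    unfold sub
    rw [Finsupp.supported_eq_span_single, Submodule.span_le]
    rintro _ ⟨σ, hσ, rfl⟩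
    exact (in_iff _ _).1 (h σ hσ)
  exact hle hc

theorem in_bd {A : Set X} {n : ℕ} {c : Ch (n + 1) X} (hc : In A c) : In A (T.bd n c) := by
  refine in_lin (T.bd n) (fun σ hσ => ?_) hc
  rw [bd_single, in_iff]
  refine Submodule.sum_mem _ fun i _ => ?_
  rw [← in_iff]
  refine in_single ?_
  rintro _ ⟨x, rfl⟩
  exact hσ ⟨_, rfl⟩

theorem in_push {A : Set X} {B : Set Y} {n : ℕ} {c : Ch n X} (hc : In A c) (f : C(X, Y))
    (h : MapsTo f A B) : In B (T.push f n c) := by
  refine in_lin (T.push f n) (fun σ hσ => ?_) hc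
  rw [push_single]
  refine in_single ?_
  rintro _ ⟨x, rfl⟩
  exact h (hσ ⟨x, rfl⟩)

/-- inclusion of a subset -/
abbrev inc (A : Set X) : C(A, X) := ⟨Subtype.val, continuous_subtype_val⟩

theorem in_lift {A : Set X} {n : ℕ} {c : Ch n X} (hc : In A c) :
    ∃ c' : Ch n A, T.push (inc A) n c' = c := by
  rw [in_iff] at hc
  have hle : sub A n ≤ LinearMap.range (T.push (inc A) n) := by
    unfold sub
    rw [Finsupp.supported_eq_span_single, Submodule.span_le]
    rintro _ ⟨σ, hσ, rfl⟩
    refine ⟨Finsupp.single ⟨fun x => ⟨σ x, hσ ⟨x, rfl⟩⟩, by fun_prop⟩ 1, ?_⟩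
    rw [push_single]
    rfl
  exact hle hc

theorem in_push_inc {A : Set X} {n : ℕ} (c' : Ch n A) : In A (T.push (inc A) n c') := by
  have h : In univ c' := fun σ _ => subset_univ _
  exact in_push h (inc A) (fun x _ => x.2)

theorem push_inc_injective (A : Set X) (n : ℕ) : Function.Injective (T.push (inc A) n) := by
  refine Finsupp.mapDomain_injective ?_
  intro σ τ h
  ext x : 1
  have := congrArg (fun f : C(Dl n, X) => f x) h
  exact Subtype.ext this

/-- filling of cycles inside a contractible subset -/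
theorem fill_in (hF : NFill) {A : Set X} (hA : ContractibleSpace A) {n : ℕ} {c : Ch (n + 1) X}
    (hc : In A c) (h0 : T.bd n c = 0) : ∃ b, In A b ∧ T.bd (n + 1) b = c := by
  obtain ⟨c', rfl⟩ := in_lift hc
  have h1 : T.bd n c' = 0 := by
    apply push_inc_injective A n
    rw [← bd_push, h0, map_zero]
  obtain ⟨b, hb⟩ := hF A n c' h1
  exact ⟨T.push (inc A) (n + 2) b, in_push_inc b, by rw [bd_push, hb]⟩

/-- `c` is null modulo `A` iff its boundary bounds in `A` -/
theorem nul_iff (hF : NFill) [ContractibleSpace X] (A : Set X) {n : ℕ} (c : Ch (n + 1) X) :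
    Nul A c ↔ ∃ e, In A e ∧ T.bd n e = T.bd n c := by
  constructor
  · rintro ⟨b, e, he, rfl⟩
    exact ⟨e, he, by rw [map_add, bd_bd, zero_add]⟩
  · rintro ⟨e, he, h⟩
    have h0 : T.bd n (c + e) = 0 := by rw [map_add, h, add_self]
    obtain ⟨b, hb⟩ := hF X n _ h0
    exact ⟨b, e, he, by rw [hb, add_cancel]⟩

theorem nul_add {A : Set X} {n : ℕ} {a b : Ch n X} (ha : Nul A a) (hb : Nul A b) :
    Nul A (a + b) := by
  obtain ⟨x, e, he, rfl⟩ := ha
  obtain ⟨y, f, hf, rfl⟩ := hb
  exact ⟨x + y, e + f, in_add he hf, by rw [map_add]; abel⟩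

theorem in_nul {A : Set X} {n : ℕ} {a : Ch n X} (ha : In A a) : Nul A a :=
  ⟨0, a, ha, by rw [map_zero, zero_add]⟩

theorem nul_add_in {A : Set X} {n : ℕ} {a b : Ch n X} (hb : In A b) : Nul A (a + b) ↔ Nul A a := by
  constructor
  · intro h
    have := nul_add h (in_nul hb)
    rwa [add_cancel] at this
  · intro h
    exact nul_add h (in_nul hb)

/-! ### prisms and subdivision of boundaries -/

/-- prism package -/
theorem prism (hP : NPrism) (H : C(X × unitInterval, Y)) :
    ∃ P : ∀ n : ℕ, Ch n X →ₗ[ZMod 2] Ch (n + 1) Y,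
    (∀ n (u : Ch (n + 1) X), T.bd n (P n (T.bd n u)) =
      T.push (H.comp ⟨fun x => (x, 1), by fun_prop⟩) n (T.bd n u) +
      T.push (H.comp ⟨fun x => (x, 0), by fun_prop⟩) n (T.bd n u)) ∧
    ∀ (A : Set X) (B : Set Y), (∀ x ∈ A, ∀ t, H (x, t) ∈ B) → ∀ n (c : Ch n X), In A c →
      In B (P n c) := by
  obtain ⟨P, h0, h1, h2⟩ := hP X Y H
  refine ⟨P, ?_, ?_⟩
  · intro n u
    rcases n with _ | n
    · exact h0 _
    · rw [h1, bd_bd, map_zero, add_zero]
  · intro A B hAB n c hc
    refine in_lin (P n) (fun σ hσ => ?_) hc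
    intro τ hτ
    refine (h2 n σ τ hτ).trans ?_
    rintro _ ⟨⟨x, t⟩, ⟨hx, -⟩, rfl⟩
    exact hAB x (hσ hx) t

theorem subOp_bdh (O : SubOp X) (n : ℕ) (u : Ch (n + 1) X) :
    T.bd n (O.h n (T.bd n u)) = T.bd n u + O.s n (T.bd n u) := by
  rcases n with _ | n
  · exact O.bd_h0 _
  · rw [O.bd_h, bd_bd, map_zero, add_zero]

theorem subOp_in_s (O : SubOp X) {A : Set X} {n : ℕ} {c : Ch n X} (hc : In A c) :
    In A (O.s n c) := by
  refine in_lin (O.s n) (fun σ hσ => ?_) hc
  intro τ hτ
  exact (O.supp_s n σ τ hτ).trans hσ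

theorem subOp_in_h (O : SubOp X) {A : Set X} {n : ℕ} {c : Ch n X} (hc : In A c) :
    In A (O.h n c) := by
  refine in_lin (O.h n) (fun σ hσ => ?_) hc
  intro τ hτ
  exact (O.supp_h n σ τ hτ).trans hσ

/-- splitting a small chain -/
theorem small_split {A B : Set X} {n : ℕ} {c : Ch n X} (hc : Small {A, B} c) :
    ∃ a b, In A a ∧ In B b ∧ c = a + b := by
  classical
  refine ⟨c.filter fun σ => range σ ⊆ A, c.filter fun σ => ¬ range σ ⊆ A, ?_, ?_, ?_⟩
  · intro σ hσ
    rw [Finsupp.support_filter, Finset.mem_filter] at hσ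
    exact hσ.2
  · intro σ hσ
    rw [Finsupp.support_filter, Finset.mem_filter] at hσ
    obtain ⟨U, hU, h⟩ := hc σ hσ.1
    rcases hU with rfl | rfl
    · exact absurd h hσ.2
    · exact h
  · exact (Finsupp.filter_add_filter_not c _).symm

/-- subdivision with respect to two open sets -/
theorem sub_two (hS : NSub) {A B : Set X} (hA : IsOpen A) (hB : IsOpen B) {n : ℕ} {c : Ch n X}
    (hc : In (A ∪ B) c) : ∃ O : SubOp X, ∃ a b, In A a ∧ In B b ∧ O.s n c = a + b := by
  obtain ⟨O, hO⟩ := hS X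
  have h := hO {A, B} (by rintro U (rfl | rfl) <;> assumption) n c (by rw [sUnion_pair]; exact hc)
  obtain ⟨k, hk⟩ := h.exists
  exact ⟨O k, small_split hk⟩

end Crest.Agent.R224.T.Loc
end
end

-- ▼ part R224/T/LocSusp
section

set_option autoImplicit false

noncomputable section

open Topology Set Filter

namespace Crest.Agent.R224.T.Loc

/-! ### coordinates -/

/-- first coordinate -/
def tt {n : ℕ} (x : EE (n + 1)) : ℝ := x 0

/-- the other coordinates -/
def pp {n : ℕ} (x : EE (n + 1)) : EE n := WithLp.toLp 2 fun i => x i.succ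

/-- the point with given coordinates -/
def mk {n : ℕ} (t : ℝ) (y : EE n) : EE (n + 1) := WithLp.toLp 2 (Fin.cons t fun i => y i)

@[simp] theorem tt_mk {n : ℕ} (t : ℝ) (y : EE n) : tt (mk t y) = t := rfl

@[simp] theorem pp_mk {n : ℕ} (t : ℝ) (y : EE n) : pp (mk t y) = y := rfl

@[simp] theorem mk_tt_pp {n : ℕ} (x : EE (n + 1)) : mk (tt x) (pp x) = x := by
  ext i
  refine Fin.cases ?_ (fun j => ?_) i
  · rfl
  · rfl

theorem continuous_tt {n : ℕ} : Continuous (tt : EE (n + 1) → ℝ) := by
  unfold tt; fun_prop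

theorem continuous_pp {n : ℕ} : Continuous (pp : EE (n + 1) → EE n) := by
  unfold pp; fun_prop

theorem continuous_mk {n : ℕ} : Continuous fun p : ℝ × EE n => mk p.1 p.2 := by
  unfold mk
  refine (PiLp.continuous_toLp 2 _).comp (continuous_pi fun i => ?_)
  refine Fin.cases ?_ (fun j => ?_) i
  · simpa using continuous_fst
  · simp only [Fin.cons_succ]
    fun_prop

theorem eq_zero_iff {n : ℕ} (x : EE (n + 1)) : x = 0 ↔ tt x = 0 ∧ pp x = 0 := by
  constructor
  · rintro rfl
    exact ⟨rfl, rfl⟩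
  · rintro ⟨h1, h2⟩
    rw [← mk_tt_pp x, h1, h2]
    ext i
    refine Fin.cases ?_ (fun j => ?_) i
    · rfl
    · rfl

@[simp] theorem tt_comb {n : ℕ} (a b : ℝ) (x y : EE (n + 1)) :
    tt (a • x + b • y) = a * tt x + b * tt y := rfl

@[simp] theorem pp_comb {n : ℕ} (a b : ℝ) (x y : EE (n + 1)) :
    pp (a • x + b • y) = a • pp x + b • pp y := rfl

/-- projection as a continuous map -/
def ppc (n : ℕ) : C(EE (n + 1), EE n) := ⟨pp, continuous_pp⟩

/-- inclusion at height `t` -/
def mkc (n : ℕ) (t : ℝ) : C(EE n, EE (n + 1)) :=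
  ⟨fun y => mk t y, continuous_mk.comp (continuous_const.prodMk continuous_id)⟩

/-- `x ≠ 0 or t > 0` -/
def Ap (n : ℕ) : Set (EE (n + 1)) := {x | pp x ≠ 0 ∨ 0 < tt x}

/-- `x ≠ 0 or t < 0` -/
def Am (n : ℕ) : Set (EE (n + 1)) := {x | pp x ≠ 0 ∨ tt x < 0}

/-- `x ≠ 0` -/
def Bz (n : ℕ) : Set (EE (n + 1)) := {x | pp x ≠ 0}

theorem isOpen_Bz (n : ℕ) : IsOpen (Bz n) := by
  have : Bz n = pp ⁻¹' {0}ᶜ := rfl
  rw [this]
  exact isOpen_compl_singleton.preimage continuous_pp

theorem isOpen_Ap (n : ℕ) : IsOpen (Ap n) :=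
  (isOpen_Bz n).union (isOpen_lt continuous_const continuous_tt)

theorem isOpen_Am (n : ℕ) : IsOpen (Am n) :=
  (isOpen_Bz n).union (isOpen_lt continuous_tt continuous_const)

theorem union_eq (n : ℕ) : Ap n ∪ Am n = {0}ᶜ := by
  ext x
  simp only [Ap, Am, mem_union, mem_ofPred_eq, mem_compl_iff, mem_singleton_iff, eq_zero_iff]
  constructor
  · rintro ((h | h) | (h | h)) ⟨h1, h2⟩
    · exact h h2
    · exact absurd h1 h.ne'
    · exact h h2
    · exact absurd h1 h.ne
  · intro h
    by_cases h2 : pp x = 0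
    · rcases lt_trichotomy (tt x) 0 with h3 | h3 | h3
      · exact Or.inr (Or.inr h3)
      · exact absurd ⟨h3, h2⟩ h
      · exact Or.inl (Or.inr h3)
    · exact Or.inl (Or.inl h2)

theorem inter_sub (n : ℕ) : Ap n ∩ Am n ⊆ Bz n := by
  rintro x ⟨h1 | h1, h2 | h2⟩
  · exact h1
  · exact h1
  · exact h2
  · exact absurd (h1.trans h2) (lt_irrefl _)

theorem Bz_sub_Ap (n : ℕ) : Bz n ⊆ Ap n := fun _ h => Or.inl h
theorem Bz_sub_Am (n : ℕ) : Bz n ⊆ Am n := fun _ h => Or.inl h
theorem Ap_sub (n : ℕ) : Ap n ⊆ {0}ᶜ := by rw [← union_eq]; exact subset_union_left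
theorem Am_sub (n : ℕ) : Am n ⊆ {0}ᶜ := by rw [← union_eq]; exact subset_union_right

theorem contr_Ap (n : ℕ) : ContractibleSpace (Ap n) := by
  refine StarConvex.contractibleSpace (x := mk 1 0) ?_ ⟨mk 1 0, Or.inr ?_⟩
  · intro y hy a b ha hb hab
    by_cases hb0 : b = 0
    · subst hb0
      have : a = 1 := by linarith
      subst this
      right
      simp
    · have hb' : 0 < b := lt_of_le_of_ne hb (Ne.symm hb0)
      by_cases h2 : pp y = 0
      · right
        have h3 : 0 < tt y := by
          rcases hy with hy | hy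
          · exact absurd h2 hy
          · exact hy
        simp only [tt_comb, tt_mk, mul_one]
        have := mul_pos hb' h3
        linarith
      · left
        simp only [pp_comb, pp_mk, smul_zero, zero_add]
        exact smul_ne_zero hb0 h2
  · simp

theorem contr_Am (n : ℕ) : ContractibleSpace (Am n) := by
  refine StarConvex.contractibleSpace (x := mk (-1) 0) ?_ ⟨mk (-1) 0, Or.inr ?_⟩
  · intro y hy a b ha hb hab
    by_cases hb0 : b = 0
    · subst hb0
      have : a = 1 := by linarith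
      subst this
      right
      simp
    · have hb' : 0 < b := lt_of_le_of_ne hb (Ne.symm hb0)
      by_cases h2 : pp y = 0
      · right
        have h3 : tt y < 0 := by
          rcases hy with hy | hy
          · exact absurd h2 hy
          · exact hy
        simp only [tt_comb, tt_mk, mul_neg, mul_one]
        have := mul_neg_of_pos_of_neg hb' h3
        linarith
      · left
        simp only [pp_comb, pp_mk, smul_zero, zero_add]
        exact smul_ne_zero hb0 h2
  · simp

/-! ### the retraction of `{x ≠ 0}` -/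

/-- `(x, s) ↦ (s * t, x)` -/
def HB (n : ℕ) : C(EE (n + 1) × unitInterval, EE (n + 1)) :=
  ⟨fun p => mk (p.2 * tt p.1) (pp p.1), continuous_mk.comp
    (((continuous_subtype_val.comp continuous_snd).mul (continuous_tt.comp continuous_fst)).prodMk
      (continuous_pp.comp continuous_fst))⟩

/-- `(y, s) ↦ (2s - 1, y)` -/
def HC (n : ℕ) : C(EE n × unitInterval, EE (n + 1)) :=
  ⟨fun p => mk (2 * p.2 - 1) p.1, continuous_mk.comp
    (((continuous_const.mul (continuous_subtype_val.comp continuous_snd)).sub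
      continuous_const).prodMk continuous_fst)⟩

/-- cycles of the form `bd u` in `{x ≠ 0}` are homologous to their projections -/
theorem retract (hP : NPrism) (n : ℕ) : ∃ P : ∀ q : ℕ, Ch q (EE (n + 1)) →ₗ[ZMod 2] Ch (q + 1) (EE (n + 1)),
    (∀ q (u : Ch (q + 1) (EE (n + 1))), T.bd q (P q (T.bd q u)) =
      T.bd q u + T.push (mkc n 0) q (T.push (ppc n) q (T.bd q u))) ∧
    ∀ q (c : Ch q (EE (n + 1))), In (Bz n) c → In (Bz n) (P q c) := by
  obtain ⟨P, h1, h2⟩ := prism hP (HB n)
  refine ⟨P, ?_, fun q c hc => h2 (Bz n) (Bz n) (fun x hx t => hx) q c hc⟩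
  intro q u
  rw [h1 q u]
  have e1 : ((HB n).comp ⟨fun x => (x, 1), by fun_prop⟩) = ContinuousMap.id _ := by
    ext1 x
    simp [HB]
  have e2 : ((HB n).comp ⟨fun x => (x, 0), by fun_prop⟩) = (mkc n 0).comp (ppc n) := by
    ext1 x
    simp [HB, mkc, ppc]
  rw [e1, e2, push_id, push_push]

/-! ### suspension relation -/

/-- `c'` is a desuspension of `c` -/
def Susp (d : ℕ) {q : ℕ} (c : Ch (q + 2) (EE (d + 1))) (c' : Ch (q + 1) (EE d)) : Prop :=
  ∃ (u v : Ch (q + 1) (EE (d + 1))) (w : Ch (q + 2) (EE (d + 1))), In (Ap d) u ∧ In (Am d) v ∧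
    In {0}ᶜ w ∧ T.bd (q + 1) c = u + v + T.bd (q + 1) w ∧ c' = T.push (ppc d) (q + 1) u

theorem Susp.add {d q : ℕ} {c1 c2 : Ch (q + 2) (EE (d + 1))} {c1' c2' : Ch (q + 1) (EE d)}
    (h1 : Susp d c1 c1') (h2 : Susp d c2 c2') : Susp d (c1 + c2) (c1' + c2') := by
  obtain ⟨u1, v1, w1, hu1, hv1, hw1, e1, rfl⟩ := h1
  obtain ⟨u2, v2, w2, hu2, hv2, hw2, e2, rfl⟩ := h2
  refine ⟨u1 + u2, v1 + v2, w1 + w2, in_add hu1 hu2, in_add hv1 hv2, in_add hw1 hw2, ?_, ?_⟩
  · rw [map_add, map_add, e1, e2]; abel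
  · rw [map_add]

instance contrEE (m : ℕ) : ContractibleSpace (EE m) := inferInstance

theorem mapsTo_ppc (d : ℕ) : MapsTo (ppc d) (Bz d) {0}ᶜ := fun _ h => h

/-- the boundary of the positive half lies in `{x ≠ 0}` -/
theorem bd_half {d q : ℕ} {u v : Ch (q + 1) (EE (d + 1))} (hu : In (Ap d) u) (hv : In (Am d) v)
    (h : T.bd q u = T.bd q v) : In (Bz d) (T.bd q u) := by
  refine in_mono (in_inter (in_bd hu) ?_) (inter_sub d)
  rw [h]
  exact in_bd hv

theorem Susp.bd_eq {d q : ℕ} {c : Ch (q + 2) (EE (d + 1))} {u v : Ch (q + 1) (EE (d + 1))}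
    {w : Ch (q + 2) (EE (d + 1))} (h : T.bd (q + 1) c = u + v + T.bd (q + 1) w) :
    T.bd q u = T.bd q v := by
  apply eq_of_add_eq_zero
  have h1 := congrArg (T.bd q) h
  rw [bd_bd, map_add, map_add, bd_bd, add_zero] at h1
  exact h1.symm

theorem Susp.rc {d q : ℕ} {c : Ch (q + 2) (EE (d + 1))} {c' : Ch (q + 1) (EE d)}
    (h : Susp d c c') : RC {0}ᶜ c' := by
  obtain ⟨u, v, w, hu, hv, hw, e, rfl⟩ := h
  have h1 := bd_half hu hv (Susp.bd_eq e)
  rw [RC, bd_push]
  exact in_push h1 (ppc d) (mapsTo_ppc d)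

theorem Susp.nul (hP : NPrism) (hS : NSub) (hF : NFill) {d q : ℕ} {c : Ch (q + 2) (EE (d + 1))}
    {c' : Ch (q + 1) (EE d)} (h : Susp d c c') : Nul {0}ᶜ c ↔ Nul {0}ᶜ c' := by
  obtain ⟨u, v, w, hu, hv, hw, e, rfl⟩ := h
  have huv := Susp.bd_eq e
  have hB := bd_half hu hv huv
  obtain ⟨P, hP1, hP2⟩ := retract hP d
  have e' : T.bd (q + 1) (c + w) = u + v := by
    rw [map_add, e, add_cancel]
  rw [← nul_add_in hw, nul_iff hF, nul_iff hF, e']
  constructor
  · rintro ⟨g, hg, eg⟩
    -- subdivide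
    rw [← union_eq] at hg
    obtain ⟨O, a, b, ha, hb, eab⟩ := sub_two hS (isOpen_Ap d) (isOpen_Am d) hg
    have h1 : T.bd (q + 1) a + T.bd (q + 1) b = O.s (q + 1) u + O.s (q + 1) v := by
      rw [← map_add, ← eab, O.bd_s, eg, map_add]
    set y := O.s (q + 1) u + T.bd (q + 1) a with hy
    have hy' : y = O.s (q + 1) v + T.bd (q + 1) b := by
      apply eq_of_add_eq_zero
      rw [hy]
      have : O.s (q + 1) u + T.bd (q + 1) a + (O.s (q + 1) v + T.bd (q + 1) b) =
          (T.bd (q + 1) a + T.bd (q + 1) b) + (O.s (q + 1) u + O.s (q + 1) v) := by abel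
      rw [this, h1, add_self]
    have hyB : In (Bz d) y := by
      refine in_mono (in_inter ?_ ?_) (inter_sub d)
      · rw [hy]; exact in_add (subOp_in_s O hu) (in_bd ha)
      · rw [hy']; exact in_add (subOp_in_s O hv) (in_bd hb)
    have hyb : T.bd q y = O.s q (T.bd q u) := by
      rw [hy, map_add, bd_bd, add_zero, O.bd_s]
    have hfin : T.bd q (y + O.h q (T.bd q u)) = T.bd q u := by
      rw [map_add, hyb, subOp_bdh, add_comm (T.bd q u), ← add_assoc, add_self, zero_add]
    refine ⟨T.push (ppc d) (q + 1) (y + O.h q (T.bd q u)), ?_, ?_⟩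
    · exact in_push (in_add hyB (subOp_in_h O hB)) (ppc d) (mapsTo_ppc d)
    · rw [bd_push, hfin, bd_push]
  · rintro ⟨g, hg, eg⟩
    rw [bd_push] at eg
    set y := T.push (mkc d 0) (q + 1) g + P q (T.bd q u) with hy
    have hyB : In (Bz d) y := by
      refine in_add (in_push hg (mkc d 0) ?_) (hP2 q _ hB)
      intro x hx
      exact hx
    have hyb : T.bd q y = T.bd q u := by
      rw [hy, map_add, bd_push, eg, hP1, add_comm (T.bd q u), ← add_assoc, add_self, zero_add]
    obtain ⟨a, ha, ea⟩ := fill_in hF (contr_Ap d) (c := u + y) (in_add hu (in_mono hyB (Bz_sub_Ap d)))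
      (by rw [map_add, hyb, add_self])
    obtain ⟨b, hb, eb⟩ := fill_in hF (contr_Am d) (c := v + y) (in_add hv (in_mono hyB (Bz_sub_Am d)))
      (by rw [map_add, hyb, huv, add_self])
    refine ⟨a + b, in_add (in_mono ha (Ap_sub d)) (in_mono hb (Am_sub d)), ?_⟩
    rw [map_add, ea, eb]
    have : u + y + (v + y) = u + v + (y + y) := by abel
    rw [this, add_self, add_zero]

theorem Susp.exists (hS : NSub) {d q : ℕ} {c : Ch (q + 2) (EE (d + 1))} (hc : RC {0}ᶜ c) :
    ∃ c', Susp d c c' := by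
  have hc' : In (Ap d ∪ Am d) (T.bd (q + 1) c) := by rw [union_eq]; exact hc
  obtain ⟨O, a, b, ha, hb, eab⟩ := sub_two hS (isOpen_Ap d) (isOpen_Am d) hc'
  refine ⟨_, a, b, O.h (q + 1) (T.bd (q + 1) c), ha, hb, subOp_in_h O hc, ?_, rfl⟩
  rw [subOp_bdh, ← eab, add_comm (T.bd (q + 1) c), ← add_assoc, add_self, zero_add]

/-- suspension of a relative cycle -/
theorem Susp.of (hP : NPrism) (hF : NFill) {d q : ℕ} (c' : Ch (q + 1) (EE d))
    (hc' : RC {0}ᶜ c') : ∃ c : Ch (q + 2) (EE (d + 1)), RC {0}ᶜ c ∧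
      ∃ e, In {0}ᶜ e ∧ Susp d c (c' + e) := by
  obtain ⟨P, h1, h2⟩ := prism hP (HC d)
  have e1 : ((HC d).comp ⟨fun x => (x, 1), by fun_prop⟩) = mkc d 1 := by
    ext1 x
    simp only [HC, mkc, ContinuousMap.comp_apply, ContinuousMap.coe_mk, Set.Icc.coe_one]
    norm_num
  have e2 : ((HC d).comp ⟨fun x => (x, 0), by fun_prop⟩) = mkc d (-1) := by
    ext1 x
    simp only [HC, mkc, ContinuousMap.comp_apply, ContinuousMap.coe_mk, Set.Icc.coe_zero]
    norm_num
  have h3 := h1 q c'
  rw [e1, e2] at h3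
  have hPB : In (Bz d) (P q (T.bd q c')) :=
    h2 {0}ᶜ (Bz d) (fun x hx t => hx) q _ hc'
  set u := T.push (mkc d 1) (q + 1) c' + P q (T.bd q c') with hu
  set v := T.push (mkc d (-1)) (q + 1) c' with hv
  have huI : In (Ap d) u := by
    refine in_add ?_ (in_mono hPB (Bz_sub_Ap d))
    have : In univ c' := fun σ _ => subset_univ _
    refine in_push this (mkc d 1) (fun x _ => Or.inr ?_)
    show (0 : ℝ) < 1
    norm_num
  have hvI : In (Am d) v := by
    have : In univ c' := fun σ _ => subset_univ _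
    refine in_push this (mkc d (-1)) (fun x _ => Or.inr ?_)
    show (-1 : ℝ) < 0
    norm_num
  have huv : T.bd q (u + v) = 0 := by
    rw [map_add, hu, hv, map_add, bd_push, bd_push, h3]
    have : ∀ a b : Ch q (EE (d + 1)), a + (a + b) + b = 0 := by
      intro a b
      have : a + (a + b) + b = (a + a) + (b + b) := by abel
      rw [this, add_self, add_self, add_zero]
    exact this _ _
  obtain ⟨c, hc⟩ := hF (EE (d + 1)) q (u + v) huv
  refine ⟨c, ?_, T.push (ppc d) (q + 1) (P q (T.bd q c')), in_push hPB (ppc d) (mapsTo_ppc d),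
    u, v, 0, huI, hvI, in_zero _, ?_, ?_⟩
  · rw [RC, hc]
    exact in_add (in_mono huI (Ap_sub d)) (in_mono hvI (Am_sub d))
  · rw [hc, map_zero, add_zero]
  · rw [hu, map_add, push_push]
    have : (ppc d).comp (mkc d 1) = ContinuousMap.id _ := by
      ext1 x
      simp [ppc, mkc]
    rw [this, push_id]

/-- the suspension step -/
theorem nLoc_succ (hP : NPrism) (hS : NSub) (hF : NFill) (d : ℕ) (h : NLoc d)
    (h1 : ∀ c : Ch 1 (EE (d + 2)), RC {0}ᶜ c → Nul {0}ᶜ c) : NLoc (d + 1) := by
  obtain ⟨hlow, ⟨g, hg, hg'⟩, htwo⟩ := h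
  refine ⟨?_, ?_, ?_⟩
  · intro q c hq hc
    rcases q with _ | q
    · exact h1 c hc
    · obtain ⟨c', hc'⟩ := Susp.exists hS hc
      rw [hc'.nul hP hS hF]
      exact hlow q c' (fun e => hq (by rw [e])) hc'.rc
  · obtain ⟨c, hc, e, he, hs⟩ := Susp.of hP hF g hg
    refine ⟨c, hc, ?_⟩
    rw [hs.nul hP hS hF, nul_add_in he]
    exact hg'
  · intro c1 c2 hc1 hc2 hn1 hn2
    obtain ⟨c1', hs1⟩ := Susp.exists hS hc1
    obtain ⟨c2', hs2⟩ := Susp.exists hS hc2
    rw [hs1.nul hP hS hF] at hn1
    rw [hs2.nul hP hS hF] at hn2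
    rw [(hs1.add hs2).nul hP hS hF]
    exact htwo c1' c2' hs1.rc hs2.rc hn1 hn2

end Crest.Agent.R224.T.Loc
end
end

-- ▼ part R224/T/Exc
section

set_option autoImplicit false

noncomputable section

open Topology Set Filter

namespace Crest.Agent.R224.T

namespace Exc

section
variable {X : Type} [TopologicalSpace X] {Y : Type} [TopologicalSpace Y]

theorem In.zero (A : Set X) {n : ℕ} : In A (0 : Ch n X) := by
  intro σ hσ; simp at hσ

theorem In.add {A : Set X} {n : ℕ} {c c' : Ch n X} (h : In A c) (h' : In A c') :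
    In A (c + c') := by
  classical
  intro σ hσ
  rcases Finset.mem_union.mp (Finsupp.support_add hσ) with h1 | h1
  · exact h σ h1
  · exact h' σ h1

theorem In.mono {A B : Set X} {n : ℕ} {c : Ch n X} (h : In A c) (hAB : A ⊆ B) : In B c :=
  fun σ hσ => (h σ hσ).trans hAB

theorem In.sum {A : Set X} {n : ℕ} {ι : Type*} (s : Finset ι) (c : ι → Ch n X)
    (h : ∀ i ∈ s, In A (c i)) : In A (∑ i ∈ s, c i) := by
  classical
  induction s using Finset.induction_on with
  | empty => simpa using In.zero A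
  | insert i s hi ih =>
    rw [Finset.sum_insert hi]
    exact In.add (h i (Finset.mem_insert_self _ _))
      (ih fun j hj => h j (Finset.mem_insert_of_mem hj))

theorem In.smul {A : Set X} {n : ℕ} {c : Ch n X} (r : ZMod 2) (h : In A c) : In A (r • c) :=
  fun σ hσ => h σ (Finsupp.support_smul hσ)

theorem In.single {A : Set X} {n : ℕ} {σ : C(Dl n, X)} (h : range σ ⊆ A) (r : ZMod 2) :
    In A (Finsupp.single σ r : Ch n X) := by
  classical
  intro τ hτ
  have := Finsupp.support_single_subset hτ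
  rw [Finset.mem_singleton] at this
  rw [this]; exact h

/-- a linear map with support control on simplices preserves `In` -/
theorem In.lin {A : Set X} {B : Set Y} {n m : ℕ} (φ : Ch n X →ₗ[ZMod 2] Ch m Y)
    (h : ∀ σ : C(Dl n, X), range σ ⊆ A → In B (φ (Finsupp.single σ 1))) {c : Ch n X}
    (hc : In A c) : In B (φ c) := by
  classical
  have : c = c.sum fun σ r => r • (Finsupp.single σ 1 : Ch n X) := by
    simp
  rw [this, Finsupp.sum, map_sum]
  refine In.sum _ _ fun σ hσ => ?_
  rw [map_smul]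
  exact In.smul _ (h σ (hc σ hσ))

theorem In.bd {A : Set X} {n : ℕ} {c : Ch (n + 1) X} (h : In A c) : In A (bd n c) := by
  refine In.lin (T.bd n) (fun σ hσ => ?_) h
  rw [T.bd, Finsupp.linearCombination_single, one_smul]
  refine In.sum _ _ fun i _ => In.single ?_ _
  rintro _ ⟨x, rfl⟩
  exact hσ ⟨_, rfl⟩

theorem In.s {A : Set X} (O : SubOp X) {n : ℕ} {c : Ch n X} (h : In A c) : In A (O.s n c) :=
  In.lin (O.s n) (fun σ hσ τ hτ => (O.supp_s n σ τ hτ).trans hσ) h

theorem In.h {A : Set X} (O : SubOp X) {n : ℕ} {c : Ch n X} (h : In A c) : In A (O.h n c) :=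
  In.lin (O.h n) (fun σ hσ τ hτ => (O.supp_h n σ τ hτ).trans hσ) h

theorem push_single (f : C(X, Y)) (n : ℕ) (σ : C(Dl n, X)) (r : ZMod 2) :
    push f n (Finsupp.single σ r) = Finsupp.single (f.comp σ) r := by
  simp [push, Finsupp.lmapDomain_apply, Finsupp.mapDomain_single]

theorem bd_single (n : ℕ) (σ : C(Dl (n + 1), X)) :
    bd n (Finsupp.single σ 1) = ∑ i : Fin (n + 2), Finsupp.single (σ.comp (face n i)) (1 : ZMod 2) := by
  rw [T.bd, Finsupp.linearCombination_single, one_smul]

theorem bd_push (f : C(X, Y)) (n : ℕ) (c : Ch (n + 1) X) :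
    bd n (push f (n + 1) c) = push f n (bd n c) := by
  have : (T.bd n).comp (push f (n + 1)) = (push f n).comp (T.bd n) := by
    apply Finsupp.lhom_ext'
    intro σ
    apply LinearMap.ext_ring
    simp only [LinearMap.comp_apply, Finsupp.lsingle_apply, push_single, bd_single, map_sum]
    rfl
  exact LinearMap.congr_fun this c

theorem In.push {A : Set X} {B : Set Y} (f : C(X, Y)) {n : ℕ} {c : Ch n X} (h : In A c)
    (hAB : MapsTo f A B) : In B (push f n c) := by
  refine In.lin (T.push f n) (fun σ hσ => ?_) h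
  rw [push_single]
  refine In.single ?_ _
  rintro _ ⟨x, rfl⟩
  exact hAB (hσ ⟨x, rfl⟩)

theorem comp_injective {f : C(X, Y)} (hf : Function.Injective f) (n : ℕ) :
    Function.Injective (fun σ : C(Dl n, X) => f.comp σ) := by
  intro σ τ h
  ext x
  exact hf (congrArg (fun ρ : C(Dl n, Y) => ρ x) h)

theorem push_injective {f : C(X, Y)} (hf : Function.Injective f) (n : ℕ) :
    Function.Injective (push f n) :=
  Finsupp.mapDomain_injective (comp_injective hf n)

theorem In.of_push {f : C(X, Y)} (hf : Function.Injective f) {n : ℕ} {c : Ch n X} {B : Set Y}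
    (h : In B (T.push f n c)) : In (f ⁻¹' B) c := by
  classical
  intro σ hσ
  have h1 : f.comp σ ∈ (T.push f n c).support := by
    have : (T.push f n c) (f.comp σ) = c σ := Finsupp.mapDomain_apply (comp_injective hf n) c σ
    rw [Finsupp.mem_support_iff, this]
    exact Finsupp.mem_support_iff.mp hσ
  have h2 := h _ h1
  rintro _ ⟨x, rfl⟩
  exact h2 ⟨x, rfl⟩

theorem exists_push {f : C(X, Y)} (hf : IsEmbedding f) {n : ℕ} {c : Ch n Y}
    (h : In (range f) c) : ∃ c' : Ch n X, push f n c' = c := by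
  classical
  have hlift : ∀ σ : C(Dl n, Y), range σ ⊆ range f → ∃ τ : C(Dl n, X), f.comp τ = σ := by
    intro σ hσ
    choose g hg using fun x => hσ (mem_range_self x)
    refine ⟨⟨g, ?_⟩, ?_⟩
    · rw [hf.continuous_iff]
      have : f ∘ g = σ := funext hg
      rw [this]; exact σ.continuous
    · ext x; exact hg x
  have : c = c.sum fun σ r => (Finsupp.single σ r : Ch n Y) := (Finsupp.sum_single c).symm
  choose τ hτ using hlift
  refine ⟨∑ σ ∈ c.support.attach, Finsupp.single (τ σ.1 (h σ.1 σ.2)) (c σ.1), ?_⟩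
  rw [map_sum]
  conv_rhs => rw [this, Finsupp.sum, ← Finset.sum_attach]
  refine Finset.sum_congr rfl fun σ _ => ?_
  rw [push_single, hτ σ.1 (h σ.1 σ.2)]

theorem add_self' {n : ℕ} (c : Ch n X) : c + c = 0 := by
  have : (2 : ZMod 2) • c = 0 := by
    have : (2 : ZMod 2) = 0 := rfl
    rw [this, zero_smul]
  rwa [two_smul] at this

theorem split {U V : Set X} {n : ℕ} {c : Ch n X} (h : Small {U, V} c) :
    ∃ a b : Ch n X, In U a ∧ In V b ∧ c = a + b := by
  classical
  refine ⟨c.filter (fun σ => range σ ⊆ U), c.filter (fun σ => ¬ range σ ⊆ U), ?_, ?_, ?_⟩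
  · intro σ hσ
    rw [Finsupp.support_filter, Finset.mem_filter] at hσ
    exact hσ.2
  · intro σ hσ
    rw [Finsupp.support_filter, Finset.mem_filter] at hσ
    obtain ⟨W, hW, hW'⟩ := h σ hσ.1
    rcases hW with rfl | hW
    · exact absurd hW' hσ.2
    · rw [mem_singleton_iff.mp hW] at hW'; exact hW'
  · exact (Finsupp.filter_add_filter_not c _).symm

/-- the homotopy formula, all degrees ≥ 1 -/
theorem eq_of_bd_h (O : SubOp X) {n : ℕ} (c : Ch (n + 1) X) :
    c = O.s (n + 1) c + (bd (n + 1) (O.h (n + 1) c) + O.h n (bd n c)) := by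
  have h := O.bd_h n c
  rw [h]
  have h1 := add_self' (O.s (n + 1) c)
  have h2 := add_self' (O.h n (bd n c))
  calc c = c + (O.s (n + 1) c + O.s (n + 1) c) + (O.h n (bd n c) + O.h n (bd n c)) := by
        rw [h1, h2, add_zero, add_zero]
    _ = _ := by abel

end

end Exc

open Exc in
/-- node A4 -/
theorem exc_holds (hSub : NSub) : NExc := by
  intro X Y _ _ f hf L hL q
  have hinj : Function.Injective f := hf.injective
  have hpre : f ⁻¹' (f '' L)ᶜ = Lᶜ := by
    rw [preimage_compl, preimage_image_eq L hinj]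
  have hmaps : MapsTo f Lᶜ (f '' L)ᶜ := by
    intro x hx ⟨y, hy, hyx⟩
    exact hx (hinj hyx ▸ hy)
  obtain ⟨O, hO⟩ := hSub Y
  have hcov : ∀ n (c : Ch n Y), ∀ᶠ k in atTop, Small {range f, (f '' L)ᶜ} ((O k).s n c) := by
    intro n c
    refine hO {range f, (f '' L)ᶜ} ?_ n c ?_
    · rintro U (rfl | hU)
      · exact hf.isOpen_range
      · rw [mem_singleton_iff.mp hU]; exact hL.isOpen_compl
    · have : ⋃₀ {range f, (f '' L)ᶜ} = (univ : Set Y) := by
        rw [sUnion_pair]
        apply eq_univ_of_forall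
        intro y
        by_cases hy : y ∈ range f
        · exact Or.inl hy
        · exact Or.inr fun h => hy (image_subset_range _ _ h)
      rw [this]
      intro σ _
      exact subset_univ _
  refine ⟨?_, ?_⟩
  · intro c hc
    obtain ⟨k, hk⟩ := (hcov (q + 1) c).exists
    obtain ⟨a, b, ha, hb, hab⟩ := split hk
    obtain ⟨c', hc'⟩ := exists_push hf.isEmbedding ha
    have hfor := eq_of_bd_h (O k) c
    have hbda : In (f '' L)ᶜ (bd q a) := by
      have h1 : a = (O k).s (q + 1) c + b := by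
        rw [hab, add_assoc, add_self', add_zero]
      rw [h1, map_add, (O k).bd_s]
      exact In.add (In.s _ hc) (In.bd hb)
    refine ⟨c', ?_, ?_⟩
    · have h2 : In (f '' L)ᶜ (push f q (bd q c')) := by
        rw [← bd_push, hc']; exact hbda
      have := In.of_push hinj h2
      rwa [hpre] at this
    · refine ⟨(O k).h (q + 1) c, (O k).h q (bd q c) + b, In.add (In.h _ hc) hb, ?_⟩
      rw [hc']
      conv_lhs => rw [hfor, hab]
      have h3 := add_self' a
      calc a + b + (bd (q + 1) ((O k).h (q + 1) c) + (O k).h q (bd q c)) + a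
          = (a + a) + (bd (q + 1) ((O k).h (q + 1) c) + ((O k).h q (bd q c) + b)) := by abel
        _ = _ := by rw [h3, zero_add]
  · intro c' hc'
    constructor
    · rintro ⟨b, e, he, hbe⟩
      obtain ⟨k, hk⟩ := (hcov (q + 2) b).exists
      obtain ⟨b1, b2, hb1, hb2, hb12⟩ := split hk
      obtain ⟨b1', hb1'⟩ := exists_push hf.isEmbedding hb1
      have hr : ∀ n (d : Ch n X), In (range f) (push f n d) := fun n d =>
        In.push (A := univ) f (fun σ _ => subset_univ _) (fun x _ => mem_range_self x)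
      obtain ⟨c'', hc''⟩ := exists_push hf.isEmbedding (In.s (O k) (hr (q + 1) c'))
      obtain ⟨g1, hg1⟩ := exists_push hf.isEmbedding (In.h (O k) (hr (q + 1) c'))
      obtain ⟨g2, hg2⟩ := exists_push hf.isEmbedding (In.h (O k) (hr q (bd q c')))
      have hfor := eq_of_bd_h (O k) (push f (q + 1) c')
      rw [bd_push, ← hc'', ← hg1, ← hg2, bd_push, ← map_add, ← map_add] at hfor
      have hfor' := push_injective hinj _ hfor
      -- `g2` lies in `Lᶜ`
      have hg2L : In Lᶜ g2 := by
        have h1 : In (f '' L)ᶜ (push f (q + 1) g2) := by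
          rw [hg2]; exact In.h _ (In.push f hc' hmaps)
        have := In.of_push hinj h1
        rwa [hpre] at this
      -- `c'' + bd b1'` lies in `Lᶜ`
      have h4 : In Lᶜ (c'' + bd (q + 1) b1') := by
        have h5 : push f (q + 1) (c'' + bd (q + 1) b1') = bd (q + 1) b2 + (O k).s (q + 1) e := by
          rw [map_add, hc'', ← bd_push, hb1', hbe, map_add, ← (O k).bd_s, hb12, map_add]
          have h6 := add_self' (bd (q + 1) b1)
          calc bd (q + 1) b1 + bd (q + 1) b2 + (O k).s (q + 1) e + bd (q + 1) b1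
              = (bd (q + 1) b1 + bd (q + 1) b1) + (bd (q + 1) b2 + (O k).s (q + 1) e) := by abel
            _ = _ := by rw [h6, zero_add]
        have h7 : In (f '' L)ᶜ (push f (q + 1) (c'' + bd (q + 1) b1')) := by
          rw [h5]; exact In.add (In.bd hb2) (In.s _ he)
        have := In.of_push hinj h7
        rwa [hpre] at this
      refine ⟨g1 + b1', g2 + (c'' + bd (q + 1) b1'), In.add hg2L h4, ?_⟩
      conv_lhs => rw [hfor']
      have h8 := add_self' (bd (q + 1) b1')
      rw [map_add]
      calc c'' + (bd (q + 1) g1 + g2)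
          = c'' + (bd (q + 1) g1 + g2) + (bd (q + 1) b1' + bd (q + 1) b1') := by rw [h8, add_zero]
        _ = _ := by abel
    · rintro ⟨b, e, he, hbe⟩
      refine ⟨push f (q + 2) b, push f (q + 1) e, In.push f he hmaps, ?_⟩
      rw [hbe, map_add, bd_push]

end Crest.Agent.R224.T
end
end

-- ▼ part R224/T/Prism

/-!
# R224 topological half, node A1 (NPrism): the prism operator (helper543)
-/

set_option autoImplicit false
set_option linter.unusedSectionVars false
set_option linter.unusedSimpArgs false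

noncomputable section

open Topology Set Filter

namespace Crest.Agent.R224.T

namespace Prism

/-! ### combinatorics of the prism -/

lemma two_self {M : Type*} [AddCommGroup M] [Module (ZMod 2) M] (m : M) : m + m = 0 := by
  have : (2 : ZMod 2) • m = 0 := by
    rw [show (2 : ZMod 2) = 0 from rfl, zero_smul]
  rwa [two_smul] at this

/-- abstract prism identity -/
lemma prism_sum {M : Type*} [AddCommGroup M] [Module (ZMod 2) M] (n : ℕ)
    (a : Fin (n + 2) → Fin (n + 3) → M) (b : Fin (n + 1) → Fin (n + 2) → M) (e : Fin (n + 3) → M)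
    (h1 : ∀ i j, j ≤ Fin.castSucc i → a i.succ j.castSucc = b i j)
    (h2 : ∀ i j, Fin.castSucc i < j → a i.castSucc j.succ = b i j)
    (h3 : ∀ i, a i i.castSucc = e i.castSucc) (h4 : ∀ i, a i i.succ = e i.succ) :
    ∑ i, ∑ j, a i j = e 0 + e (Fin.last _) + ∑ i, ∑ j, b i j := by
  classical
  have hsplit : ∀ i : Fin (n + 2), ∑ j, a i j = (∑ j, if j < i.castSucc then a i j else 0) +
      (e i.castSucc + e i.succ) + ∑ j, if i.succ < j then a i j else 0 := by
    intro i
    have h5 : e i.castSucc = ∑ j, if j = i.castSucc then a i j else 0 := by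
      rw [Finset.sum_ite_eq' Finset.univ i.castSucc]; simp [h3]
    have h6 : e i.succ = ∑ j, if j = i.succ then a i j else 0 := by
      rw [Finset.sum_ite_eq' Finset.univ i.succ]; simp [h4]
    rw [h5, h6, ← Finset.sum_add_distrib, ← Finset.sum_add_distrib, ← Finset.sum_add_distrib]
    refine Finset.sum_congr rfl fun j _ => ?_
    rcases lt_trichotomy j i.castSucc with h | h | h
    · have h7 : j ≠ i.castSucc := h.ne
      have h8 : j ≠ i.succ := (h.trans (Fin.castSucc_lt_succ)).ne
      have h9 : ¬ i.succ < j := not_lt.2 (h.trans (Fin.castSucc_lt_succ)).le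
      simp [h, h7, h8, h9]
    · have h7 : ¬ j < i.castSucc := h.not_lt
      have h8 : j ≠ i.succ := by rw [h]; exact (Fin.castSucc_lt_succ).ne
      have h9 : ¬ i.succ < j := by rw [h]; exact not_lt.2 (Fin.castSucc_lt_succ).le
      rw [if_neg h7, if_pos h, if_neg h8, if_neg h9]
      simp
    · have h7 : ¬ j < i.castSucc := not_lt.2 h.le
      have h8 : j ≠ i.castSucc := h.ne'
      rcases eq_or_lt_of_le (Fin.castSucc_lt_iff_succ_le.1 h) with h9 | h9
      · rw [if_neg h7, if_neg h8, if_pos h9.symm, if_neg (by rw [h9]; exact lt_irrefl _)]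
        simp
      · rw [if_neg h7, if_neg h8, if_neg h9.ne', if_pos h9]
        simp
  rw [Finset.sum_congr rfl fun i _ => hsplit i, Finset.sum_add_distrib, Finset.sum_add_distrib]
  have hA : (∑ i : Fin (n + 2), ∑ j : Fin (n + 3), if j < i.castSucc then a i j else 0) =
      ∑ i : Fin (n + 1), ∑ j : Fin (n + 2), if j ≤ i.castSucc then b i j else 0 := by
    rw [Fin.sum_univ_succ]
    have h0 : (∑ j : Fin (n + 3), if j < (0 : Fin (n + 2)).castSucc then a 0 j else 0) = 0 := by
      refine Finset.sum_eq_zero fun j _ => ?_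
      rw [if_neg]
      simp
    rw [h0, zero_add]
    refine Finset.sum_congr rfl fun i _ => ?_
    rw [Fin.sum_univ_castSucc]
    have h0 : ¬ (Fin.last (n + 2) < i.succ.castSucc) := not_lt.2 (Fin.le_last _)
    rw [if_neg h0, add_zero]
    refine Finset.sum_congr rfl fun j _ => ?_
    by_cases h : j ≤ i.castSucc
    · have h' : j.castSucc < i.succ.castSucc := by
        rw [Fin.le_def] at h; rw [Fin.lt_def]; simp at *; omega
      rw [if_pos h, if_pos h', h1 i j h]
    · have h' : ¬ j.castSucc < i.succ.castSucc := by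
        rw [Fin.le_def] at h; rw [Fin.lt_def]; simp at *; omega
      rw [if_neg h, if_neg h']
  have hB : (∑ i : Fin (n + 2), ∑ j : Fin (n + 3), if i.succ < j then a i j else 0) =
      ∑ i : Fin (n + 1), ∑ j : Fin (n + 2), if i.castSucc < j then b i j else 0 := by
    rw [Fin.sum_univ_castSucc]
    have h0 : (∑ j : Fin (n + 3), if (Fin.last (n + 1)).succ < j then a (Fin.last _) j else 0) =
        0 := by
      refine Finset.sum_eq_zero fun j _ => ?_
      rw [if_neg]
      exact not_lt.2 (Fin.le_last _)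
    rw [h0, add_zero]
    refine Finset.sum_congr rfl fun i _ => ?_
    rw [Fin.sum_univ_succ]
    have h0 : ¬ ((i.castSucc).succ < (0 : Fin (n + 3))) := not_lt.2 (Fin.zero_le _)
    rw [if_neg h0, zero_add]
    refine Finset.sum_congr rfl fun j _ => ?_
    by_cases h : i.castSucc < j
    · have h' : (i.castSucc).succ < j.succ := Fin.succ_lt_succ_iff.2 h
      rw [if_pos h, if_pos h', h2 i j h]
    · have h' : ¬ (i.castSucc).succ < j.succ := fun h'' => h (Fin.succ_lt_succ_iff.1 h'')
      rw [if_neg h, if_neg h']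
  rw [hA, hB]
  have hC : (∑ i : Fin (n + 1), ∑ j : Fin (n + 2), if j ≤ i.castSucc then b i j else 0) +
      (∑ i : Fin (n + 1), ∑ j : Fin (n + 2), if i.castSucc < j then b i j else 0) =
      ∑ i, ∑ j, b i j := by
    rw [← Finset.sum_add_distrib]
    refine Finset.sum_congr rfl fun i _ => ?_
    rw [← Finset.sum_add_distrib]
    refine Finset.sum_congr rfl fun j _ => ?_
    by_cases h : j ≤ i.castSucc
    · simp [h, not_lt.2 h]
    · simp [h, not_le.1 h]
  have hE : (∑ i : Fin (n + 2), (e i.castSucc + e i.succ)) = e 0 + e (Fin.last _) := by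
    rw [Finset.sum_add_distrib]
    have e1 := Fin.sum_univ_castSucc e
    have e2 := Fin.sum_univ_succ e
    have e3 := two_self (∑ i : Fin (n + 2), e i.succ)
    have e4 := two_self (e (Fin.last (n + 2)))
    have e5 : ∑ i : Fin (n + 2), e i.castSucc = e 0 + ∑ i : Fin (n + 2), e i.succ +
        e (Fin.last (n + 2)) := by
      rw [← e2, e1, add_assoc, e4, add_zero]
    rw [e5]
    calc e 0 + ∑ i : Fin (n + 2), e i.succ + e (Fin.last (n + 2)) + ∑ i : Fin (n + 2), e i.succ
        = e 0 + e (Fin.last (n + 2)) + (∑ i : Fin (n + 2), e i.succ + ∑ i : Fin (n + 2), e i.succ)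
          := by abel
      _ = _ := by rw [e3, add_zero]
  rw [hE, ← hC]
  abel

/-! ### the prism simplices -/

/-- mass of a point of the simplex on the set `T` of vertices -/
def mass {m : ℕ} (T : Fin (m + 1) → Prop) [DecidablePred T] (x : Dl m) : unitInterval :=
  ⟨∑ k, if T k then x k else 0, Finset.sum_nonneg fun k _ => by
      split_ifs
      · exact stdSimplex.zero_le x k
      · exact le_rfl, by
    calc (∑ k, if T k then x k else 0) ≤ ∑ k, x k := Finset.sum_le_sum fun k _ => by
          split_ifs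
          · exact le_rfl
          · exact stdSimplex.zero_le x k
      _ = 1 := stdSimplex.sum_eq_one x⟩

lemma continuous_coord {m : ℕ} (k : Fin (m + 1)) : Continuous fun x : Dl m => x k :=
  (continuous_apply k).comp continuous_subtype_val

lemma continuous_mass {m : ℕ} (T : Fin (m + 1) → Prop) [DecidablePred T] :
    Continuous (mass T) := by
  refine Continuous.subtype_mk (continuous_finsetSum _ fun k _ => ?_) _
  split_ifs
  · exact continuous_coord k
  · exact continuous_const

lemma map_apply {m k : ℕ} (f : Fin (m + 1) → Fin (k + 1)) (x : Dl m) (j : Fin (k + 1)) :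
    stdSimplex.map f x j = ∑ l, if f l = j then x l else 0 := by
  rw [stdSimplex.map_coe, FunOnFinite.linearMap_apply_apply, Finset.sum_filter]

lemma mass_map {m k : ℕ} (f : Fin (m + 1) → Fin (k + 1)) (T : Fin (k + 1) → Prop) [DecidablePred T]
    (x : Dl m) : mass T (stdSimplex.map f x) = mass (fun l => T (f l)) x := by
  apply Subtype.ext
  simp only [mass]
  have h : ∀ j : Fin (k + 1), (if T j then (stdSimplex.map f x) j else 0) =
      ∑ l, if f l = j then (if T (f l) then x l else 0) else 0 := by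
    intro j
    rw [map_apply]
    split_ifs with hT
    · refine Finset.sum_congr rfl fun l _ => ?_
      split_ifs with h1 h2
      · rfl
      · exact absurd (h1 ▸ hT) h2
      · rfl
    · symm
      refine Finset.sum_eq_zero fun l _ => ?_
      split_ifs with h1 h2
      · exact absurd (h1 ▸ h2) hT
      · rfl
      · rfl
  rw [Finset.sum_congr rfl fun j _ => h j, Finset.sum_comm]
  refine Finset.sum_congr rfl fun l _ => ?_
  simp

lemma mass_congr {m : ℕ} {T T' : Fin (m + 1) → Prop} [DecidablePred T] [DecidablePred T']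
    (h : ∀ k, T k ↔ T' k) (x : Dl m) : mass T x = mass T' x := by
  apply Subtype.ext
  simp only [mass]
  exact Finset.sum_congr rfl fun k _ => by simp [h k]

variable {X Y : Type} [TopologicalSpace X] [TopologicalSpace Y]

/-- general simplex of the prism -/
def gs (H : C(X × unitInterval, Y)) {n m : ℕ} (σ : C(Dl n, X)) (f : Fin (m + 1) → Fin (n + 1))
    (T : Fin (m + 1) → Prop) [DecidablePred T] : C(Dl m, Y) :=
  ⟨fun x => H (σ (stdSimplex.map f x), mass T x),
    H.continuous.comp ((σ.continuous.comp (stdSimplex.continuous_map f)).prodMk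
      (continuous_mass T))⟩

lemma gs_face (H : C(X × unitInterval, Y)) {n m : ℕ} (σ : C(Dl n, X))
    (f : Fin (m + 2) → Fin (n + 1)) (T : Fin (m + 2) → Prop) [DecidablePred T] (j : Fin (m + 2)) :
    (gs H σ f T).comp (face m j) = gs H σ (f ∘ j.succAbove) (fun l => T (j.succAbove l)) := by
  ext x
  simp only [gs, face, ContinuousMap.comp_apply, ContinuousMap.coe_mk]
  rw [stdSimplex.map_comp_apply, mass_map]

lemma gs_comp_face (H : C(X × unitInterval, Y)) {n m : ℕ} (σ : C(Dl (n + 1), X))
    (f : Fin (m + 1) → Fin (n + 1)) (T : Fin (m + 1) → Prop) [DecidablePred T] (j : Fin (n + 2)) :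
    gs H (σ.comp (face n j)) f T = gs H σ (j.succAbove ∘ f) T := by
  ext x
  simp only [gs, face, ContinuousMap.comp_apply, ContinuousMap.coe_mk]
  rw [stdSimplex.map_comp_apply]

lemma gs_congr (H : C(X × unitInterval, Y)) {n m : ℕ} (σ : C(Dl n, X))
    {f f' : Fin (m + 1) → Fin (n + 1)} {T T' : Fin (m + 1) → Prop} [DecidablePred T]
    [DecidablePred T'] (hf : ∀ k, f k = f' k) (hT : ∀ k, T k ↔ T' k) :
    gs H σ f T = gs H σ f' T' := by
  obtain rfl : f = f' := funext hf
  ext x
  simp only [gs, ContinuousMap.coe_mk]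
  rw [mass_congr hT]

lemma gs_range (H : C(X × unitInterval, Y)) {n m : ℕ} (σ : C(Dl n, X))
    (f : Fin (m + 1) → Fin (n + 1)) (T : Fin (m + 1) → Prop) [DecidablePred T] :
    range (gs H σ f T) ⊆ H '' (range σ ×ˢ univ) := by
  rintro _ ⟨x, rfl⟩
  exact ⟨_, ⟨⟨_, rfl⟩, trivial⟩, rfl⟩

/-- the `i`-th prism simplex -/
def ps (H : C(X × unitInterval, Y)) {n : ℕ} (σ : C(Dl n, X)) (i : Fin (n + 1)) :
    C(Dl (n + 1), Y) :=
  gs H σ i.predAbove fun k => i.castSucc < k

/-- the prism operator -/
def P (H : C(X × unitInterval, Y)) (n : ℕ) : Ch n X →ₗ[ZMod 2] Ch (n + 1) Y :=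
  Finsupp.linearCombination (ZMod 2) fun σ : C(Dl n, X) =>
    ∑ i : Fin (n + 1), Finsupp.single (ps H σ i) (1 : ZMod 2)

lemma P_single (H : C(X × unitInterval, Y)) (n : ℕ) (σ : C(Dl n, X)) :
    P H n (Finsupp.single σ 1) = ∑ i : Fin (n + 1), Finsupp.single (ps H σ i) (1 : ZMod 2) := by
  simp [P]

lemma bd_single {n : ℕ} (σ : C(Dl (n + 1), X)) :
    bd n (Finsupp.single σ 1) = ∑ i : Fin (n + 2), Finsupp.single (σ.comp (face n i)) (1 : ZMod 2) := by
  simp [bd]

lemma push_single (f : C(X, Y)) {n : ℕ} (σ : C(Dl n, X)) :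
    push f n (Finsupp.single σ 1) = Finsupp.single (f.comp σ) (1 : ZMod 2) := by
  simp [push]

lemma val_succAbove {n : ℕ} (j : Fin (n + 1)) (k : Fin n) :
    (j.succAbove k).val = if k.val < j.val then k.val else k.val + 1 := by
  simp only [Fin.succAbove, Fin.lt_def, Fin.val_castSucc]
  split_ifs <;> simp

lemma val_predAbove {n : ℕ} (i : Fin n) (k : Fin (n + 1)) :
    (i.predAbove k).val = if i.val < k.val then k.val - 1 else k.val := by
  simp only [Fin.predAbove, Fin.lt_def, Fin.val_castSucc]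
  split_ifs <;> simp

lemma predAbove_succ_succAbove_castSucc {n : ℕ} (i : Fin (n + 1)) (j : Fin (n + 2))
    (h : j ≤ i.castSucc) (k : Fin (n + 2)) :
    i.succ.predAbove (j.castSucc.succAbove k) = j.succAbove (i.predAbove k) := by
  ext
  simp only [val_predAbove, val_succAbove, Fin.val_succ, Fin.val_castSucc, Fin.le_def] at *
  split_ifs <;> omega

lemma predAbove_castSucc_succAbove_succ {n : ℕ} (i : Fin (n + 1)) (j : Fin (n + 2))
    (h : i.castSucc < j) (k : Fin (n + 2)) :
    i.castSucc.predAbove (j.succ.succAbove k) = j.succAbove (i.predAbove k) := by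
  ext
  simp only [val_predAbove, val_succAbove, Fin.val_succ, Fin.val_castSucc, Fin.lt_def] at *
  split_ifs <;> omega

/-- the edge simplices `[v_0..v_{m-1}, w_m..w_n]` of the prism -/
def es (H : C(X × unitInterval, Y)) {n : ℕ} (σ : C(Dl n, X)) (m : Fin (n + 2)) : C(Dl n, Y) :=
  gs H σ id fun k => m ≤ k.castSucc

lemma ps_face_one (H : C(X × unitInterval, Y)) {n : ℕ} (σ : C(Dl (n + 1), X)) (i : Fin (n + 1))
    (j : Fin (n + 2)) (h : j ≤ i.castSucc) :
    (ps H σ i.succ).comp (face (n + 1) j.castSucc) = ps H (σ.comp (face n j)) i := by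
  rw [ps, ps, gs_face, gs_comp_face]
  refine gs_congr H σ (fun k => predAbove_succ_succAbove_castSucc i j h k) fun k => ?_
  simp only [val_succAbove, Fin.val_succ, Fin.val_castSucc, Fin.lt_def, Fin.le_def] at *
  split_ifs <;> omega

lemma ps_face_two (H : C(X × unitInterval, Y)) {n : ℕ} (σ : C(Dl (n + 1), X)) (i : Fin (n + 1))
    (j : Fin (n + 2)) (h : i.castSucc < j) :
    (ps H σ i.castSucc).comp (face (n + 1) j.succ) = ps H (σ.comp (face n j)) i := by
  rw [ps, ps, gs_face, gs_comp_face]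
  refine gs_congr H σ (fun k => predAbove_castSucc_succAbove_succ i j h k) fun k => ?_
  simp only [val_succAbove, Fin.val_succ, Fin.val_castSucc, Fin.lt_def, Fin.le_def] at *
  split_ifs <;> omega

lemma ps_face_three (H : C(X × unitInterval, Y)) {n : ℕ} (σ : C(Dl n, X)) (i : Fin (n + 1)) :
    (ps H σ i).comp (face n i.castSucc) = es H σ i.castSucc := by
  rw [ps, es, gs_face]
  refine gs_congr H σ (fun k => ?_) fun k => ?_
  · simp
  · simp only [val_succAbove, Fin.val_succ, Fin.val_castSucc, Fin.lt_def, Fin.le_def] at *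
    split_ifs <;> omega

lemma ps_face_four (H : C(X × unitInterval, Y)) {n : ℕ} (σ : C(Dl n, X)) (i : Fin (n + 1)) :
    (ps H σ i).comp (face n i.succ) = es H σ i.succ := by
  rw [ps, es, gs_face]
  refine gs_congr H σ (fun k => ?_) fun k => ?_
  · ext
    simp only [Function.comp_apply, val_predAbove, val_succAbove, Fin.val_succ, id]
    split_ifs <;> omega
  · simp only [val_succAbove, Fin.val_succ, Fin.val_castSucc, Fin.lt_def, Fin.le_def] at *
    split_ifs <;> omega

lemma es_zero (H : C(X × unitInterval, Y)) {n : ℕ} (σ : C(Dl n, X)) :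
    es H σ 0 = (H.comp ⟨fun x => (x, 1), by fun_prop⟩).comp σ := by
  ext x
  simp only [es, gs, ContinuousMap.comp_apply, ContinuousMap.coe_mk, stdSimplex.map_id_apply]
  congr 2
  apply Subtype.ext
  simp [mass]

lemma es_last (H : C(X × unitInterval, Y)) {n : ℕ} (σ : C(Dl n, X)) :
    es H σ (Fin.last _) = (H.comp ⟨fun x => (x, 0), by fun_prop⟩).comp σ := by
  ext x
  simp only [es, gs, ContinuousMap.comp_apply, ContinuousMap.coe_mk, stdSimplex.map_id_apply]
  congr 2
  apply Subtype.ext
  simp [mass]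

theorem P_supp (H : C(X × unitInterval, Y)) (n : ℕ) (σ : C(Dl n, X)) :
    ∀ τ ∈ (P H n (Finsupp.single σ 1)).support, range τ ⊆ H '' (range σ ×ˢ univ) := by
  classical
  intro τ hτ
  rw [P_single] at hτ
  obtain ⟨i, -, hi⟩ := Finset.mem_biUnion.1 (Finsupp.support_finsetSum hτ)
  have := Finsupp.support_single_subset hi
  simp only [Finset.mem_singleton] at this
  rw [this]
  exact gs_range H σ _ _

theorem bd_P (H : C(X × unitInterval, Y)) (n : ℕ) (c : Ch (n + 1) X) :
    bd (n + 1) (P H (n + 1) c) =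
      push (H.comp ⟨fun x => (x, 1), by fun_prop⟩) (n + 1) c +
      push (H.comp ⟨fun x => (x, 0), by fun_prop⟩) (n + 1) c + P H n (bd n c) := by
  induction c using Finsupp.induction_linear with
  | zero => simp
  | add f g hf hg =>
    simp only [map_add] at *
    rw [hf, hg]
    abel
  | single σ r =>
    have hr : Finsupp.single σ r = r • Finsupp.single σ (1 : ZMod 2) := by simp
    rw [hr]
    simp only [map_smul, ← smul_add]
    congr 1
    rw [P_single, map_sum, push_single, push_single, bd_single, map_sum]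
    simp only [bd_single, P_single]
    rw [← es_zero, ← es_last]
    rw [prism_sum n (fun i j => Finsupp.single ((ps H σ i).comp (face (n + 1) j)) (1 : ZMod 2))
      (fun i j => Finsupp.single (ps H (σ.comp (face n j)) i) (1 : ZMod 2))
      (fun m => Finsupp.single (es H σ m) (1 : ZMod 2))
      (fun i j h => by rw [ps_face_one H σ i j h]) (fun i j h => by rw [ps_face_two H σ i j h])
      (fun i => by rw [ps_face_three]) (fun i => by rw [ps_face_four])]
    rw [Finset.sum_comm]

theorem bd_P_zero (H : C(X × unitInterval, Y)) (c : Ch 0 X) :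
    bd 0 (P H 0 c) = push (H.comp ⟨fun x => (x, 1), by fun_prop⟩) 0 c +
      push (H.comp ⟨fun x => (x, 0), by fun_prop⟩) 0 c := by
  induction c using Finsupp.induction_linear with
  | zero => simp
  | add f g hf hg =>
    simp only [map_add] at *
    rw [hf, hg]
    abel
  | single σ r =>
    have hr : Finsupp.single σ r = r • Finsupp.single σ (1 : ZMod 2) := by simp
    rw [hr]
    simp only [map_smul, ← smul_add]
    congr 1
    rw [P_single, map_sum, push_single, push_single]
    simp only [bd_single]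
    rw [← es_zero, ← es_last]
    have h0 := ps_face_three H σ 0
    have h1 := ps_face_four H σ 0
    have h0' : (ps H σ 0).comp (face 0 0) = es H σ 0 := h0
    have h1' : (ps H σ 0).comp (face 0 (Fin.succ 0)) = es H σ (Fin.last 1) := h1
    simp only [Fin.sum_univ_succ, Fin.sum_univ_zero, add_zero]
    rw [h0', h1']

end Prism

/-- Node A1. -/
theorem nPrism : NPrism := fun _ _ _ _ H =>
  ⟨Prism.P H, Prism.bd_P_zero H, Prism.bd_P H, Prism.P_supp H⟩

end Crest.Agent.R224.T
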