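/-
R224 / S0346, topological half: elementary calculus of mod 2 singular chains (helper36).
-/
import Crest.Agent.R224.T.Defs

set_option autoImplicit false

noncomputable section

open Topology Set Filter

namespace Crest.Agent.R224.T

variable {X Y Z : Type} [TopologicalSpace X] [TopologicalSpace Y] [TopologicalSpace Z]

/-! ### characteristic two -/

theorem add_self {n : ℕ} (c : Ch n X) : c + c = 0 := by
  ext σ
  simpa using CharTwo.add_self_eq_zero (c σ)

theorem neg_eq {n : ℕ} (c : Ch n X) : -c = c := by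
  rw [neg_eq_iff_add_eq_zero]; exact add_self c

theorem sub_eq {n : ℕ} (c c' : Ch n X) : c - c' = c + c' := by
  rw [sub_eq_add_neg, neg_eq]

theorem add_eq_zero_iff {n : ℕ} (c c' : Ch n X) : c + c' = 0 ↔ c = c' := by
  rw [← sub_eq, sub_eq_zero]


theorem add_add_cancel {n : ℕ} (a b : Ch n X) : a + (a + b) = b := by
  rw [← add_assoc, add_self, zero_add]

theorem add_add_cancel' {n : ℕ} (a b : Ch n X) : a + b + b = a := by
  rw [add_assoc, add_self, add_zero]

/-! ### operators on simplices -/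

theorem bd_single (n : ℕ) (σ : C(Dl (n + 1), X)) :
    bd n (Finsupp.single σ 1) = ∑ i : Fin (n + 2), Finsupp.single (σ.comp (face n i)) (1 : ZMod 2) := by
  simp [bd]

theorem push_single (f : C(X, Y)) (n : ℕ) (σ : C(Dl n, X)) :
    push f n (Finsupp.single σ 1) = Finsupp.single (f.comp σ) 1 := by
  simp [push]

/-- induction on chains -/
theorem chain_ind {n : ℕ} {P : Ch n X → Prop} (c : Ch n X) (h0 : P 0)
    (hadd : ∀ a b, P a → P b → P (a + b)) (hs : ∀ σ, P (Finsupp.single σ 1)) : P c := by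
  induction c using Finsupp.induction_linear with
  | zero => exact h0
  | add f g hf hg => exact hadd f g hf hg
  | single σ a =>
    rcases (by decide : ∀ a : ZMod 2, a = 0 ∨ a = 1) a with h | h
    · subst h; simpa using h0
    · subst h; exact hs σ

/-- two linear maps on chains agreeing on simplices are equal -/
theorem lin_ext {n : ℕ} {V : Type} [AddCommGroup V] [Module (ZMod 2) V]
    (S T : Ch n X →ₗ[ZMod 2] V) (h : ∀ σ, S (Finsupp.single σ 1) = T (Finsupp.single σ 1))
    (c : Ch n X) : S c = T c := by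
  refine chain_ind (P := fun c => S c = T c) c (by simp) ?_ h
  intro a b ha hb
  simp only [map_add, ha, hb]

theorem face_comp_face (n : ℕ) (j : Fin (n + 3)) (i : Fin (n + 2)) :
    (face (n + 1) j).comp (face n i) =
      (face (n + 1) (j.succAbove i)).comp (face n (i.predAbove j)) := by
  ext1 x
  show stdSimplex.map _ (stdSimplex.map _ x) = stdSimplex.map _ (stdSimplex.map _ x)
  rw [stdSimplex.map_comp_apply, stdSimplex.map_comp_apply]
  congr 1
  funext k
  exact (Fin.succAbove_succAbove_succAbove_predAbove j i k).symm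

theorem bd_bd (n : ℕ) (c : Ch (n + 2) X) : bd n (bd (n + 1) c) = 0 := by
  refine lin_ext ((bd n).comp (bd (n + 1))) 0 (fun σ => ?_) c
  simp only [LinearMap.comp_apply, bd_single, map_sum, LinearMap.zero_apply]
  rw [← Fintype.sum_prod_type' (fun (j : Fin (n + 3)) (i : Fin (n + 2)) =>
    (Finsupp.single ((σ.comp (face (n + 1) j)).comp (face n i)) (1 : ZMod 2) : Ch n X))]
  refine Finset.sum_involution (fun (p : Fin (n + 3) × Fin (n + 2)) _ =>
    (p.1.succAbove p.2, p.2.predAbove p.1)) ?_ ?_ ?_ ?_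
  · rintro ⟨j, i⟩ -
    simp only
    rw [ContinuousMap.comp_assoc, ContinuousMap.comp_assoc, face_comp_face n j i]
    exact add_self _
  · rintro ⟨j, i⟩ - - h
    simp only [Prod.mk.injEq] at h
    exact Fin.succAbove_ne j i h.1
  · intro a _
    simp
  · rintro ⟨j, i⟩ -
    simp only [Prod.mk.injEq]
    exact ⟨Fin.succAbove_succAbove_predAbove j i, Fin.predAbove_predAbove_succAbove j i⟩

theorem push_push (f : C(X, Y)) (g : C(Y, Z)) (n : ℕ) (c : Ch n X) :
    push g n (push f n c) = push (g.comp f) n c := by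
  refine lin_ext ((push g n).comp (push f n)) (push (g.comp f) n) (fun σ => ?_) c
  simp only [LinearMap.comp_apply, push_single, ContinuousMap.comp_assoc]

theorem push_id (n : ℕ) (c : Ch n X) : push (ContinuousMap.id X) n c = c := by
  refine lin_ext (push (ContinuousMap.id X) n) LinearMap.id (fun σ => ?_) c
  simp [push_single]

theorem bd_push (f : C(X, Y)) (n : ℕ) (c : Ch (n + 1) X) :
    bd n (push f (n + 1) c) = push f n (bd n c) := by
  refine lin_ext ((bd n).comp (push f (n + 1))) ((push f n).comp (bd n)) (fun σ => ?_) c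
  simp only [LinearMap.comp_apply, push_single, bd_single, map_sum, ContinuousMap.comp_assoc]

theorem push_injective {f : C(X, Y)} (hf : Function.Injective f) (n : ℕ) :
    Function.Injective (push f n) := by
  refine Finsupp.mapDomain_injective fun σ τ h => ?_
  ext1 x
  exact hf (DFunLike.congr_fun h x)

/-! ### the predicate `In` -/

theorem range_face_subset {n : ℕ} (σ : C(Dl (n + 1), X)) (i : Fin (n + 2)) :
    range (σ.comp (face n i)) ⊆ range σ := by
  rintro _ ⟨x, rfl⟩
  exact ⟨face n i x, rfl⟩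

theorem In_iff_supported {A : Set X} {n : ℕ} {c : Ch n X} :
    In A c ↔ c ∈ Finsupp.supported (ZMod 2) (ZMod 2) {σ : C(Dl n, X) | range σ ⊆ A} := by
  rw [Finsupp.mem_supported]
  exact Iff.rfl

theorem In_zero (A : Set X) (n : ℕ) : In A (0 : Ch n X) := by
  intro σ hσ; simp at hσ

theorem In.add {A : Set X} {n : ℕ} {a b : Ch n X} (ha : In A a) (hb : In A b) : In A (a + b) := by
  rw [In_iff_supported] at *
  exact Submodule.add_mem _ ha hb

theorem In.sum {A : Set X} {n : ℕ} {ι : Type} {s : Finset ι} {f : ι → Ch n X}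
    (h : ∀ i ∈ s, In A (f i)) : In A (∑ i ∈ s, f i) := by
  rw [In_iff_supported]
  exact Submodule.sum_mem _ fun i hi => In_iff_supported.1 (h i hi)

theorem In.smul {A : Set X} {n : ℕ} {a : Ch n X} (r : ZMod 2) (ha : In A a) : In A (r • a) := by
  rw [In_iff_supported] at *
  exact Submodule.smul_mem _ _ ha

theorem In.mono {A B : Set X} (h : A ⊆ B) {n : ℕ} {c : Ch n X} (hc : In A c) : In B c :=
  fun σ hσ => (hc σ hσ).trans h

theorem In_univ {n : ℕ} (c : Ch n X) : In univ c := fun _ _ => subset_univ _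

theorem In_inter {A B : Set X} {n : ℕ} {c : Ch n X} : In (A ∩ B) c ↔ In A c ∧ In B c :=
  ⟨fun h => ⟨h.mono inter_subset_left, h.mono inter_subset_right⟩,
    fun h σ hσ => subset_inter (h.1 σ hσ) (h.2 σ hσ)⟩

theorem In_single {A : Set X} {n : ℕ} {σ : C(Dl n, X)} :
    In A (Finsupp.single σ (1 : ZMod 2) : Ch n X) ↔ range σ ⊆ A := by
  constructor
  · intro h; exact h σ (by simp)
  · intro h τ hτ
    have : τ = σ := by
      have := Finsupp.support_single_subset hτ
      simpa using this
    rw [this]; exact h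


theorem eq_zero_of_In_empty {n : ℕ} {c : Ch n X} (h : In (∅ : Set X) c) : c = 0 := by
  rw [← Finsupp.support_eq_empty]
  rw [Finset.eq_empty_iff_forall_notMem]
  intro σ hσ
  have h1 := h σ hσ
  have h2 : Nonempty (Dl n) := ⟨stdSimplex.vertex 0⟩
  obtain ⟨x⟩ := h2
  exact h1 ⟨x, rfl⟩

/-- decomposition of a chain of `A` as a sum of simplices of `A` -/
theorem In.ind {A : Set X} {n : ℕ} {P : Ch n X → Prop} {c : Ch n X} (hc : In A c) (h0 : P 0)
    (hadd : ∀ a b, P a → P b → P (a + b)) (hs : ∀ σ : C(Dl n, X), range σ ⊆ A → P (Finsupp.single σ 1)) : P c := by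
  classical
  have key : ∀ s : Finset C(Dl n, X), (∀ σ ∈ s, range σ ⊆ A) →
      P (∑ σ ∈ s, Finsupp.single σ (1 : ZMod 2)) := by
    intro s
    induction s using Finset.induction_on with
    | empty => intro _; simpa using h0
    | insert a s ha ih =>
      intro h
      rw [Finset.sum_insert ha]
      exact hadd _ _ (hs _ (h a (Finset.mem_insert_self a s)))
        (ih fun σ hσ => h σ (Finset.mem_insert_of_mem hσ))
  have h1 : c = ∑ σ ∈ c.support, Finsupp.single σ (1 : ZMod 2) := by
    conv_lhs => rw [← Finsupp.sum_single c]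
    refine Finset.sum_congr rfl fun σ hσ => ?_
    rcases (by decide : ∀ a : ZMod 2, a = 0 ∨ a = 1) (c σ) with h | h
    · exact absurd h (Finsupp.mem_support_iff.1 hσ)
    · rw [h]
  rw [h1]
  exact key _ hc

/-- a linear operator maps chains in `A` to chains in `B` if this is so on simplices -/
theorem In.map_lin {A : Set X} {B : Set Y} {n m : ℕ} (T : Ch n X →ₗ[ZMod 2] Ch m Y)
    (h : ∀ σ : C(Dl n, X), range σ ⊆ A → In B (T (Finsupp.single σ 1))) {c : Ch n X} (hc : In A c) : In B (T c) := by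
  refine hc.ind (P := fun c => In B (T c)) (by simpa using In_zero B m) ?_ h
  intro a b ha hb
  simpa using ha.add hb

theorem In.bd {A : Set X} {n : ℕ} {c : Ch (n + 1) X} (hc : In A c) :
    In A (Crest.Agent.R224.T.bd n c) := by
  refine hc.map_lin (Crest.Agent.R224.T.bd n) fun σ hσ => ?_
  rw [bd_single]
  exact In.sum fun i _ => In_single.2 ((range_face_subset σ i).trans hσ)

theorem In.push {A : Set X} {n : ℕ} {c : Ch n X} (hc : In A c) (f : C(X, Y)) :
    In (f '' A) (Crest.Agent.R224.T.push f n c) := by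
  refine hc.map_lin (Crest.Agent.R224.T.push f n) fun σ hσ => ?_
  rw [push_single, In_single]
  rintro _ ⟨x, rfl⟩
  exact ⟨σ x, hσ ⟨x, rfl⟩, rfl⟩

theorem In.push_of_mapsTo {A : Set X} {B : Set Y} {n : ℕ} {c : Ch n X} (hc : In A c) {f : C(X, Y)}
    (h : MapsTo f A B) : In B (Crest.Agent.R224.T.push f n c) :=
  (hc.push f).mono h.image_subset



/-- chains in `range f` come from chains of `X` when `f` is an embedding -/
theorem exists_push_eq {f : C(X, Y)} (hf : IsEmbedding f) {n : ℕ} {c : Ch n Y}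
    (hc : In (range f) c) : ∃ c' : Ch n X, push f n c' = c := by
  refine hc.ind (P := fun c => ∃ c' : Ch n X, push f n c' = c) ⟨0, by simp⟩ ?_ ?_
  · rintro _ _ ⟨a, rfl⟩ ⟨b, rfl⟩
    exact ⟨a + b, by simp⟩
  · intro σ hσ
    have h1 : ∀ x, ∃ y, f y = σ x := fun x => hσ ⟨x, rfl⟩
    choose g hg using h1
    have hgc : Continuous g := by
      rw [hf.continuous_iff]
      have : (f : X → Y) ∘ g = σ := funext hg
      rw [this]; exact σ.continuous
    refine ⟨Finsupp.single ⟨g, hgc⟩ 1, ?_⟩
    rw [push_single]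
    congr 1
    ext1 x
    exact hg x

/-- the inclusion of a subset -/
def incl (A : Set X) : C(A, X) := ⟨Subtype.val, continuous_subtype_val⟩

theorem exists_incl_eq {A : Set X} {n : ℕ} {c : Ch n X} (hc : In A c) :
    ∃ c' : Ch n A, push (incl A) n c' = c := by
  refine exists_push_eq (f := incl A) IsEmbedding.subtypeVal (hc.mono ?_)
  intro x hx
  exact ⟨⟨x, hx⟩, rfl⟩

theorem In_push_incl {A : Set X} {n : ℕ} (c : Ch n A) : In A (push (incl A) n c) := by
  refine (In_univ c).push_of_mapsTo ?_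
  intro x _
  exact x.2

/-! ### subdivision operators -/




/-! ### splitting of small chains -/

theorem Small.split {A B : Set X} {n : ℕ} {c : Ch n X} (h : Small {A, B} c) :
    ∃ a b : Ch n X, In A a ∧ In B b ∧ c = a + b := by
  classical
  refine ⟨c.filter fun σ => range σ ⊆ A, c.filter fun σ => ¬ range σ ⊆ A, ?_, ?_, ?_⟩
  · intro σ hσ
    rw [Finsupp.support_filter, Finset.mem_filter] at hσ
    exact hσ.2
  · intro σ hσ
    rw [Finsupp.support_filter, Finset.mem_filter] at hσ
    obtain ⟨U, hU, hσU⟩ := h σ hσ.1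
    rcases hU with rfl | hU
    · exact absurd hσU hσ.2
    · rw [mem_singleton_iff] at hU; exact hU ▸ hσU
  · exact (Finsupp.filter_add_filter_not c _).symm

theorem Small.mono {𝒰 𝒱 : Set (Set X)} (h : ∀ U ∈ 𝒰, ∃ V ∈ 𝒱, U ⊆ V) {n : ℕ} {c : Ch n X}
    (hc : Small 𝒰 c) : Small 𝒱 c := by
  intro σ hσ
  obtain ⟨U, hU, h1⟩ := hc σ hσ
  obtain ⟨V, hV, h2⟩ := h U hU
  exact ⟨V, hV, h1.trans h2⟩

/-! ### compact supports -/

/-- the support of a chain as a compact subset of the space -/
def car {n : ℕ} (c : Ch n X) : Set X := ⋃ σ ∈ c.support, range σ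

theorem isCompact_car {n : ℕ} (c : Ch n X) : IsCompact (car c) :=
  c.support.isCompact_biUnion fun σ _ => isCompact_range σ.continuous

theorem In_iff_car {A : Set X} {n : ℕ} {c : Ch n X} : In A c ↔ car c ⊆ A := by
  simp [In, car, iUnion_subset_iff]

theorem In_car {n : ℕ} (c : Ch n X) : In (car c) c := In_iff_car.2 le_rfl


/-- a chain in the complement of a point misses a neighbourhood of it -/
theorem In.eventually [T2Space X] {p : X} {n : ℕ} {c : Ch n X} (h : In {p}ᶜ c) :
    ∀ᶠ q in 𝓝 p, In {q}ᶜ c := by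
  have h1 : IsOpen (car c)ᶜ := (isCompact_car c).isClosed.isOpen_compl
  have h2 : p ∈ (car c)ᶜ := by
    intro hp
    exact (In_iff_car.1 h) hp rfl
  filter_upwards [h1.mem_nhds h2] with q hq
  rw [In_iff_car]
  intro x hx hxq
  rw [mem_singleton_iff] at hxq
  exact hq (hxq ▸ hx)

theorem In.exists_nhds [T2Space X] {p : X} {n : ℕ} {c : Ch n X} (h : In {p}ᶜ c) :
    ∃ N ∈ 𝓝 p, In Nᶜ c := by
  have h1 : IsOpen (car c)ᶜ := (isCompact_car c).isClosed.isOpen_compl
  have h2 : p ∈ (car c)ᶜ := by
    intro hp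
    exact (In_iff_car.1 h) hp rfl
  exact ⟨(car c)ᶜ, h1.mem_nhds h2, by rw [compl_compl]; exact In_car c⟩

/-! ### the predicates `RC` and `Nul` -/

theorem RC.add {A : Set X} {n : ℕ} {a b : Ch (n + 1) X} (ha : RC A a) (hb : RC A b) : RC A (a + b) := by
  unfold RC; rw [map_add]; exact In.add ha hb

theorem RC.mono {A B : Set X} (h : A ⊆ B) {n : ℕ} {c : Ch (n + 1) X} (hc : RC A c) : RC B c :=
  In.mono h hc





theorem Nul.add {A : Set X} {n : ℕ} {a b : Ch n X} (ha : Nul A a) (hb : Nul A b) : Nul A (a + b) := by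
  obtain ⟨u, e, he, rfl⟩ := ha
  obtain ⟨v, f, hf, rfl⟩ := hb
  exact ⟨u + v, e + f, he.add hf, by rw [map_add]; abel⟩

theorem Nul.mono {A B : Set X} (h : A ⊆ B) {n : ℕ} {c : Ch n X} (hc : Nul A c) : Nul B c := by
  obtain ⟨u, e, he, rfl⟩ := hc
  exact ⟨u, e, he.mono h, rfl⟩




theorem Nul.cancel {A : Set X} {n : ℕ} {a b : Ch n X} (ha : Nul A a) (hab : Nul A (a + b)) : Nul A b := by
  have := ha.add hab
  rwa [add_add_cancel] at this

theorem Nul_congr {A : Set X} {n : ℕ} {a b : Ch n X} (h : Nul A (a + b)) : Nul A a ↔ Nul A b :=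
  ⟨fun ha => ha.cancel h, fun hb => by rw [add_comm] at h; exact hb.cancel h⟩



theorem Nul.push {A : Set X} {B : Set Y} {n : ℕ} {c : Ch n X} (hc : Nul A c) {f : C(X, Y)}
    (h : MapsTo f A B) : Nul B (Crest.Agent.R224.T.push f n c) := by
  obtain ⟨u, e, he, rfl⟩ := hc
  exact ⟨Crest.Agent.R224.T.push f (n + 1) u, Crest.Agent.R224.T.push f n e, he.push_of_mapsTo h, by
    rw [map_add, bd_push]⟩

theorem RC.push {A : Set X} {B : Set Y} {n : ℕ} {c : Ch (n + 1) X} (hc : RC A c) {f : C(X, Y)}
    (h : MapsTo f A B) : RC B (Crest.Agent.R224.T.push f (n + 1) c) := by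
  unfold RC; rw [bd_push]; exact In.push_of_mapsTo hc h




end Crest.Agent.R224.T
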