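/-
R224 / S0346, topological half, node A2 (helper838), part A: barycentric subdivision of list chains,
mesh estimate in every dimension.
-/
import Crest.Agent.R050.Sd

set_option autoImplicit false
set_option linter.unusedVariables false

noncomputable section

namespace Crest.Agent.R224.T.Sb

open Crest.Agent.R050 (lin sg cone mp Sup lin_ext lin_sg cone_sg bd_cone bd_cons mp_sg mp_bd mp_cone
  bary Sup_bd bary_mem_convexHull)

/-- list chains -/
abbrev LC (α : Type*) := Crest.Agent.R050.Ch α

/-- boundary of list chains -/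
abbrev lb {α : Type*} : LC α →ₗ[ZMod 2] LC α := Crest.Agent.R050.bd

section alg

variable {α β : Type*}

/-- subdivision of chains with a given barycenter function -/
def SD (b : List α → α) : ℕ → (LC α →ₗ[ZMod 2] LC α)
  | 0 => LinearMap.id
  | n + 1 => lin (fun l => cone (b l) (SD b n (lb (sg l))))

theorem SD_zero (b : List α → α) (c : LC α) : SD b 0 c = c := rfl

theorem SD_succ (b : List α → α) (n : ℕ) (l : List α) :
    SD b (n + 1) (sg l) = cone (b l) (SD b n (lb (sg l))) := by
  simp [SD]

theorem lb_lb (c : LC α) : lb (lb c) = 0 := Crest.Agent.R050.bd_bd c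

theorem lb_SD (b : List α → α) (n : ℕ) (c : LC α) : lb (SD b (n + 1) c) = SD b n (lb c) := by
  have key : ∀ n : ℕ, (lb ∘ₗ SD b (n + 1) : LC α →ₗ[ZMod 2] LC α) = SD b n ∘ₗ lb := by
    intro n
    induction n with
    | zero =>
      apply lin_ext
      intro l
      have h : lb (cone (b l) (lb (sg l))) = lb (sg l) + cone (b l) (lb (lb (sg l))) :=
        bd_cone _ _
      simp only [LinearMap.comp_apply, SD_succ, SD_zero]
      rw [h, lb_lb, map_zero, add_zero]
    | succ n ih =>
      apply lin_ext
      intro l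
      have h := congrArg (fun f => f (lb (sg l))) ih
      simp only [LinearMap.comp_apply, lb_lb, map_zero] at h ⊢
      have h2 : lb (cone (b l) (SD b (n + 1) (lb (sg l)))) =
        SD b (n + 1) (lb (sg l)) + cone (b l) (lb (SD b (n + 1) (lb (sg l)))) := bd_cone _ _
      rw [SD_succ b (n + 1), h2, h]
      simp
  exact congrArg (fun f => f c) (key n)

theorem mp_SD (f : α → β) (b : List α → α) (b' : List β → β)
    (hf : ∀ l : List α, l ≠ [] → f (b l) = b' (l.map f)) (n : ℕ) (c : LC α) :
    mp f (SD b n c) = SD b' n (mp f c) := by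
  have key : ∀ n : ℕ, (mp f ∘ₗ SD b n : LC α →ₗ[ZMod 2] LC β) = SD b' n ∘ₗ mp f := by
    intro n
    induction n with
    | zero => rfl
    | succ n ih =>
      apply lin_ext
      intro l
      by_cases hl : l = []
      · subst hl
        have h0 : lb (sg ([] : List α)) = 0 := Crest.Agent.R050.bd_nil
        have h0' : lb (sg ([] : List β)) = 0 := Crest.Agent.R050.bd_nil
        simp only [LinearMap.comp_apply, SD_succ, mp_sg, List.map_nil, h0, h0', map_zero]
      · have h := congrArg (fun g => g (lb (sg l))) ih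
        simp only [LinearMap.comp_apply] at h ⊢
        have h3 : mp f (lb (sg l)) = lb (mp f (sg l)) := mp_bd f _
        rw [SD_succ, mp_cone, hf l hl, h, h3, mp_sg, SD_succ]
  exact congrArg (fun f => f c) (key n)

/-- iterated subdivision -/
def SDI (b : List α → α) (n : ℕ) : ℕ → (LC α →ₗ[ZMod 2] LC α)
  | 0 => LinearMap.id
  | m + 1 => SD b n ∘ₗ SDI b n m

theorem SDI_zero (b : List α → α) (n : ℕ) (c : LC α) : SDI b n 0 c = c := rfl

theorem SDI_succ (b : List α → α) (n m : ℕ) (c : LC α) :
    SDI b n (m + 1) c = SD b n (SDI b n m c) := rfl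

theorem lb_SDI (b : List α → α) (n m : ℕ) (c : LC α) :
    lb (SDI b (n + 1) m c) = SDI b n m (lb c) := by
  induction m with
  | zero => rfl
  | succ m ih => rw [SDI_succ, lb_SD, ih, SDI_succ]

theorem mp_SDI (f : α → β) (b : List α → α) (b' : List β → β)
    (hf : ∀ l : List α, l ≠ [] → f (b l) = b' (l.map f)) (n m : ℕ) (c : LC α) :
    mp f (SDI b n m c) = SDI b' n m (mp f c) := by
  induction m with
  | zero => rfl
  | succ m ih => rw [SDI_succ, mp_SD f b b' hf, ih, SDI_succ]

theorem SDI_one (b : List α → α) (v : α) (hb : b [v] = v) (m : ℕ) :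
    SDI b 1 m (sg [v]) = sg [v] := by
  induction m with
  | zero => rfl
  | succ m ih =>
    have h0 : lb (sg [v]) = sg ([] : List α) := by
      have : lb (sg [v]) = sg ([] : List α) + cone v (lb (sg ([] : List α))) := bd_cons _ _
      rw [this, show lb (sg ([] : List α)) = 0 from Crest.Agent.R050.bd_nil, map_zero, add_zero]
    rw [SDI_succ, ih, SD_succ, hb, h0, SD_zero, cone_sg]

/-- supports and injective maps -/
theorem Sup_of_mp {f : α → β} (hf : Function.Injective f) {P : List β → Prop} {c : LC α}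
    (h : Sup P (mp f c)) : Sup (fun l => P (l.map f)) c := by
  classical
  have h1 : mp f c = Finsupp.mapDomain (List.map f) c := by
    have : (mp f : LC α →ₗ[ZMod 2] LC β) = Finsupp.lmapDomain (ZMod 2) (ZMod 2) (List.map f) := by
      apply lin_ext
      intro l
      rw [mp_sg, Finsupp.lmapDomain_apply, Finsupp.mapDomain_single]
    rw [this, Finsupp.lmapDomain_apply]
  intro l hl
  apply h
  rw [h1, Finsupp.mapDomain_support_of_injective (List.map_injective_iff.2 hf)]
  exact Finset.mem_image_of_mem _ hl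

/-- the boundary of a list given by a function -/
theorem lb_ofFn (k : ℕ) (v : Fin (k + 1) → α) :
    lb (sg (List.ofFn v)) = ∑ i : Fin (k + 1), sg (List.ofFn fun j : Fin k => v (i.succAbove j)) := by
  induction k with
  | zero =>
    have e : List.ofFn v = [v 0] := by simp [List.ofFn_succ]
    rw [e, Fin.sum_univ_succ, Fin.sum_univ_zero, add_zero, List.ofFn_zero]
    have : lb (sg [v 0]) = sg ([] : List α) + cone (v 0) (lb (sg ([] : List α))) := bd_cons _ _
    rw [this, show lb (sg ([] : List α)) = 0 from Crest.Agent.R050.bd_nil, map_zero, add_zero]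
  | succ k ih =>
    rw [List.ofFn_succ]
    have h1 : lb (sg (v 0 :: List.ofFn fun i : Fin (k + 1) => v i.succ)) =
      sg (List.ofFn fun i : Fin (k + 1) => v i.succ) +
        cone (v 0) (lb (sg (List.ofFn fun i : Fin (k + 1) => v i.succ))) := bd_cons _ _
    rw [h1, ih, map_sum]
    conv_rhs => rw [Fin.sum_univ_succ]
    congr 1
    refine Finset.sum_congr rfl fun i _ => ?_
    rw [cone_sg, List.ofFn_succ]
    simp

end alg

section mesh
variable {V : Type*} [NormedAddCommGroup V] [NormedSpace ℝ V]

theorem norm_bary_sub_le (N : ℕ) (l : List V) (w : V) (hw : w ∈ l) (d : ℝ)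
    (hd : ∀ v ∈ l, dist v w ≤ d) (h4 : l.length ≤ N + 1) :
    dist (bary l) w ≤ (N / (N + 1) : ℝ) * d := by
  have hd0 : 0 ≤ d := le_trans (by simp) (hd w hw)
  have hlpos : 0 < l.length := List.length_pos_of_mem hw
  have hpos : (0 : ℝ) < l.length := by exact_mod_cast hlpos
  obtain ⟨i0, hi0⟩ := List.get_of_mem hw
  have h : bary l - w = (l.length : ℝ)⁻¹ • ∑ i : Fin l.length, (l.get i - w) := by
    rw [Finset.sum_sub_distrib]
    simp only [Finset.sum_const, Finset.card_univ, Fintype.card_fin, smul_sub]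
    rw [← Nat.cast_smul_eq_nsmul ℝ, smul_smul, inv_mul_cancel₀ hpos.ne', one_smul]
    unfold bary
    congr 2
    rw [← List.sum_ofFn]
    congr 1
    exact (List.ofFn_get l).symm
  rw [dist_eq_norm, h, norm_smul, norm_inv, Real.norm_natCast]
  have h2 : ‖∑ i : Fin l.length, (l.get i - w)‖ ≤ (l.length - 1) * d := by
    calc ‖∑ i : Fin l.length, (l.get i - w)‖ ≤ ∑ i : Fin l.length, ‖l.get i - w‖ :=
          norm_sum_le _ _
      _ = ∑ i ∈ Finset.univ.erase i0, ‖l.get i - w‖ := by
          rw [← Finset.add_sum_erase _ _ (Finset.mem_univ i0), hi0]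
          simp
      _ ≤ ∑ i ∈ Finset.univ.erase i0, d := by
          apply Finset.sum_le_sum
          intro i _
          rw [← dist_eq_norm]
          exact hd _ (List.get_mem l i)
      _ = (l.length - 1) * d := by
          rw [Finset.sum_const, Finset.card_erase_of_mem (Finset.mem_univ _)]
          simp only [Finset.card_univ, Fintype.card_fin, nsmul_eq_mul]
          rw [Nat.cast_sub hlpos]
          simp
  have hN : (0 : ℝ) < (N : ℝ) + 1 := by positivity
  have h3 : ((l.length : ℝ) - 1) ≤ (N / (N + 1) : ℝ) * l.length := by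
    have h5 : (l.length : ℝ) ≤ N + 1 := by exact_mod_cast h4
    rw [div_mul_eq_mul_div, le_div_iff₀ hN]
    nlinarith
  calc (l.length : ℝ)⁻¹ * ‖∑ i : Fin l.length, (l.get i - w)‖
      ≤ (l.length : ℝ)⁻¹ * (((N / (N + 1) : ℝ) * l.length) * d) := by
        apply mul_le_mul_of_nonneg_left _ (by positivity)
        exact le_trans h2 (mul_le_mul_of_nonneg_right h3 hd0)
    _ = (N / (N + 1) : ℝ) * d := by field_simp

/-- mesh and hull control for one subdivision -/
theorem Sup_SD (N : ℕ) (n : ℕ) (hn : n ≤ N + 1) (l : List V) (hl : l.length = n) (d : ℝ)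
    (hd : ∀ v ∈ l, ∀ w ∈ l, dist v w ≤ d) :
    Sup (fun l' => l'.length = n ∧ (∀ v ∈ l', v ∈ convexHull ℝ {w | w ∈ l}) ∧
      ∀ v ∈ l', ∀ w ∈ l', dist v w ≤ (N / (N + 1) : ℝ) * d) (SD bary n (sg l)) := by
  induction n generalizing l with
  | zero =>
    have : l = [] := List.length_eq_zero_iff.1 hl
    subst this
    exact Sup.sg ⟨rfl, by simp, by simp⟩
  | succ n ih =>
    have hne : l ≠ [] := by intro h; subst h; simp at hl
    have hd0 : 0 ≤ d := by
      obtain ⟨v, hv⟩ := List.exists_mem_of_ne_nil l hne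
      exact le_trans (by simp) (hd v hv v hv)
    rw [SD_succ]
    have h1 : Sup (fun l' => l'.length = n ∧ (∀ v ∈ l', v ∈ convexHull ℝ {w | w ∈ l}) ∧
        ∀ v ∈ l', ∀ w ∈ l', dist v w ≤ (N / (N + 1) : ℝ) * d) (SD bary n (lb (sg l))) := by
      refine Sup.map (Sup_bd l n hl) ?_
      rintro l' ⟨hlen, hmem⟩
      refine Sup.mono (ih (by omega) l' hlen fun v hv w hw => hd v (hmem v hv) w (hmem w hw)) ?_
      rintro l'' ⟨a, b, c⟩
      exact ⟨a, fun v hv => convexHull_mono (fun w hw => hmem w hw) (b v hv), c⟩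
    refine Sup.cone h1 ?_
    rintro l' ⟨hlen, hmem, hdist⟩
    have hball : ∀ v ∈ l', dist (bary l) v ≤ (N / (N + 1) : ℝ) * d := by
      intro v hv
      have hsub : convexHull ℝ {w | w ∈ l} ⊆
          Metric.closedBall (bary l) ((N / (N + 1) : ℝ) * d) := by
        apply convexHull_min _ (convex_closedBall _ _)
        intro w hw
        rw [Metric.mem_closedBall, dist_comm]
        exact norm_bary_sub_le N l w hw d (fun v hv => hd v hv w hw) (by omega)
      have := hsub (hmem v hv)
      rwa [Metric.mem_closedBall, dist_comm] at this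
    refine ⟨by simpa using hlen, ?_, ?_⟩
    · intro v hv
      rcases List.mem_cons.1 hv with rfl | hv
      · exact bary_mem_convexHull l hne
      · exact hmem v hv
    · intro v hv w hw
      rcases List.mem_cons.1 hv with rfl | hv <;> rcases List.mem_cons.1 hw with rfl | hw
      · simpa using by positivity
      · exact hball w hw
      · rw [dist_comm]; exact hball v hv
      · exact hdist v hv w hw

/-- mesh control for iterated subdivision -/
theorem Sup_SDI (N : ℕ) (n : ℕ) (hn : n ≤ N + 1) (m : ℕ) (l : List V) (hl : l.length = n) (d : ℝ)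
    (hd : ∀ v ∈ l, ∀ w ∈ l, dist v w ≤ d) :
    Sup (fun l' => l'.length = n ∧
      ∀ v ∈ l', ∀ w ∈ l', dist v w ≤ (N / (N + 1) : ℝ) ^ m * d) (SDI bary n m (sg l)) := by
  induction m with
  | zero =>
    rw [SDI_zero]
    exact Sup.sg ⟨hl, by simpa using hd⟩
  | succ m ih =>
    rw [SDI_succ]
    refine Sup.map ih ?_
    rintro l' ⟨h1, h3⟩
    refine Sup.mono (Sup_SD N n hn l' h1 _ h3) ?_
    rintro l'' ⟨a, b, c⟩
    refine ⟨a, fun v hv w hw => ?_⟩
    have := c v hv w hw
    calc dist v w ≤ (N / (N + 1) : ℝ) * ((N / (N + 1) : ℝ) ^ m * d) := this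
      _ = (N / (N + 1) : ℝ) ^ (m + 1) * d := by ring

end mesh

end Crest.Agent.R224.T.Sb
end
private theorem rz_f60705ca35 : type_of% @_root_.Crest.Agent.R224.T.Sb.SD.eq_def := @_root_.Crest.Agent.R224.T.Sb.SD.eq_def -- L28
private theorem rz_46d5dd30bf : type_of% @_root_.Crest.Agent.R224.T.Sb.SD.eq_1 := @_root_.Crest.Agent.R224.T.Sb.SD.eq_1 -- L28
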