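/-
R224 / S0346, topological half, node A2 (helper838), part B: realisation of list chains in the
standard simplex, subdivision operators on singular chains.
-/
import Crest.Agent.R224.T.SubA
import Crest.Agent.R224.T.Basic
import Crest.Agent.R224.T.Iface

set_option autoImplicit false
set_option linter.unusedVariables false

noncomputable section

open Topology Set Filter

namespace Crest.Agent.R224.T.Sb

open Crest.Agent.R050 (lin sg cone mp Sup lin_sg cone_sg mp_sg mp_bd bary bary_mem_convexHull)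

/-! ### affine simplices -/

/-- affine simplex with given vertices -/
def aff {n k : ℕ} (v : Fin (k + 1) → Dl n) : C(Dl k, Dl n) where
  toFun t := ⟨∑ j, t j • (v j : Fin (n + 1) → ℝ),
    (convex_stdSimplex ℝ (Fin (n + 1))).sum_mem (fun j _ => stdSimplex.zero_le t j)
      (stdSimplex.sum_eq_one t) (fun j _ => (v j).2)⟩
  continuous_toFun := by
    refine Continuous.subtype_mk (continuous_finsetSum _ fun j _ => ?_) _
    exact ((continuous_apply j).comp continuous_subtype_val).smul continuous_const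

lemma aff_coe {n k : ℕ} (v : Fin (k + 1) → Dl n) (t : Dl k) :
    ((aff v t : Dl n) : Fin (n + 1) → ℝ) = ∑ j, t j • (v j : Fin (n + 1) → ℝ) := rfl

lemma map_apply' {m k : ℕ} (f : Fin (m + 1) → Fin (k + 1)) (x : Dl m) (j : Fin (k + 1)) :
    stdSimplex.map f x j = ∑ l, if f l = j then x l else 0 := by
  rw [stdSimplex.map_coe, FunOnFinite.linearMap_apply_apply, Finset.sum_filter]

lemma aff_face {n k : ℕ} (v : Fin (k + 2) → Dl n) (i : Fin (k + 2)) :
    (aff v).comp (face k i) = aff (fun j => v (i.succAbove j)) := by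
  ext1 t
  apply Subtype.ext
  change ∑ j, (stdSimplex.map i.succAbove t) j • (v j : Fin (n + 1) → ℝ) =
    ∑ j, t j • (v (i.succAbove j) : Fin (n + 1) → ℝ)
  simp only [map_apply', Finset.sum_smul]
  rw [Finset.sum_comm]
  refine Finset.sum_congr rfl fun l _ => ?_
  rw [Finset.sum_eq_single (i.succAbove l)]
  · rw [if_pos rfl]
  · intro b _ hb
    rw [if_neg (Ne.symm hb), zero_smul]
  · intro h; exact absurd (Finset.mem_univ _) h

/-- the linear map inducing a face -/
def faceL (n : ℕ) (i : Fin (n + 2)) : (Fin (n + 1) → ℝ) →ₗ[ℝ] (Fin (n + 2) → ℝ) :=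
  FunOnFinite.linearMap ℝ ℝ i.succAbove

lemma face_coe (n : ℕ) (i : Fin (n + 2)) (x : Dl n) :
    (face n i x).1 = faceL n i x.1 := rfl

lemma face_aff {n k : ℕ} (v : Fin (k + 1) → Dl n) (i : Fin (n + 2)) :
    (face n i).comp (aff v) = aff (fun j => face n i (v j)) := by
  ext1 t
  apply Subtype.ext
  change faceL n i (∑ j, t j • (v j).1) = ∑ j, t j • (face n i (v j)).1
  rw [map_sum]
  refine Finset.sum_congr rfl fun j _ => ?_
  rw [map_smul, face_coe]

/-- vertices of the standard simplex -/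
def vt (n : ℕ) (j : Fin (n + 1)) : Dl n := stdSimplex.vertex j

lemma aff_vt (n : ℕ) : aff (vt n) = ContinuousMap.id (Dl n) := by
  ext1 t
  apply Subtype.ext
  change ∑ j, t j • (Pi.single j (1 : ℝ) : Fin (n + 1) → ℝ) = (t : Fin (n + 1) → ℝ)
  funext l
  rw [Finset.sum_apply]
  simp only [Pi.smul_apply, Pi.single_apply, smul_eq_mul, mul_ite, mul_one, mul_zero]
  rw [Finset.sum_ite_eq]
  rw [if_pos (Finset.mem_univ _)]

lemma face_vt (n : ℕ) (i : Fin (n + 2)) (j : Fin (n + 1)) :
    face n i (vt n j) = vt (n + 1) (i.succAbove j) :=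
  stdSimplex.map_vertex _ _

/-! ### barycenters -/

open Classical in
/-- barycenter of a list of points of the simplex -/
def bc (n : ℕ) (l : List (Dl n)) : Dl n :=
  if h : l ≠ [] then ⟨bary (l.map Subtype.val), by
    have h1 := bary_mem_convexHull (l.map Subtype.val) (fun h0 => h (List.map_eq_nil_iff.1 h0))
    refine convexHull_min ?_ (convex_stdSimplex ℝ (Fin (n + 1))) h1
    intro w hw
    simp only [List.mem_map, mem_setOf_eq] at hw
    obtain ⟨a, _, rfl⟩ := hw
    exact a.2⟩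
  else Classical.arbitrary _

lemma bc_coe {n : ℕ} {l : List (Dl n)} (h : l ≠ []) :
    (bc n l).1 = bary (l.map Subtype.val) := by
  unfold bc
  rw [dif_pos h]

lemma face_bc {n : ℕ} (i : Fin (n + 2)) (l : List (Dl n)) (h : l ≠ []) :
    face n i (bc n l) = bc (n + 1) (l.map (face n i)) := by
  apply Subtype.ext
  rw [face_coe, bc_coe h, bc_coe (fun h0 => h (List.map_eq_nil_iff.1 h0)),
    Crest.Agent.R050.map_bary, List.map_map, List.map_map]
  rfl

/-! ### realisation -/

open Classical in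
/-- realisation of list chains as singular chains of the simplex -/
def real (n k : ℕ) : LC (Dl n) →ₗ[ZMod 2] Ch k (Dl n) :=
  lin (fun l => if h : ∃ v : Fin (k + 1) → Dl n, List.ofFn v = l
    then Finsupp.single (aff h.choose) (1 : ZMod 2) else 0)

lemma real_ofFn {n k : ℕ} (v : Fin (k + 1) → Dl n) :
    real n k (sg (List.ofFn v)) = Finsupp.single (aff v) 1 := by
  unfold real
  rw [lin_sg]
  have h : ∃ w : Fin (k + 1) → Dl n, List.ofFn w = List.ofFn v := ⟨v, rfl⟩
  rw [dif_pos h, List.ofFn_injective h.choose_spec]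

lemma real_ne {n k : ℕ} (l : List (Dl n)) (h : l.length ≠ k + 1) : real n k (sg l) = 0 := by
  unfold real
  rw [lin_sg, dif_neg]
  rintro ⟨v, rfl⟩
  exact h (List.length_ofFn)

lemma exists_ofFn {α : Type*} {l : List α} {m : ℕ} (h : l.length = m) :
    ∃ v : Fin m → α, List.ofFn v = l := by
  subst h
  exact ⟨l.get, List.ofFn_get l⟩

lemma real_bd {n k : ℕ} (c : LC (Dl n)) : bd k (real n (k + 1) c) = real n k (lb c) := by
  have : ((bd k).comp (real n (k + 1)) : LC (Dl n) →ₗ[ZMod 2] Ch k (Dl n)) =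
      (real n k).comp lb := by
    apply Crest.Agent.R050.lin_ext
    intro l
    simp only [LinearMap.comp_apply]
    by_cases hl : l.length = k + 2
    · obtain ⟨v, rfl⟩ := exists_ofFn hl
      rw [real_ofFn, bd_single, lb_ofFn, map_sum]
      refine Finset.sum_congr rfl fun i _ => ?_
      rw [aff_face, real_ofFn]
    · rw [real_ne l (by omega), map_zero]
      rcases Nat.eq_zero_or_pos l.length with h0 | h0
      · have : l = [] := List.length_eq_zero_iff.1 h0
        subst this
        rw [show lb (sg ([] : List (Dl n))) = 0 from Crest.Agent.R050.bd_nil, map_zero]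
      · obtain ⟨m, hm⟩ : ∃ m, l.length = m + 1 := ⟨l.length - 1, by omega⟩
        obtain ⟨v, rfl⟩ := exists_ofFn hm
        rw [lb_ofFn, map_sum]
        symm
        refine Finset.sum_eq_zero fun i _ => real_ne _ ?_
        rw [List.length_ofFn] at hl ⊢
        omega
  exact congrArg (fun f => f c) this

lemma real_face {n k : ℕ} (i : Fin (n + 2)) (c : LC (Dl n)) :
    real (n + 1) k (mp (face n i) c) = push (face n i) k (real n k c) := by
  have : ((real (n + 1) k).comp (mp (face n i)) : LC (Dl n) →ₗ[ZMod 2] Ch k (Dl (n + 1))) =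
      (push (face n i) k).comp (real n k) := by
    apply Crest.Agent.R050.lin_ext
    intro l
    simp only [LinearMap.comp_apply]
    by_cases hl : l.length = k + 1
    · obtain ⟨v, rfl⟩ := exists_ofFn hl
      rw [real_ofFn, mp_sg, List.map_ofFn, real_ofFn, push_single, face_aff]
      rfl
    · rw [real_ne l hl, map_zero, mp_sg, real_ne _ (by simpa using hl)]
  exact congrArg (fun f => f c) this

/-- the `m`-fold subdivision of the identity simplex -/
def kap (m n : ℕ) : Ch n (Dl n) := real n n (SDI (bc n) (n + 1) m (sg (List.ofFn (vt n))))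

/-- the identity simplex -/
def io (n : ℕ) : Ch n (Dl n) := Finsupp.single (ContinuousMap.id (Dl n)) 1

lemma kap_zero (m : ℕ) : kap m 0 = io 0 := by
  unfold kap io
  have e : List.ofFn (vt 0) = [vt 0 0] := by simp [List.ofFn_succ]
  rw [e, SDI_one _ _ (Subsingleton.elim _ _), ← e, real_ofFn, aff_vt]

lemma bd_kap (m n : ℕ) : bd n (kap m (n + 1)) = ∑ i : Fin (n + 2), push (face n i) n (kap m n) := by
  unfold kap
  rw [real_bd, lb_SDI, lb_ofFn, map_sum, map_sum]
  refine Finset.sum_congr rfl fun i _ => ?_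
  have h1 : sg (List.ofFn fun j : Fin (n + 1) => vt (n + 1) (i.succAbove j)) =
      mp (face n i) (sg (List.ofFn (vt n))) := by
    rw [mp_sg, List.map_ofFn]
    congr 2
    funext j
    exact (face_vt n i j).symm
  rw [h1, ← mp_SDI (face n i) (bc n) (bc (n + 1)) (fun l hl => face_bc i l hl), real_face]

lemma bd_io (n : ℕ) : bd n (io (n + 1)) = ∑ i : Fin (n + 2), push (face n i) n (io n) := by
  unfold io
  rw [bd_single]
  refine Finset.sum_congr rfl fun i _ => ?_
  rw [push_single]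
  rfl

/-- natural operator given by model chains -/
def nat {n k : ℕ} (X : Type) [TopologicalSpace X] (c : Ch k (Dl n)) : Ch n X →ₗ[ZMod 2] Ch k X :=
  Finsupp.linearCombination (ZMod 2) fun σ => push σ k c

lemma nat_single {n k : ℕ} {X : Type} [TopologicalSpace X] (c : Ch k (Dl n)) (σ : C(Dl n, X)) :
    nat X c (Finsupp.single σ 1) = push σ k c := by
  simp [nat]

lemma nat_bd_io {n k : ℕ} (c : Ch k (Dl n)) :
    nat (Dl (n + 1)) c (bd n (io (n + 1))) = ∑ i : Fin (n + 2), push (face n i) k c := by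
  unfold io
  rw [bd_single, map_sum]
  refine Finset.sum_congr rfl fun i _ => ?_
  rw [nat_single]
  rfl

lemma nat_push {n k : ℕ} {X Y : Type} [TopologicalSpace X] [TopologicalSpace Y]
    (c : Ch k (Dl n)) (f : C(X, Y)) (a : Ch n X) : nat Y c (push f n a) = push f k (nat X c a) := by
  refine lin_ext ((nat Y c).comp (push f n)) ((push f k).comp (nat X c)) (fun σ => ?_) a
  simp only [LinearMap.comp_apply, push_single, nat_single, push_push]

lemma bd_nat {n k : ℕ} {X : Type} [TopologicalSpace X] (c : Ch (k + 1) (Dl n)) (a : Ch n X) :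
    bd k (nat X c a) = nat X (bd k c) a := by
  refine lin_ext ((bd k).comp (nat X c)) (nat X (bd k c)) (fun σ => ?_) a
  simp only [LinearMap.comp_apply, nat_single, bd_push]

lemma nat_add {n k : ℕ} {X : Type} [TopologicalSpace X] (c c' : Ch k (Dl n)) (a : Ch n X) :
    nat X (c + c') a = nat X c a + nat X c' a := by
  refine lin_ext (nat X (c + c')) (nat X c + nat X c') (fun σ => ?_) a
  simp only [LinearMap.add_apply, nat_single, map_add]

lemma nat_io {n : ℕ} {X : Type} [TopologicalSpace X] (a : Ch n X) : nat X (io n) a = a := by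
  refine lin_ext (nat X (io n)) LinearMap.id (fun σ => ?_) a
  rw [nat_single]
  unfold io
  rw [push_single]
  rfl


/-- naturality under faces: model of the boundary -/
lemma nat_bd {n k : ℕ} {X : Type} [TopologicalSpace X] (c : Ch k (Dl n)) (a : Ch (n + 1) X) :
    nat X c (bd n a) = nat X (∑ i : Fin (n + 2), push (face n i) k c) a := by
  refine lin_ext ((nat X c).comp (bd n)) (nat X (∑ i : Fin (n + 2), push (face n i) k c))
    (fun σ => ?_) a
  simp only [LinearMap.comp_apply, bd_single, map_sum, nat_single, push_push]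

lemma supp_nat {n k : ℕ} {X : Type} [TopologicalSpace X] (c : Ch k (Dl n)) (σ : C(Dl n, X))
    (τ : C(Dl k, X)) (hτ : τ ∈ (nat X c (Finsupp.single σ 1)).support) :
    ∃ ρ ∈ c.support, τ = σ.comp ρ := by
  classical
  rw [nat_single] at hτ
  unfold push at hτ
  rw [Finsupp.lmapDomain_apply] at hτ
  have := Finsupp.mapDomain_support hτ
  rw [Finset.mem_image] at this
  obtain ⟨ρ, hρ, h⟩ := this
  exact ⟨ρ, hρ, h.symm⟩

/-! ### the homotopy, by filling -/

/-- the chain to be filled -/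
def rhs (m n : ℕ) (e : Ch (n + 1) (Dl n)) : Ch (n + 1) (Dl (n + 1)) :=
  io (n + 1) + kap m (n + 1) + ∑ i : Fin (n + 2), push (face n i) (n + 1) e

lemma bd_rhs (m n : ℕ) (e : Ch (n + 1) (Dl n)) :
    bd n (rhs m n e) = ∑ i : Fin (n + 2), push (face n i) n (io n + kap m n + bd n e) := by
  unfold rhs
  rw [map_add, map_add, bd_io, bd_kap, map_sum, ← Finset.sum_add_distrib,
    ← Finset.sum_add_distrib]
  refine Finset.sum_congr rfl fun i _ => ?_
  rw [bd_push, map_add, map_add]

lemma rhs_cycle_zero (m : ℕ) (e : Ch 1 (Dl 0)) (he : bd 0 e = io 0 + kap m 0) :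
    bd 0 (rhs m 0 e) = 0 := by
  rw [bd_rhs, he]
  refine Finset.sum_eq_zero fun i _ => ?_
  rw [add_self, map_zero]

lemma rhs_cycle_succ (m n : ℕ) (e : Ch (n + 1) (Dl n)) (e' : Ch (n + 2) (Dl (n + 1)))
    (he : bd (n + 1) e' = rhs m n e) : bd (n + 1) (rhs m (n + 1) e') = 0 := by
  rw [bd_rhs, he]
  have h1 : io (n + 1) + kap m (n + 1) + rhs m n e =
      ∑ i : Fin (n + 2), push (face n i) (n + 1) e := by
    unfold rhs
    rw [← add_assoc, add_self, zero_add]
  rw [h1, ← nat_bd_io, ← nat_bd_io]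
  have h2 : nat (Dl (n + 2)) (nat (Dl (n + 1)) e (bd n (io (n + 1)))) (bd (n + 1) (io (n + 2))) =
      nat (Dl (n + 2)) e (bd n (bd (n + 1) (io (n + 2)))) := by
    refine lin_ext (nat (Dl (n + 2)) (nat (Dl (n + 1)) e (bd n (io (n + 1)))))
      ((nat (Dl (n + 2)) e).comp (bd n)) (fun σ => ?_) (bd (n + 1) (io (n + 2)))
    simp only [LinearMap.comp_apply, nat_single]
    rw [← nat_push, ← bd_push]
    unfold io
    rw [push_single]
    rfl
  rw [h2, bd_bd, map_zero]

/-- a compatible family of homotopies -/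
lemma exists_eta (hF : NFill) (m : ℕ) : ∃ η : ∀ n, Ch (n + 1) (Dl n),
    bd 0 (η 0) = io 0 + kap m 0 ∧ ∀ n, bd (n + 1) (η (n + 1)) = rhs m n (η n) := by
  have hcontr : ∀ n, ContractibleSpace (Dl n) := fun n =>
    (convex_stdSimplex ℝ (Fin (n + 1))).contractibleSpace
      ⟨_, (inferInstance : Nonempty (Dl n)).some.2⟩
  have hfill : ∀ n (e : Ch (n + 1) (Dl n)), bd n (rhs m n e) = 0 →
      ∃ e' : Ch (n + 2) (Dl (n + 1)), bd (n + 1) e' = rhs m n e := by
    intro n e he
    have := hcontr (n + 1)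
    exact hF (Dl (n + 1)) n (rhs m n e) he
  let S : ∀ n, {e : Ch (n + 1) (Dl n) // bd n (rhs m n e) = 0} := fun n =>
    Nat.rec (motive := fun n => {e : Ch (n + 1) (Dl n) // bd n (rhs m n e) = 0})
      ⟨0, rhs_cycle_zero m 0 (by rw [map_zero, kap_zero, add_self])⟩
      (fun n e => ⟨(hfill n e.1 e.2).choose,
        rhs_cycle_succ m n e.1 _ (hfill n e.1 e.2).choose_spec⟩) n
  refine ⟨fun n => (S n).1, ?_, fun n => ?_⟩
  · change bd 0 (0 : Ch 1 (Dl 0)) = _
    rw [map_zero, kap_zero, add_self]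
  · exact (hfill n (S n).1 (S n).2).choose_spec

/-- the subdivision operators -/
def subOp (hF : NFill) (m : ℕ) (X : Type) [TopologicalSpace X] : SubOp X where
  s n := nat X (kap m n)
  h n := nat X ((exists_eta hF m).choose n)
  bd_s n c := by rw [bd_nat, bd_kap, nat_bd]
  bd_h0 c := by rw [bd_nat, (exists_eta hF m).choose_spec.1, nat_add, nat_io]
  bd_h n c := by
    rw [bd_nat, (exists_eta hF m).choose_spec.2 n]
    unfold rhs
    rw [nat_add, nat_add, nat_io, nat_bd]
  supp_s n σ τ hτ := by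
    obtain ⟨ρ, _, rfl⟩ := supp_nat _ _ _ hτ
    rintro x ⟨a, rfl⟩
    exact ⟨ρ a, rfl⟩
  supp_h n σ τ hτ := by
    obtain ⟨ρ, _, rfl⟩ := supp_nat _ _ _ hτ
    rintro x ⟨a, rfl⟩
    exact ⟨ρ a, rfl⟩

/-! ### smallness -/

lemma dist_aff_le {n k : ℕ} (v : Fin (k + 1) → Dl n) (ε : ℝ)
    (h : ∀ i j, dist (v i) (v j) ≤ ε) (t : Dl k) : dist (aff v t) (v 0) ≤ ε := by
  have h1 : ((aff v t : Dl n) : Fin (n + 1) → ℝ) ∈
      Metric.closedBall ((v 0 : Dl n) : Fin (n + 1) → ℝ) ε := by
    rw [aff_coe]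
    exact (convex_closedBall _ _).sum_mem (fun j _ => stdSimplex.zero_le t j)
      (stdSimplex.sum_eq_one t) (fun j _ => by
        rw [Metric.mem_closedBall]; exact h j 0)
  exact h1

/-- mesh of the subdivided identity simplex -/
lemma kap_mesh (n : ℕ) : ∃ d : ℝ, ∀ m, ∀ ρ ∈ (kap m n).support, ∃ v : Fin (n + 1) → Dl n,
    ρ = aff v ∧ ∀ i j, dist (v i) (v j) ≤ (n / (n + 1) : ℝ) ^ m * d := by
  classical
  have hb : Bornology.IsBounded (univ : Set (Dl n)) := isCompact_univ.isBounded
  obtain ⟨d, hd⟩ := Metric.isBounded_iff.1 hb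
  refine ⟨d, fun m ρ hρ => ?_⟩
  -- supports in `V`
  have h1 : Sup (fun l' : List (Fin (n + 1) → ℝ) => l'.length = n + 1 ∧
      ∀ v ∈ l', ∀ w ∈ l', dist v w ≤ (n / (n + 1) : ℝ) ^ m * d)
      (SDI bary (n + 1) m (sg ((List.ofFn (vt n)).map Subtype.val))) := by
    refine Sup_SDI n (n + 1) le_rfl m _ (by simp) d ?_
    intro v hv w hw
    rw [List.mem_map] at hv hw
    obtain ⟨v, _, rfl⟩ := hv
    obtain ⟨w, _, rfl⟩ := hw
    exact hd (mem_univ v) (mem_univ w)
  rw [← mp_sg, ← mp_SDI Subtype.val (bc n) bary (fun l hl => bc_coe hl)] at h1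
  have h2 := Sup_of_mp Subtype.val_injective h1
  unfold kap at hρ
  -- ρ comes from a list
  set c := SDI (bc n) (n + 1) m (sg (List.ofFn (vt n))) with hc
  have h3 : real n n c = ∑ l ∈ c.support, c l • real n n (sg l) := by
    conv_lhs => rw [← Finsupp.sum_single c]
    rw [Finsupp.sum, map_sum]
    refine Finset.sum_congr rfl fun l _ => ?_
    rw [← map_smul]
    congr 1
    rw [Finsupp.smul_single, smul_eq_mul, mul_one]
  rw [h3] at hρ
  obtain ⟨l, hl, hρl⟩ : ∃ l ∈ c.support, ρ ∈ (c l • real n n (sg l)).support := by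
    by_contra hne
    push Not at hne
    rw [Finsupp.mem_support_iff, Finsupp.finset_sum_apply] at hρ
    refine hρ (Finset.sum_eq_zero fun l hl => ?_)
    exact Finsupp.notMem_support_iff.1 (hne l hl)
  have hP := h2 l hl
  simp only [List.length_map] at hP
  obtain ⟨v, rfl⟩ := exists_ofFn hP.1
  rw [real_ofFn] at hρl
  have h4 := Finsupp.support_smul hρl
  have h5 := Finsupp.support_single_subset h4
  rw [Finset.mem_singleton] at h5
  refine ⟨v, h5, fun i j => ?_⟩
  refine hP.2 (v i) ?_ (v j) ?_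
  · exact List.mem_map.2 ⟨v i, (List.mem_ofFn' v _).2 ⟨i, rfl⟩, rfl⟩
  · exact List.mem_map.2 ⟨v j, (List.mem_ofFn' v _).2 ⟨j, rfl⟩, rfl⟩

lemma small_single (hF : NFill) {X : Type} [TopologicalSpace X] (𝒰 : Set (Set X))
    (hU : ∀ U ∈ 𝒰, IsOpen U) (n : ℕ) (σ : C(Dl n, X)) (hσ : range σ ⊆ ⋃₀ 𝒰) :
    ∀ᶠ m in atTop, Small 𝒰 ((subOp hF m X).s n (Finsupp.single σ 1)) := by
  obtain ⟨δ, hδ, hleb⟩ := lebesgue_number_lemma_of_metric (s := (univ : Set (Dl n)))
    (c := fun U : 𝒰 => σ ⁻¹' U.1) isCompact_univ (fun U => (hU U.1 U.2).preimage σ.continuous)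
    (by
      intro x _
      obtain ⟨U, hUm, hxU⟩ := hσ ⟨x, rfl⟩
      exact mem_iUnion.2 ⟨⟨U, hUm⟩, hxU⟩)
  obtain ⟨d, hd⟩ := kap_mesh n
  have hr0 : (0 : ℝ) ≤ (n / (n + 1) : ℝ) := by positivity
  have hr1 : (n / (n + 1) : ℝ) < 1 := by
    rw [div_lt_one (by positivity)]; linarith
  have hlim : Tendsto (fun m : ℕ => (n / (n + 1) : ℝ) ^ m * d) atTop (𝓝 0) := by
    have := (tendsto_pow_atTop_nhds_zero_of_lt_one hr0 hr1).mul_const d
    simpa using this
  filter_upwards [hlim.eventually (gt_mem_nhds hδ)] with m hm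
  intro τ hτ
  obtain ⟨ρ, hρ, rfl⟩ := supp_nat _ _ _ hτ
  obtain ⟨v, rfl, hv⟩ := hd m ρ hρ
  obtain ⟨U, hUb⟩ := hleb (v 0) (mem_univ _)
  refine ⟨U.1, U.2, ?_⟩
  rintro x ⟨t, rfl⟩
  exact hUb (Metric.mem_ball.2 ((dist_aff_le v _ hv t).trans_lt hm))

end Crest.Agent.R224.T.Sb

namespace Crest.Agent.R224.T

open Sb

/-- node A2 -/
theorem nSub (hF : NFill) : NSub := by
  intro X _
  refine ⟨fun m => subOp hF m X, ?_⟩
  intro 𝒰 hU n c hc
  classical
  have h1 : ∀ σ ∈ c.support, ∀ᶠ m in atTop,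
      Small 𝒰 ((subOp hF m X).s n (Finsupp.single σ 1)) := fun σ hσ =>
    small_single hF 𝒰 hU n σ (hc σ hσ)
  rw [← Filter.eventually_all_finset] at h1
  filter_upwards [h1] with m hm
  intro τ hτ
  have h3 : (subOp hF m X).s n c = ∑ σ ∈ c.support, c σ • (subOp hF m X).s n (Finsupp.single σ 1) := by
    conv_lhs => rw [← Finsupp.sum_single c]
    rw [Finsupp.sum, map_sum]
    refine Finset.sum_congr rfl fun l _ => ?_
    rw [← map_smul]
    congr 1
    rw [Finsupp.smul_single, smul_eq_mul, mul_one]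
  rw [h3] at hτ
  obtain ⟨σ, hσ, hτσ⟩ : ∃ σ ∈ c.support,
      τ ∈ (c σ • (subOp hF m X).s n (Finsupp.single σ 1)).support := by
    by_contra hne
    push Not at hne
    rw [Finsupp.mem_support_iff, Finsupp.finset_sum_apply] at hτ
    refine hτ (Finset.sum_eq_zero fun l hl => ?_)
    exact Finsupp.notMem_support_iff.1 (hne l hl)
  exact hm σ hσ τ (Finsupp.support_smul hτσ)

end Crest.Agent.R224.T
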