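import Mathlib
import Crest.Agent.R224.T.Defs
import Crest.Agent.R224.Defs

-- ▼ part R197/FDeck
section

/-! Row 197, module F: lifting maps from contractible spaces through coverings (no local connectivity
hypothesis), coherence of the topology of a covering with respect to lifted characteristic maps, and the
deck group of a contractible cover. -/

set_option autoImplicit false
set_option linter.unusedVariables false
set_option linter.unusedSectionVars false

namespace Crest.Agent.R197.F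

open unitInterval Topology Function

section lift
variable {E X A : Type*} [TopologicalSpace E] [TopologicalSpace X] [TopologicalSpace A] {p : E → X}

/-- A continuous map from a contractible space lifts through a covering, with prescribed value at a
point. -/
theorem exists_lift (cov : IsCoveringMap p) [ContractibleSpace A] (f : C(A, X)) (a₀ : A) (e : E)
    (h : p e = f a₀) : ∃ F : C(A, E), (∀ a, p (F a) = f a) ∧ F a₀ = e := by
  obtain ⟨c, ⟨H⟩⟩ := id_nullhomotopic A
  -- H : homotopy from id to const c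
  let K : C(I × A, X) := f.comp ⟨fun ta => H (σ ta.1, ta.2), by fun_prop⟩
  have K0 : ∀ a, K (0, a) = f c := by intro a; simp [K]
  have K1 : ∀ a, K (1, a) = f a := by intro a; simp [K]
  let γ : C(I, X) := ⟨fun t => K (σ t, a₀), by fun_prop⟩
  have γ0 : γ 0 = p e := by simp [γ, K1, h]
  obtain ⟨Γ, hΓ, hΓ0⟩ := cov.exists_path_lifts γ e γ0
  have hΓ1 : p (Γ 1) = f c := by
    have := congrFun hΓ 1
    simp only [Function.comp_apply] at this
    rw [this]; simp [γ, K0]
  let L := cov.liftHomotopy K (ContinuousMap.const A (Γ 1)) (by intro a; simp [K0, hΓ1])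
  have hL : ∀ ta, p (L ta) = K ta := fun ta => congrFun (cov.liftHomotopy_lifts K _ _) ta
  have hL0 : ∀ a, L (0, a) = Γ 1 := fun a => cov.liftHomotopy_zero K _ _ a
  refine ⟨⟨fun a => L (1, a), by fun_prop⟩, fun a => by simp [hL, K1], ?_⟩
  -- compare the two lifts of `t ↦ K (t, a₀)`
  have key : (fun t : I => L (t, a₀)) = fun t => Γ (σ t) := by
    refine cov.eq_of_comp_eq (by fun_prop) (by fun_prop) ?_ 0 ?_
    · funext t
      simp only [Function.comp_apply, hL]
      have := congrFun hΓ (σ t)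
      simp only [Function.comp_apply] at this
      rw [this]; simp [γ]
    · simp [hL0]
  have := congrFun key 1
  simpa [hΓ0] using this

theorem lift_unique (cov : IsCoveringMap p) [PreconnectedSpace A] {F G : C(A, E)}
    (h : ∀ a, p (F a) = p (G a)) (a₀ : A) (h0 : F a₀ = G a₀) : F = G := by
  have := cov.eq_of_comp_eq F.continuous G.continuous (funext h) a₀ h0
  exact DFunLike.coe_injective this

end lift

section coherent

/-- The topology of `X` is coherent with the family of maps `ψ`. -/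
def Coh {X : Type*} [TopologicalSpace X] {K : Type*} {D : K → Type*} [∀ k, TopologicalSpace (D k)]
    (ψ : ∀ k, C(D k, X)) : Prop :=
  ∀ O : Set X, (∀ k, IsOpen (ψ k ⁻¹' O)) → IsOpen O



theorem Coh.continuous_iff {X Z : Type*} [TopologicalSpace X] [TopologicalSpace Z] {K : Type*}
    {D : K → Type*} [∀ k, TopologicalSpace (D k)] {ψ : ∀ k, C(D k, X)} (h : Coh ψ) {f : X → Z} :
    Continuous f ↔ ∀ k, Continuous (f ∘ ψ k) := by
  refine ⟨fun hf k => hf.comp (ψ k).continuous, fun hf => ?_⟩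
  rw [continuous_def]
  intro O hO
  apply h
  intro k
  rw [← Set.preimage_comp]
  exact hO.preimage (hf k)


/-- A covering space of a coherent space is coherent with respect to all the lifts. -/
theorem Coh.lifts {E X : Type*} [TopologicalSpace E] [TopologicalSpace X] {p : E → X}
    (cov : IsCoveringMap p) {K : Type*} {D : K → Type*} [∀ k, TopologicalSpace (D k)]
    [∀ k, ContractibleSpace (D k)] {ψ : ∀ k, C(D k, X)} (h : Coh ψ) :
    Coh (K := Σ k, {F : C(D k, E) // ∀ a, p (F a) = ψ k a}) (D := fun kF => D kF.1)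
      (fun kF => kF.2.1) := by
  intro O hO
  rw [isOpen_iff_mem_nhds]
  intro e he
  obtain ⟨φ, heφ, hφ⟩ := cov.isLocalHomeomorph e
  have hpφ : ∀ x, φ x = p x := fun x => by rw [hφ]
  -- `T` is open
  have hT : IsOpen (p '' (O ∩ φ.source)) := by
    apply h
    intro k
    rw [isOpen_iff_mem_nhds]
    rintro x ⟨e', ⟨he'O, he's⟩, he'⟩
    obtain ⟨F, hF, hFx⟩ := exists_lift cov (ψ k) x e' he'
    have h1 : IsOpen (F ⁻¹' (O ∩ φ.source)) := by
      rw [Set.preimage_inter]
      exact (hO ⟨k, ⟨F, hF⟩⟩).inter (φ.open_source.preimage F.continuous)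
    refine Filter.mem_of_superset (h1.mem_nhds (by simp [hFx, he'O, he's])) ?_
    intro y hy
    exact ⟨F y, hy, hF y⟩
  have h2 : φ.source ∩ p ⁻¹' (p '' (O ∩ φ.source)) ⊆ O := by
    rintro y ⟨hy, e', ⟨he'O, he's⟩, he'⟩
    have : e' = y := φ.injOn he's hy (by rw [hpφ, hpφ, he'])
    exact this ▸ he'O
  refine Filter.mem_of_superset ?_ h2
  exact (φ.open_source.inter (hT.preimage cov.continuous)).mem_nhds ⟨heφ, e, ⟨he, heφ⟩, rfl⟩

end coherent

section deck
variable {E X : Type*} [TopologicalSpace E] [TopologicalSpace X]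

/-- deck transformations of `p` -/
def Deck (p : E → X) : Subgroup (E ≃ₜ E) where
  carrier := {f | ∀ x, p (f x) = p x}
  mul_mem' := by
    intro f g hf hg x
    change p (f (g x)) = p x
    rw [hf, hg]
  one_mem' := fun x => rfl
  inv_mem' := by
    intro f hf x
    change p (f.symm x) = p x
    rw [← hf (f.symm x), f.apply_symm_apply]

instance (p : E → X) : MulAction (Deck p) E where
  smul g x := g.1 x
  one_smul x := rfl
  mul_smul g h x := rfl


theorem Deck.proj_smul {p : E → X} (g : Deck p) (x : E) : p (g • x) = p x := g.2 x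

instance (p : E → X) : ContinuousConstSMul (Deck p) E where
  continuous_const_smul g := g.1.continuous

variable {p : E → X} (cov : IsCoveringMap p)

include cov

theorem Deck.ext_of_smul_eq [PreconnectedSpace E] {g h : Deck p} (x : E) (hx : g • x = h • x) :
    g = h := by
  have := cov.eq_of_comp_eq g.1.continuous h.1.continuous
    (funext fun y => (g.2 y).trans (h.2 y).symm) x hx
  exact Subtype.ext (DFunLike.coe_injective this)

theorem Deck.exists_smul_eq [ContractibleSpace E] (x y : E) (h : p x = p y) :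
    ∃ g : Deck p, g • x = y := by
  obtain ⟨F, hF, hFx⟩ := exists_lift cov ⟨p, cov.continuous⟩ x y h.symm
  obtain ⟨F', hF', hFy⟩ := exists_lift cov ⟨p, cov.continuous⟩ y x h
  have h1 : F.comp F' = ContinuousMap.id E := by
    refine lift_unique cov (fun a => ?_) y (by simp [hFy, hFx])
    simp only [ContinuousMap.comp_apply, ContinuousMap.id_apply]
    rw [hF]; simp only [ContinuousMap.coe_mk]; rw [hF']; rfl
  have h2 : F'.comp F = ContinuousMap.id E := by
    refine lift_unique cov (fun a => ?_) x (by simp [hFy, hFx])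
    simp only [ContinuousMap.comp_apply, ContinuousMap.id_apply]
    rw [hF']; simp only [ContinuousMap.coe_mk]; rw [hF]; rfl
  refine ⟨⟨⟨⟨F, F', fun a => DFunLike.congr_fun h2 a, fun a => DFunLike.congr_fun h1 a⟩,
    F.continuous, F'.continuous⟩, fun a => hF a⟩, hFx⟩

theorem isQuotientCoveringMap [ContractibleSpace E] (hs : Surjective p) :
    IsQuotientCoveringMap p (Deck p) := by
  rw [isQuotientCoveringMap_iff_isCoveringMap_and]
  refine ⟨cov, hs, inferInstance, ⟨fun g h x hx => Deck.ext_of_smul_eq cov x hx⟩, ?_⟩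
  intro e₁ e₂
  constructor
  · intro h
    obtain ⟨g, hg⟩ := Deck.exists_smul_eq cov e₂ e₁ h.symm
    exact ⟨g, hg⟩
  · rintro ⟨g, rfl⟩
    exact Deck.proj_smul g e₂

/-- The deck group of a contractible cover is the fundamental group of the base. -/
theorem nonempty_deck_equiv [ContractibleSpace E] (hs : Surjective p) (x : X) {G : Type*} [Group G]
    (e : FundamentalGroup X x ≃* G) : Nonempty (Deck p ≃* G) := by
  obtain ⟨e₀, he₀⟩ := hs x
  have h1 := (isQuotientCoveringMap cov hs).fundamentalGroupEquiv (x := x) ⟨e₀, he₀⟩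
  exact ⟨(MulEquiv.inv' (Deck p)).trans (h1.symm.trans e)⟩

end deck

end Crest.Agent.R197.F
end

-- ▼ part R224/T/EndAux
section

set_option autoImplicit false

noncomputable section

open Topology Set Filter

namespace Crest.Agent.R224.T.EndAux

theorem z2 (a : ZMod 2) : a + a = 0 := CharTwo.add_self_eq_zero a

section
variable {X : Type} [TopologicalSpace X] {n : ℕ}

theorem ch2 (c : Ch n X) : c + c = 0 := by
  ext σ; exact z2 _


instance : Nonempty (Dl n) := inferInstance

theorem range_ne (σ : C(Dl n, X)) : (range σ).Nonempty := range_nonempty _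

theorem range_cpt (σ : C(Dl n, X)) : IsCompact (range σ) := isCompact_range σ.continuous

theorem range_face (σ : C(Dl (n + 1), X)) (i : Fin (n + 2)) :
    range (σ.comp (face n i)) ⊆ range σ := by
  rintro _ ⟨y, rfl⟩
  exact ⟨_, rfl⟩

theorem bd_single (σ : C(Dl (n + 1), X)) :
    bd n (Finsupp.single σ 1) = ∑ i, Finsupp.single (σ.comp (face n i)) (1 : ZMod 2) := by
  simp [bd]

theorem face_face (σ : C(Dl (n + 2), X)) (i : Fin (n + 3)) (j : Fin (n + 2)) :
    (σ.comp (face (n + 1) (i.succAbove j))).comp (face n (j.predAbove i)) =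
      (σ.comp (face (n + 1) i)).comp (face n j) := by
  ext x
  simp only [ContinuousMap.comp_apply, face, ContinuousMap.coe_mk]
  rw [stdSimplex.map_comp_apply, stdSimplex.map_comp_apply]
  congr 2
  funext k
  exact Fin.succAbove_succAbove_succAbove_predAbove i j k

theorem bd_bd_single (σ : C(Dl (n + 2), X)) : bd n (bd (n + 1) (Finsupp.single σ 1)) = 0 := by
  rw [bd_single, map_sum]
  simp only [bd_single]
  rw [← Finset.sum_product' (s := Finset.univ) (t := Finset.univ)
    (f := fun i j => Finsupp.single ((σ.comp (face (n + 1) i)).comp (face n j)) (1 : ZMod 2))]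
  refine Finset.sum_involution (fun p _ => (p.1.succAbove p.2, p.2.predAbove p.1)) ?_ ?_ ?_ ?_
  · rintro ⟨i, j⟩ -
    simp only
    rw [face_face]
    exact ch2 _
  · rintro ⟨i, j⟩ - - h
    have := congrArg Prod.fst h
    exact Fin.succAbove_ne i j this
  · intros; simp
  · rintro ⟨i, j⟩ -
    simp only [Fin.succAbove_succAbove_predAbove, Fin.predAbove_predAbove_succAbove]

theorem bd_bd (c : Ch (n + 2) X) : bd n (bd (n + 1) c) = 0 := by
  induction c using Finsupp.induction_linear with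
  | zero => simp
  | add c c' h h' => rw [map_add, map_add, h, h', add_zero]
  | single σ a =>
    have : (Finsupp.single σ a : Ch (n + 2) X) = a • Finsupp.single σ 1 := by simp
    rw [this, map_smul, map_smul, bd_bd_single, smul_zero]

/-- a simplex of the boundary is a face of a simplex -/
theorem exists_of_bd (c : Ch (n + 1) X) (τ : C(Dl n, X)) (h : bd n c τ ≠ 0) :
    ∃ σ, c σ ≠ 0 ∧ ∃ i, σ.comp (face n i) = τ := by
  classical
  by_contra hcon
  push Not at hcon
  apply h
  rw [bd, Finsupp.linearCombination_apply, Finsupp.sum, Finsupp.finsetSum_apply]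
  refine Finset.sum_eq_zero fun σ hσ => ?_
  rw [Finsupp.smul_apply, Finsupp.finsetSum_apply, Finset.sum_eq_zero, smul_zero]
  intro i _
  rw [Finsupp.single_apply, if_neg (hcon σ (Finsupp.mem_support_iff.1 hσ) i)]

theorem bd_congr (c c' : Ch (n + 1) X) (τ : C(Dl n, X))
    (h : ∀ σ, (∃ i, σ.comp (face n i) = τ) → c σ = c' σ) : bd n c τ = bd n c' τ := by
  have h0 : bd n (c + c') τ = 0 := by
    by_contra hne
    obtain ⟨σ, h1, h2⟩ := exists_of_bd _ _ hne
    apply h1
    rw [Finsupp.add_apply, h σ h2]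
    exact z2 _
  rw [map_add, Finsupp.add_apply] at h0
  have := congrArg (· + bd n c' τ) h0
  simpa [add_assoc, z2] using this

/-! ### In, Nul -/

theorem In_iff {A : Set X} {c : Ch n X} : In A c ↔ ∀ σ, c σ ≠ 0 → range σ ⊆ A := by
  simp [In, Finsupp.mem_support_iff]

theorem in_mono {A B : Set X} {c : Ch n X} (h : In A c) (hAB : A ⊆ B) : In B c :=
  fun σ hσ => (h σ hσ).trans hAB

theorem in_zero {A : Set X} : In A (0 : Ch n X) := by
  intro σ hσ; simp at hσ

theorem in_add {A : Set X} {c c' : Ch n X} (h : In A c) (h' : In A c') : In A (c + c') := by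
  rw [In_iff] at *
  intro σ hσ
  by_cases h1 : c σ = 0
  · apply h' σ
    intro h2
    apply hσ
    rw [Finsupp.add_apply, h1, h2, add_zero]
  · exact h σ h1

theorem in_bd {A : Set X} {c : Ch (n + 1) X} (h : In A c) : In A (bd n c) := by
  rw [In_iff] at *
  intro τ hτ
  obtain ⟨σ, h1, i, rfl⟩ := exists_of_bd _ _ hτ
  exact (range_face σ i).trans (h σ h1)

theorem nul_add_in {A : Set X} {c e : Ch n X} (h : Nul A c) (he : In A e) : Nul A (c + e) := by
  obtain ⟨b, e', h1, h2⟩ := h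
  exact ⟨b, e' + e, in_add h1 he, by rw [h2, add_assoc]⟩

theorem nul_zero {A : Set X} : Nul A (0 : Ch n X) := ⟨0, 0, in_zero, by simp⟩

/-- changing a chain away from `p` does not change its class at `p` -/
theorem nul_congr {A : Set X} {c c' : Ch n X} (h : ∀ σ : C(Dl n, X), ¬ range σ ⊆ A → c σ = c' σ) :
    Nul A c ↔ Nul A c' := by
  have key : ∀ c c' : Ch n X, (∀ σ : C(Dl n, X), ¬ range σ ⊆ A → c σ = c' σ) → Nul A c → Nul A c' := by
    intro c c' h hc
    have he : In A (c + c') := by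
      rw [In_iff]
      intro σ hσ
      by_contra hcon
      apply hσ
      rw [Finsupp.add_apply, h σ hcon]
      exact z2 _
    have := nul_add_in hc he
    rwa [← add_assoc, ch2, zero_add] at this
  exact ⟨key c c' h, key c' c fun σ hσ => (h σ hσ).symm⟩

/-! ### locally finite chains -/

theorem LF.add_fin {m : C(Dl n, X) → ZMod 2} (h : LF m) (b : Ch n X) :
    LF fun σ => m σ + b σ := by
  intro K hK
  refine ((h K hK).union b.support.finite_toSet).subset ?_
  rintro σ ⟨h1, h2⟩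
  by_cases hm : m σ = 0
  · right
    simp only [Finset.mem_coe, Finsupp.mem_support_iff]
    intro hb
    apply h1
    simp [hm, hb]
  · exact Or.inl ⟨hm, h2⟩

theorem LF.of_supp {m m' : C(Dl n, X) → ZMod 2} (h : LF m) (h' : ∀ σ, m' σ ≠ 0 → m σ ≠ 0) :
    LF m' := fun K hK => (h K hK).subset fun σ hσ => ⟨h' σ hσ.1, hσ.2⟩

open Classical in
theorem cut_apply {m : C(Dl n, X) → ZMod 2} (h : LF m) {K : Set X} (hK : IsCompact K)
    (σ : C(Dl n, X)) : cut m K σ = if (range σ ∩ K).Nonempty then m σ else 0 := by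
  unfold cut
  rw [dif_pos (h K hK)]
  rfl

theorem cut_of_meet {m : C(Dl n, X) → ZMod 2} (h : LF m) {K : Set X} (hK : IsCompact K)
    {σ : C(Dl n, X)} (hσ : (range σ ∩ K).Nonempty) : cut m K σ = m σ := by
  classical
  rw [cut_apply h hK, if_pos hσ]


theorem meet_of_face {σ : C(Dl (n + 1), X)} {τ : C(Dl n, X)} {K : Set X}
    (h : ∃ i, σ.comp (face n i) = τ) (hτ : (range τ ∩ K).Nonempty) : (range σ ∩ K).Nonempty := by
  obtain ⟨i, rfl⟩ := h
  exact hτ.mono (inter_subset_inter_left _ (range_face σ i))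

theorem self_meet (τ : C(Dl n, X)) : (range τ ∩ range τ).Nonempty := by
  rw [inter_self]; exact range_ne τ

/-- the true boundary coefficient -/
def tb (m : C(Dl (n + 1), X) → ZMod 2) (τ : C(Dl n, X)) : ZMod 2 := bd n (cut m (range τ)) τ

theorem bd_cut {m : C(Dl (n + 1), X) → ZMod 2} (h : LF m) {K : Set X} (hK : IsCompact K)
    {τ : C(Dl n, X)} (hτ : (range τ ∩ K).Nonempty) : bd n (cut m K) τ = tb m τ := by
  refine bd_congr _ _ _ fun σ hσ => ?_
  rw [cut_of_meet h hK (meet_of_face hσ hτ),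
    cut_of_meet h (range_cpt τ) (meet_of_face hσ (self_meet τ))]

theorem LCyc.of_tb {m : C(Dl (n + 1), X) → ZMod 2} (h : LF m) (h0 : ∀ τ, tb m τ = 0) : LCyc m := by
  refine ⟨h, fun K hK => ?_⟩
  rw [RC, In_iff]
  intro τ hτ z hz hzK
  apply hτ
  rw [bd_cut h hK ⟨z, hz, hzK⟩, h0]

theorem LCyc.tb_eq {m : C(Dl (n + 1), X) → ZMod 2} (h : LCyc m) (τ : C(Dl n, X)) :
    tb m τ = 0 := by
  by_contra hne
  have := h.cyc _ (range_cpt τ)
  rw [RC, In_iff] at this
  obtain ⟨z, hz⟩ := range_ne τ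
  exact this τ hne hz hz

theorem tb_congr {m m' : C(Dl (n + 1), X) → ZMod 2} (h : LF m) (h' : LF m') {τ : C(Dl n, X)}
    (hc : ∀ σ, (∃ i, σ.comp (face n i) = τ) → m σ = m' σ) : tb m τ = tb m' τ := by
  refine bd_congr _ _ _ fun σ hσ => ?_
  rw [cut_of_meet h (range_cpt τ) (meet_of_face hσ (self_meet τ)),
    cut_of_meet h' (range_cpt τ) (meet_of_face hσ (self_meet τ)), hc σ hσ]

theorem tb_add {m m' : C(Dl (n + 1), X) → ZMod 2} (h : LF m) (h' : LF m')
    (h'' : LF fun σ => m σ + m' σ) (τ : C(Dl n, X)) :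
    tb (fun σ => m σ + m' σ) τ = tb m τ + tb m' τ := by
  unfold tb
  rw [← Finsupp.add_apply, ← map_add]
  refine bd_congr _ _ _ fun σ hσ => ?_
  rw [Finsupp.add_apply, cut_of_meet h (range_cpt τ) (meet_of_face hσ (self_meet τ)),
    cut_of_meet h' (range_cpt τ) (meet_of_face hσ (self_meet τ)),
    cut_of_meet h'' (range_cpt τ) (meet_of_face hσ (self_meet τ))]

theorem LF.fin (b : Ch n X) : LF fun σ => b σ := by
  intro K hK
  refine b.support.finite_toSet.subset ?_
  rintro σ ⟨h1, -⟩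
  simpa using h1

theorem tb_fin (b : Ch (n + 1) X) (τ : C(Dl n, X)) : tb (fun σ => b σ) τ = bd n b τ := by
  refine bd_congr _ _ _ fun σ hσ => ?_
  rw [cut_of_meet (LF.fin b) (range_cpt τ) (meet_of_face hσ (self_meet τ))]

/-- a locally finite chain whose boundary is finite (given by the finite chain `β`): `β` is a
cycle -/
theorem bd_eq_zero_of_tb {m : C(Dl (n + 2), X) → ZMod 2} (h : LF m) (β : Ch (n + 1) X)
    (hβ : ∀ τ, β τ = tb m τ) : bd n β = 0 := by
  classical
  ext ρ
  rw [Finsupp.zero_apply]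
  by_contra hne
  -- a compact set containing everything
  set K : Set X := (⋃ τ ∈ β.support, range τ) ∪ range ρ with hK
  have hKc : IsCompact K :=
    (β.support.isCompact_biUnion fun τ _ => range_cpt τ).union (range_cpt ρ)
  have he : In Kᶜ (bd (n + 1) (cut m K) + β) := by
    rw [In_iff]
    intro τ hτ z hz hzK
    apply hτ
    rw [Finsupp.add_apply, bd_cut h hKc ⟨z, hz, hzK⟩, hβ]
    exact z2 _
  have h2 := in_bd he
  rw [map_add, bd_bd, zero_add, In_iff] at h2
  obtain ⟨z, hz⟩ := range_ne ρ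
  exact h2 ρ hne hz (Or.inr hz)

/-- the class at `p` of a locally finite chain can be computed with any compact set containing
`p` -/
theorem nul_cut {m : C(Dl n, X) → ZMod 2} (h : LF m) {K : Set X} (hK : IsCompact K) {p : X}
    (hp : p ∈ K) : Nul {p}ᶜ (cut m {p}) ↔ Nul {p}ᶜ (cut m K) := by
  refine nul_congr fun σ hσ => ?_
  have h1 : p ∈ range σ := by
    by_contra hcon
    exact hσ fun z hz hzp => hcon (by rw [mem_singleton_iff] at hzp; rwa [← hzp])
  rw [cut_of_meet h isCompact_singleton ⟨p, h1, rfl⟩, cut_of_meet h hK ⟨p, h1, hp⟩]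

/-- two locally finite chains which agree on the simplices through `p` -/
theorem nul_cut_congr {m m' : C(Dl n, X) → ZMod 2} (h : LF m) (h' : LF m') {p : X}
    (hc : ∀ σ : C(Dl n, X), p ∈ range σ → m σ = m' σ) :
    Nul {p}ᶜ (cut m {p}) ↔ Nul {p}ᶜ (cut m' {p}) := by
  refine nul_congr fun σ hσ => ?_
  have h1 : p ∈ range σ := by
    by_contra hcon
    exact hσ fun z hz hzp => hcon (by rw [mem_singleton_iff] at hzp; rwa [← hzp])
  rw [cut_of_meet h isCompact_singleton ⟨p, h1, rfl⟩, cut_of_meet h' isCompact_singleton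
    ⟨p, h1, rfl⟩, hc σ h1]

end

/-- the degree of a locally finite top dimensional cycle is constant -/
theorem deg_const {d : ℕ} {E : Type} [TopologicalSpace E] [T2Space E] [PreconnectedSpace E]
    [LocallyCompactSpace E] (hman : ManHyp d E) {m : C(Dl (d + 1), E) → ZMod 2} (h : LCyc m)
    (p q : E) (hp : Nul {p}ᶜ (cut m {p})) : Nul {q}ᶜ (cut m {q}) := by
  have loc : ∀ p : E, ∀ᶠ q in 𝓝 p, (Nul {q}ᶜ (cut m {q}) ↔ Nul {p}ᶜ (cut m {p})) := by
    intro p
    obtain ⟨K, hK, hKp⟩ := exists_compact_mem_nhds p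
    have hRC : RC {p}ᶜ (cut m K) :=
      in_mono (h.cyc K hK) (compl_subset_compl.2 (singleton_subset_iff.2 (mem_of_mem_nhds hKp)))
    filter_upwards [hman.loc (cut m K) p hRC, hKp] with q hq hqK
    rw [nul_cut h.lf hK hqK, nul_cut h.lf hK (mem_of_mem_nhds hKp)]
    exact hq.2
  have hcl : IsClopen {q : E | Nul {q}ᶜ (cut m {q})} := by
    constructor
    · rw [← isOpen_compl_iff, isOpen_iff_mem_nhds]
      intro p hp
      filter_upwards [loc p] with q hq hq'
      exact hp (hq.1 hq')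
    · rw [isOpen_iff_mem_nhds]
      intro p hp
      filter_upwards [loc p] with q hq
      exact hq.2 hp
  have h1 := hcl.eq_univ ⟨p, hp⟩
  have h2 : q ∈ {q : E | Nul {q}ᶜ (cut m {q})} := by rw [h1]; exact mem_univ q
  exact h2

end Crest.Agent.R224.T.EndAux
end
end

-- ▼ part R224/T/SC
section

set_option autoImplicit false

namespace Crest.Agent.R224.Tp

open Topology Set Filter

section SC
variable {E : Type} [TopologicalSpace E]

/-- `c` is a closed Alexander–Spanier 1-cochain (mod 2) -/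
def Closed1 (c : E → E → ZMod 2) : Prop :=
  ∀ x, ∃ U ∈ 𝓝 x, ∀ a ∈ U, ∀ b ∈ U, ∀ d ∈ U, c a b + c b d = c a d

/-- `e` is a primitive of `c` near every point -/
def Prim1 (c : E → E → ZMod 2) (e : E → ZMod 2) : Prop :=
  ∀ x, ∃ U ∈ 𝓝 x, ∀ a ∈ U, ∀ b ∈ U, c a b = e a + e b

theorem two_mul_z (a : ZMod 2) : a + a = 0 := CharTwo.add_self_eq_zero a


/-- the double cover attached to a closed 1-cochain -/
noncomputable def dcore (c : E → E → ZMod 2) (U : E → Set E) (hUo : ∀ x, IsOpen (U x)) (hUx : ∀ x, x ∈ U x)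
    (hU : ∀ x, ∀ a ∈ U x, ∀ b ∈ U x, ∀ d ∈ U x, c a b + c b d = c a d) :
    FiberBundleCore E E (ZMod 2) where
  baseSet := U
  isOpen_baseSet := hUo
  indexAt := id
  mem_baseSet_at := hUx
  coordChange x x' y a := a + c x y + c x' y
  coordChange_self := by
    intro i x _ v
    rw [add_assoc, two_mul_z, add_zero]
  continuousOn_coordChange := by
    intro i j
    rintro ⟨y0, a0⟩ hy0
    simp only [mem_prod, mem_inter_iff, mem_univ, and_true] at hy0
    have hV : (U i ∩ U j) ×ˢ (univ : Set (ZMod 2)) ∈ 𝓝 ((y0, a0) : E × ZMod 2) :=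
      ((((hUo i).inter (hUo j)).prod isOpen_univ).mem_nhds ⟨hy0, mem_univ _⟩)
    apply ContinuousAt.continuousWithinAt
    have hcont : ContinuousAt (fun p : E × ZMod 2 => p.2 + (c i y0 + c j y0)) (y0, a0) :=
      (continuous_snd.add continuous_const).continuousAt
    refine hcont.congr ?_
    filter_upwards [hV] with p hp
    simp only [mem_prod, mem_inter_iff, mem_univ, and_true] at hp
    have h1 := hU i i (hUx i) y0 hy0.1 p.1 hp.1
    have h2 := hU j j (hUx j) y0 hy0.2 p.1 hp.2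
    rw [← h1, ← h2]
    have h3 : c y0 p.1 + c y0 p.1 = 0 := two_mul_z _
    linear_combination -h3
  coordChange_comp := by
    intro i j k x _ v
    have h3 : c j x + c j x = 0 := two_mul_z _
    linear_combination h3

theorem exists_prim1 [ContractibleSpace E] (c : E → E → ZMod 2) (hc : Closed1 c) :
    ∃ e : E → ZMod 2, Prim1 c e := by
  have hc' : ∀ x, ∃ U : Set E, IsOpen U ∧ x ∈ U ∧
      ∀ a ∈ U, ∀ b ∈ U, ∀ d ∈ U, c a b + c b d = c a d := by
    intro x
    obtain ⟨U, hU, h⟩ := hc x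
    obtain ⟨V, hVU, hV, hxV⟩ := mem_nhds_iff.1 hU
    exact ⟨V, hV, hxV, fun a ha b hb d hd => h a (hVU ha) b (hVU hb) d (hVU hd)⟩
  choose U hUo hUx hU using hc'
  let Z := dcore c U hUo hUx hU
  have cov : IsCoveringMap (Bundle.TotalSpace.proj : Z.TotalSpace → E) :=
    FiberBundle.isCoveringMap (F := ZMod 2) (E := Z.Fiber)
  obtain ⟨x0⟩ : Nonempty E := inferInstance
  obtain ⟨s, hs, -⟩ := R197.F.exists_lift cov (ContinuousMap.id E) x0
    (⟨x0, (0 : ZMod 2)⟩ : Z.TotalSpace) rfl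
  simp only [ContinuousMap.id_apply] at hs
  let e : E → ZMod 2 := fun y => (show ZMod 2 from (s y).2) + c y y
  refine ⟨e, fun x => ?_⟩
  have hval : ∀ y, (Z.localTriv x (s y)).2 = e y + c x y := by
    intro y
    show (show ZMod 2 from (s y).2) + c (s y).1 (s y).1 + c x (s y).1 = e y + c x y
    have : (s y).1 = y := hs y
    rw [this]
  have hcont : ContinuousAt (fun y => (Z.localTriv x (s y)).2) x := by
    have h1 : ContinuousAt (Z.localTriv x) (s x) := by
      apply (Z.localTriv x).continuousAt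
      rw [Bundle.Trivialization.mem_source]
      show (s x).1 ∈ U x
      have : (s x).1 = x := hs x
      rw [this]; exact hUx x
    exact (h1.comp s.continuous.continuousAt).snd
  have hev : ∀ᶠ y in 𝓝 x, e y + c x y = e x + c x x := by
    have h2 : ∀ᶠ y in 𝓝 x, (Z.localTriv x (s y)).2 ∈ ({(Z.localTriv x (s x)).2} : Set (ZMod 2)) :=
      hcont.eventually_mem (mem_nhds_discrete.2 rfl)
    filter_upwards [h2] with y hy
    rw [mem_singleton_iff, hval, hval] at hy
    exact hy
  refine ⟨{y | e y + c x y = e x + c x x} ∩ U x, inter_mem hev ((hUo x).mem_nhds (hUx x)), ?_⟩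
  rintro a ⟨ha, ha'⟩ b ⟨hb, hb'⟩
  have h1 := hU x x (hUx x) a ha' b hb'
  have h2 : e a + c x a = e b + c x b := by rw [show e a + c x a = _ from ha, show e b + c x b = _ from hb]
  have h4 : e b + e b = 0 := two_mul_z _
  linear_combination h1 - h2 - h4

end SC

end Crest.Agent.R224.Tp
end

-- ▼ part R224/T/Transfer

set_option autoImplicit false

set_option linter.unusedSectionVars false

namespace Crest.Agent.R224.Tp

open Topology Set Filter Pointwise

section defs
variable (E : Type) [TopologicalSpace E]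

/-- compactly supported closed 1-cochains are coboundaries of compactly supported 0-cochains -/
def HC1 : Prop := ∀ c : E → E → ZMod 2, Closed1 c →
  (∃ K : Set E, IsCompact K ∧ ∀ x ∉ K, ∃ U ∈ 𝓝 x, ∀ a ∈ U, ∀ b ∈ U, c a b = 0) →
  ∃ e : E → ZMod 2, Prim1 c e ∧ ∃ K : Set E, IsCompact K ∧ ∀ x ∉ K, e x = 0

/-- `c` is a closed Alexander–Spanier 2-cochain (mod 2) -/
def Closed2 {E : Type} [TopologicalSpace E] (c : E → E → E → ZMod 2) : Prop :=
  ∀ x, ∃ U ∈ 𝓝 x, ∀ p ∈ U, ∀ q ∈ U, ∀ r ∈ U, ∀ t ∈ U, c q r t + c p r t + c p q t + c p q r = 0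

/-- compactly supported closed 2-cochains are coboundaries of compactly supported 1-cochains -/
def HC2 : Prop := ∀ c : E → E → E → ZMod 2, Closed2 c →
  (∃ K : Set E, IsCompact K ∧ ∀ x ∉ K, ∃ U ∈ 𝓝 x, ∀ p ∈ U, ∀ q ∈ U, ∀ r ∈ U, c p q r = 0) →
  ∃ b : E → E → ZMod 2,
    (∀ x, ∃ U ∈ 𝓝 x, ∀ p ∈ U, ∀ q ∈ U, ∀ r ∈ U, c p q r = b q r + b p r + b p q) ∧
    ∃ K : Set E, IsCompact K ∧ ∀ x ∉ K, ∃ U ∈ 𝓝 x, ∀ p ∈ U, ∀ q ∈ U, b p q = 0

end defs

/-- The covering data: labels of the points of `E` by elements of `G`. -/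
structure ActData (G : Type) [Group G] (E : Type) [TopologicalSpace E] [MulAction G E]
    (S : Finset G) where
  U : Set E
  K : Set E
  op : IsOpen U
  conn : IsPreconnected U
  ne : U.Nonempty
  sub : U ⊆ K
  cpt : IsCompact K
  mem_iff : ∀ s : G, s ∈ S ↔ (U ∩ s • U).Nonempty
  fin : ∀ C : Set E, IsCompact C → {h : G | (h • U ∩ C).Nonempty}.Finite
  lab : E → G
  hlab : ∀ x, ∃ V ∈ 𝓝 x, ∀ y ∈ V, V ⊆ lab y • U

namespace ActData

variable {G : Type} [Group G] {E : Type} [TopologicalSpace E] [MulAction G E]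
  [ContinuousConstSMul G E] {S : Finset G} (A : ActData G E S)

include A

theorem adj_iff (x y : G) : Adj S x y ↔ (x • A.U ∩ y • A.U).Nonempty := by
  unfold Adj
  rw [A.mem_iff]
  constructor
  · rintro ⟨p, hp, hq⟩
    refine ⟨x • p, smul_mem_smul_set hp, ?_⟩
    rw [mul_smul] at hq
    have := smul_mem_smul_set (a := x) hq
    rwa [smul_inv_smul] at this
  · rintro ⟨p, hp, hq⟩
    refine ⟨x⁻¹ • p, ?_, ?_⟩
    · rwa [mem_smul_set_iff_inv_smul_mem] at hp
    · rw [mul_smul]
      exact smul_mem_smul_set hq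

theorem adj_of_mem {x y : G} {p : E} (hx : p ∈ x • A.U) (hy : p ∈ y • A.U) : Adj S x y :=
  (A.adj_iff x y).2 ⟨p, hx, hy⟩

theorem mem_lab (y : E) : y ∈ A.lab y • A.U := by
  obtain ⟨V, hV, h⟩ := A.hlab y
  exact h y (mem_of_mem_nhds hV) (mem_of_mem_nhds hV)

theorem exists_open (x : E) : ∃ V : Set E, IsOpen V ∧ x ∈ V ∧ ∀ y ∈ V, V ⊆ A.lab y • A.U := by
  obtain ⟨V, hV, h⟩ := A.hlab x
  obtain ⟨W, hWV, hW, hxW⟩ := mem_nhds_iff.1 hV
  exact ⟨W, hW, hxW, fun y hy => hWV.trans (h y (hWV hy))⟩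

theorem one_mem : (1 : G) ∈ S := by
  rw [A.mem_iff, one_smul, inter_self]
  exact A.ne

theorem inv_mem (s : G) (hs : s ∈ S) : s⁻¹ ∈ S := by
  have h1 : Adj S 1 s := by unfold Adj; simpa using hs
  rw [A.adj_iff] at h1
  have h2 : Adj S s 1 := (A.adj_iff s 1).2 (by rwa [inter_comm] at h1)
  unfold Adj at h2
  simpa using h2

theorem adj_symm {x y : G} (h : Adj S x y) : Adj S y x := by
  rw [A.adj_iff] at h ⊢
  rwa [inter_comm] at h

theorem isOpen_smul (g : G) : IsOpen (g • A.U) := A.op.smul g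

theorem closure_eq [PreconnectedSpace E] : Subgroup.closure (S : Set G) = ⊤ := by
  set H := Subgroup.closure (S : Set G) with hH
  have hadj : ∀ g h : G, h ∈ H → Adj S h g → g ∈ H := by
    intro g h hh ha
    have : h⁻¹ * g ∈ H := Subgroup.subset_closure ha
    simpa using H.mul_mem hh this
  let W : Set E := ⋃ h ∈ H, h • A.U
  have hWo : IsOpen W := isOpen_biUnion fun h _ => A.isOpen_smul h
  have hWc : IsOpen Wᶜ := by
    have : Wᶜ = ⋃ g ∈ {g : G | g ∉ H}, g • A.U := by
      ext y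
      constructor
      · intro h
        refine mem_iUnion₂.2 ⟨A.lab y, fun hl => h (mem_iUnion₂.2 ⟨_, hl, A.mem_lab y⟩), A.mem_lab y⟩
      · intro h hyW
        obtain ⟨g, hg, hy⟩ := mem_iUnion₂.1 h
        obtain ⟨h', hh, hy'⟩ := mem_iUnion₂.1 hyW
        exact hg (hadj g h' hh (A.adj_of_mem hy' hy))
    rw [this]
    exact isOpen_biUnion fun h _ => A.isOpen_smul h
  have hWne : W.Nonempty := by
    obtain ⟨p, hp⟩ := A.ne
    exact ⟨p, mem_iUnion₂.2 ⟨1, H.one_mem, by rwa [one_smul]⟩⟩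
  have hW : W = univ := IsClopen.eq_univ ⟨isOpen_compl_iff.1 hWc, hWo⟩ hWne
  rw [eq_top_iff]
  intro g _
  obtain ⟨p, hp⟩ := A.ne
  have h1 : g • p ∈ W := by rw [hW]; trivial
  obtain ⟨h, hh, hp'⟩ := mem_iUnion₂.1 h1
  exact hadj g h hh (A.adj_of_mem hp' (smul_mem_smul_set hp))

theorem std [PreconnectedSpace E] : Std S := ⟨A.one_mem, A.inv_mem, A.closure_eq⟩

/-- the local constancy argument: `e` is a primitive of `ψ ∘ lab` near the points of `h • U`,
`h ∉ X`, and no bad triangle has a vertex outside `X`. -/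
theorem core (ψ : G → G → ZMod 2) (X : Set G) (e : E → ZMod 2)
    (he : ∀ h ∉ X, ∀ y ∈ h • A.U, ∃ V ∈ 𝓝 y, ∀ a ∈ V, ∀ b ∈ V, ψ (A.lab a) (A.lab b) = e a + e b)
    (hψ : ∀ x ∉ X, ∀ y z, Adj S x y → Adj S y z → Adj S x z → ψ x y + ψ y z = ψ x z) :
    ∃ F : G → ZMod 2, ∀ x ∉ X, ∀ y ∉ X, Adj S x y → ψ x y = F x + F y := by
  classical
  obtain ⟨p0, hp0⟩ := A.ne
  refine ⟨fun h => e (h • p0) + ψ h (A.lab (h • p0)), ?_⟩
  have key : ∀ h ∉ X, ∀ y ∈ h • A.U, e y + ψ h (A.lab y) = e (h • p0) + ψ h (A.lab (h • p0)) := by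
    intro h hh y hy
    have hpre : IsPreconnected (h • A.U) := by
      have : h • A.U = (fun z => h • z) '' A.U := rfl
      rw [this]
      exact A.conn.image _ (continuous_const_smul h).continuousOn
    suffices hco : ContinuousOn (fun z => e z + ψ h (A.lab z)) (h • A.U) from
      hpre.constant hco hy (smul_mem_smul_set hp0)
    intro z hz
    apply ContinuousAt.continuousWithinAt
    obtain ⟨V, hV, hVe⟩ := he h hh z hz
    obtain ⟨W, hWo, hzW, hWl⟩ := A.exists_open z
    have hev : ∀ᶠ a in 𝓝 z, e a + ψ h (A.lab a) = e z + ψ h (A.lab z) := by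
      filter_upwards [hV, hWo.mem_nhds hzW] with a haV haW
      have hz' : z ∈ V := mem_of_mem_nhds hV
      have h1 := hVe z hz' a haV
      have h2 : Adj S h (A.lab z) := A.adj_of_mem hz (A.mem_lab z)
      have h3 : Adj S (A.lab z) (A.lab a) := A.adj_of_mem (A.mem_lab z) (hWl a haW hzW)
      have h4 : Adj S h (A.lab a) := A.adj_of_mem hz (hWl a haW hzW)
      have h5 := hψ h hh _ _ h2 h3 h4
      have h6 : e a + e a = 0 := two_mul_z _
      linear_combination -h5 + h1 + h6
    have hc0 : ContinuousAt (fun _ : E => e z + ψ h (A.lab z)) z := continuousAt_const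
    exact hc0.congr (hev.mono fun a ha => ha.symm)
  intro x hx y hy hxy
  obtain ⟨p, hpx, hpy⟩ := (A.adj_iff x y).1 hxy
  have h1 := key x hx p hpx
  have h2 := key y hy p hpy
  have h3 := hψ x hx y (A.lab p) hxy (A.adj_of_mem hpy (A.mem_lab p))
    (A.adj_of_mem hpx (A.mem_lab p))
  simp only
  rw [← h1, ← h2]
  have h4 : e p + e p = 0 := two_mul_z _
  have h5 : ψ y (A.lab p) + ψ y (A.lab p) = 0 := two_mul_z _
  linear_combination h3 - h4 - h5

theorem h1 [ContractibleSpace E] (ψ : G → G → ZMod 2)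
    (hψ : ∀ x y z, Adj S x y → Adj S y z → Adj S x z → ψ x y + ψ y z = ψ x z) :
    ∃ F : G → ZMod 2, ∀ x y, Adj S x y → ψ x y = F x + F y := by
  have hc : Closed1 (fun a b => ψ (A.lab a) (A.lab b)) := by
    intro x
    obtain ⟨W, hWo, hxW, hWl⟩ := A.exists_open x
    refine ⟨W, hWo.mem_nhds hxW, fun a ha b hb d hd => hψ _ _ _ ?_ ?_ ?_⟩
    · exact A.adj_of_mem (A.mem_lab a) (hWl b hb ha)
    · exact A.adj_of_mem (A.mem_lab b) (hWl d hd hb)
    · exact A.adj_of_mem (A.mem_lab a) (hWl d hd ha)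
  obtain ⟨e, he⟩ := exists_prim1 _ hc
  obtain ⟨F, hF⟩ := A.core ψ ∅ e (fun h _ y _ => he y) (fun x _ => hψ x)
  exact ⟨F, fun x y => hF x (by simp) y (by simp)⟩

theorem t2 [T2Space E] [ContractibleSpace E] (h2 : HC2 E) (ψ : G → G → ZMod 2)
    (hψ : {p : G × G × G | Adj S p.1 p.2.1 ∧ Adj S p.2.1 p.2.2 ∧ Adj S p.1 p.2.2 ∧
      ψ p.1 p.2.1 + ψ p.2.1 p.2.2 ≠ ψ p.1 p.2.2}.Finite) :
    ∃ F : G → ZMod 2, {p : G × G | Adj S p.1 p.2 ∧ ψ p.1 p.2 ≠ F p.1 + F p.2}.Finite := by
  classical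
  set Bad := {p : G × G × G | Adj S p.1 p.2.1 ∧ Adj S p.2.1 p.2.2 ∧ Adj S p.1 p.2.2 ∧
      ψ p.1 p.2.1 + ψ p.2.1 p.2.2 ≠ ψ p.1 p.2.2} with hBad
  let c : E → E → E → ZMod 2 := fun p q r =>
    ψ (A.lab q) (A.lab r) + ψ (A.lab p) (A.lab r) + ψ (A.lab p) (A.lab q)
  have hcl : Closed2 c := by
    intro x
    refine ⟨univ, univ_mem, fun p _ q _ r _ t _ => ?_⟩
    have e1 := two_mul_z (ψ (A.lab r) (A.lab t))
    have e2 := two_mul_z (ψ (A.lab q) (A.lab t))
    have e3 := two_mul_z (ψ (A.lab q) (A.lab r))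
    have e4 := two_mul_z (ψ (A.lab p) (A.lab t))
    have e5 := two_mul_z (ψ (A.lab p) (A.lab r))
    have e6 := two_mul_z (ψ (A.lab p) (A.lab q))
    simp only [c]
    linear_combination e1 + e2 + e3 + e4 + e5 + e6
  let X1 : Set G := (fun p : G × G × G => p.1) '' Bad
  have hX1 : X1.Finite := hψ.image _
  let K0 : Set E := ⋃ h ∈ X1, h • A.K
  have hK0 : IsCompact K0 := hX1.isCompact_biUnion fun h _ => A.cpt.smul h
  have hbad : ∀ x ∉ X1, ∀ y z, Adj S x y → Adj S y z → Adj S x z → ψ x y + ψ y z = ψ x z := by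
    intro x hx y z h1 h2 h3
    by_contra hne
    exact hx ⟨(x, y, z), ⟨h1, h2, h3, hne⟩, rfl⟩
  have hcs : ∃ K : Set E, IsCompact K ∧ ∀ x ∉ K, ∃ U ∈ 𝓝 x, ∀ p ∈ U, ∀ q ∈ U, ∀ r ∈ U,
      c p q r = 0 := by
    refine ⟨K0, hK0, fun x hx => ?_⟩
    obtain ⟨W, hWo, hxW, hWl⟩ := A.exists_open x
    refine ⟨W ∩ K0ᶜ, inter_mem (hWo.mem_nhds hxW) (hK0.isClosed.isOpen_compl.mem_nhds hx), ?_⟩
    rintro p ⟨hp, hp'⟩ q ⟨hq, -⟩ r ⟨hr, -⟩
    have hpX : A.lab p ∉ X1 := by
      intro h
      apply hp'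
      refine mem_iUnion₂.2 ⟨A.lab p, h, ?_⟩
      exact smul_set_mono A.sub (A.mem_lab p)
    have h := hbad _ hpX (A.lab q) (A.lab r) (A.adj_of_mem (A.mem_lab p) (hWl q hq hp))
      (A.adj_of_mem (A.mem_lab q) (hWl r hr hq)) (A.adj_of_mem (A.mem_lab p) (hWl r hr hp))
    have e1 := two_mul_z (ψ (A.lab p) (A.lab r))
    simp only [c]
    linear_combination h + e1
  obtain ⟨b, hb, K1, hK1, hbs⟩ := h2 c hcl hcs
  have hf : Closed1 (fun p q => ψ (A.lab p) (A.lab q) + b p q) := by
    intro x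
    obtain ⟨U, hU, h⟩ := hb x
    refine ⟨U, hU, fun p hp q hq r hr => ?_⟩
    have h1 := h p hp q hq r hr
    simp only [c] at h1
    have e1 := two_mul_z (ψ (A.lab p) (A.lab r))
    have e2 := two_mul_z (b p r)
    have e3 := two_mul_z (b q r)
    have e4 := two_mul_z (b p q)
    linear_combination h1 - e1 + e3 + e4
  obtain ⟨e, he⟩ := exists_prim1 _ hf
  let X : Set G := X1 ∪ {h : G | (h • A.U ∩ K1).Nonempty}
  have hX : X.Finite := hX1.union (A.fin K1 hK1)
  obtain ⟨F, hF⟩ := A.core ψ X e (fun h hh y hy => by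
      have hy1 : y ∉ K1 := fun hyK => hh (Or.inr ⟨y, hy, hyK⟩)
      obtain ⟨U, hU, hU0⟩ := hbs y hy1
      obtain ⟨V, hV, hVe⟩ := he y
      refine ⟨U ∩ V, inter_mem hU hV, fun p hp q hq => ?_⟩
      have h1 := hU0 p hp.1 q hq.1
      have h2 := hVe p hp.2 q hq.2
      simp only at h2
      rw [h1, add_zero] at h2
      exact h2) (fun x hx => hbad x (fun h => hx (Or.inl h)))
  refine ⟨F, ?_⟩
  have hsub : {p : G × G | Adj S p.1 p.2 ∧ ψ p.1 p.2 ≠ F p.1 + F p.2} ⊆
      ((fun p : G × G => (p.1, p.1 * p.2)) '' (X ×ˢ (S : Set G))) ∪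
      ((fun p : G × G => (p.1 * p.2, p.1)) '' (X ×ˢ (S : Set G))) := by
    rintro ⟨x, y⟩ ⟨hxy, hne⟩
    simp only at hxy hne
    by_cases hx : x ∈ X
    · left
      exact ⟨(x, x⁻¹ * y), ⟨hx, hxy⟩, by simp⟩
    · by_cases hy : y ∈ X
      · right
        exact ⟨(y, y⁻¹ * x), ⟨hy, A.adj_symm hxy⟩, by simp⟩
      · exact absurd (hF x hx y hy hxy) hne
  refine Set.Finite.subset (Set.Finite.union ?_ ?_) hsub
  · exact (hX.prod S.finite_toSet).image _
  · exact (hX.prod S.finite_toSet).image _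

theorem oneEnd [T2Space E] [PreconnectedSpace E] (h1 : HC1 E) (B : Set G) (hB : (bd S B).Finite) :
    B.Finite ∨ Bᶜ.Finite := by
  classical
  let χ : G → ZMod 2 := fun g => if g ∈ B then 1 else 0
  let X1 : Set G := (fun p : G × G => p.1) '' bd S B ∪ (fun p : G × G => p.2) '' bd S B
  have hX1 : X1.Finite := (hB.image _).union (hB.image _)
  have hχ : ∀ x ∉ X1, ∀ y, Adj S x y → χ x = χ y := by
    intro x hx y hxy
    by_cases hxB : x ∈ B <;> by_cases hyB : y ∈ B
    · simp [χ, hxB, hyB]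
    · exact absurd (Or.inl ⟨(x, y), ⟨hxy, hxB, hyB⟩, rfl⟩) hx
    · exact absurd (Or.inr ⟨(y, x), ⟨A.adj_symm hxy, hyB, hxB⟩, rfl⟩) hx
    · simp [χ, hxB, hyB]
  let K0 : Set E := ⋃ h ∈ X1, h • A.K
  have hK0 : IsCompact K0 := hX1.isCompact_biUnion fun h _ => A.cpt.smul h
  let c : E → E → ZMod 2 := fun p q => χ (A.lab p) + χ (A.lab q)
  have hcl : Closed1 c := by
    intro x
    refine ⟨univ, univ_mem, fun p _ q _ r _ => ?_⟩
    have e1 := two_mul_z (χ (A.lab q))
    simp only [c]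
    linear_combination e1
  have hcs : ∃ K : Set E, IsCompact K ∧ ∀ x ∉ K, ∃ U ∈ 𝓝 x, ∀ a ∈ U, ∀ b ∈ U, c a b = 0 := by
    refine ⟨K0, hK0, fun x hx => ?_⟩
    obtain ⟨W, hWo, hxW, hWl⟩ := A.exists_open x
    refine ⟨W ∩ K0ᶜ, inter_mem (hWo.mem_nhds hxW) (hK0.isClosed.isOpen_compl.mem_nhds hx), ?_⟩
    rintro p ⟨hp, hp'⟩ q ⟨hq, -⟩
    have hpX : A.lab p ∉ X1 := by
      intro h
      apply hp'
      refine mem_iUnion₂.2 ⟨A.lab p, h, ?_⟩
      exact smul_set_mono A.sub (A.mem_lab p)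
    have h := hχ _ hpX (A.lab q) (A.adj_of_mem (A.mem_lab p) (hWl q hq hp))
    simp only [c]
    rw [h]
    exact two_mul_z _
  obtain ⟨e, he, K1, hK1, hes⟩ := h1 c hcl hcs
  -- `χ ∘ lab + e` is locally constant, hence constant
  have hconst : ∀ x y : E, χ (A.lab x) + e x = χ (A.lab y) + e y := by
    have hl : IsLocallyConstant (fun x : E => χ (A.lab x) + e x) := by
      rw [IsLocallyConstant.iff_exists_open]
      intro x
      obtain ⟨U, hU, h⟩ := he x
      obtain ⟨V, hVU, hV, hxV⟩ := mem_nhds_iff.1 hU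
      refine ⟨V, hV, hxV, fun y hy => ?_⟩
      have h1 := h y (hVU hy) x (hVU hxV)
      simp only [c] at h1
      have e1 := two_mul_z (χ (A.lab x))
      have e2 := two_mul_z (e y)
      linear_combination h1 - e1 + e2
    exact fun x y => hl.apply_eq_of_preconnectedSpace x y
  let X : Set G := X1 ∪ {h : G | (h • A.U ∩ K1).Nonempty}
  have hX : X.Finite := hX1.union (A.fin K1 hK1)
  obtain ⟨p0, hp0⟩ := A.ne
  have hval : ∀ h ∉ X, χ h = χ (A.lab p0) + e p0 := by
    intro h hh
    have hp : h • p0 ∈ h • A.U := smul_mem_smul_set hp0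
    have h1 : h • p0 ∉ K1 := fun hK => hh (Or.inr ⟨_, hp, hK⟩)
    have h2 := hes _ h1
    have h3 := hconst (h • p0) p0
    rw [h2, add_zero] at h3
    rw [← h3]
    exact hχ h (fun hx => hh (Or.inl hx)) _ (A.adj_of_mem hp (A.mem_lab _))
  by_cases hz : χ (A.lab p0) + e p0 = 0
  · left
    refine hX.subset fun h hh => ?_
    by_contra hn
    have := hval h hn
    rw [hz] at this
    simp [χ, hh] at this
  · right
    refine hX.subset fun h hh => ?_
    by_contra hn
    have := hval h hn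
    have h0 : χ h = 0 := by
      simp only [χ]
      rw [if_neg hh]
    exact hz (by rw [← this, h0])

/-- the topological hypotheses, from the covering data, `HC1`, `HC2` and torsion-freeness -/
theorem topHyp [T2Space E] [ContractibleSpace E] (h1 : HC1 E) (h2 : HC2 E)
    (tf : ∀ g : G, g ≠ 1 → ∀ n : ℕ, 0 < n → g ^ n ≠ 1) : TopHyp S where
  toStd := A.std
  h1 := A.h1
  oneEnd := A.oneEnd h1
  t2 := A.t2 h2
  tf := tf

end ActData

end Crest.Agent.R224.Tp
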