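import Crest.Agent.R224.T.Iface
import Crest.Agent.R224.T.Transfer_Mg

-- ▼ part R224/T/Geo
section

set_option autoImplicit false
set_option linter.style.haveILetI false

noncomputable section

open Topology Set Filter
open Crest.Topology

namespace Crest.Agent.R224.T

open Crest.Agent.R197.F

section geo
variable {E M : Type} [TopologicalSpace E] [TopologicalSpace M] {π : E → M}

theorem t2_of_cov [T2Space M] (cov : IsCoveringMap π) : T2Space E := by
  refine ⟨fun a b hab => ?_⟩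
  by_cases h : π a = π b
  · exact cov.isSeparatedMap a b h hab
  · obtain ⟨u, v, hu, hv, hau, hbv, huv⟩ := t2_separation h
    exact ⟨π ⁻¹' u, π ⁻¹' v, hu.preimage cov.continuous, hv.preimage cov.continuous, hau, hbv,
      huv.preimage π⟩

/-- the charts of the total space of a covering -/
@[reducible] def chartedOfCov {H : Type} [TopologicalSpace H] [ChartedSpace H M] (cov : IsCoveringMap π) :
    ChartedSpace H E where
  atlas := range fun e : E => (cov.isLocalHomeomorph e).choose.trans (chartAt H (π e))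
  chartAt e := (cov.isLocalHomeomorph e).choose.trans (chartAt H (π e))
  mem_chart_source e := by
    have h1 := (cov.isLocalHomeomorph e).choose_spec.1
    have h2 : π = (cov.isLocalHomeomorph e).choose := (cov.isLocalHomeomorph e).choose_spec.2
    rw [OpenPartialHomeomorph.trans_source]
    refine ⟨h1, ?_⟩
    rw [mem_preimage, ← h2]
    exact mem_chart_source H (π e)
  chart_mem_atlas e := ⟨e, rfl⟩

/-- compact subsets of a connected, locally connected, locally compact space lie in connected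
relatively compact open sets -/
theorem exists_open_conn [PreconnectedSpace E] [LocallyConnectedSpace E] [LocallyCompactSpace E]
    [T2Space E] (K : Set E) (hK : IsCompact K) (a₀ : E) :
    ∃ U : Set E, IsOpen U ∧ IsConnected U ∧ IsCompact (closure U) ∧ K ⊆ U ∧ a₀ ∈ U := by
  classical
  -- small sets
  have hsm : ∀ x : E, ∃ V : Set E, IsOpen V ∧ IsConnected V ∧ IsCompact (closure V) ∧ x ∈ V := by
    intro x
    obtain ⟨L, hL, hxL⟩ := exists_compact_mem_nhds x
    obtain ⟨V, hVL, hVo, hxV, hVc⟩ :=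
      (locallyConnectedSpace_iff_subsets_isOpen_isConnected.1 ‹LocallyConnectedSpace E›) x L hxL
    exact ⟨V, hVo, hVc, hL.of_isClosed_subset isClosed_closure
      (closure_minimal hVL hL.isClosed), hxV⟩
  -- two points
  have h2 : ∀ x y : E, ∃ V : Set E, IsOpen V ∧ IsConnected V ∧ IsCompact (closure V) ∧ x ∈ V ∧
      y ∈ V := by
    refine PreconnectedSpace.induction₂' _ ?_ ?_
    · intro x
      obtain ⟨V, hVo, hVc, hVk, hxV⟩ := hsm x
      filter_upwards [hVo.mem_nhds hxV] with y hy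
      exact ⟨⟨V, hVo, hVc, hVk, hxV, hy⟩, ⟨V, hVo, hVc, hVk, hy, hxV⟩⟩
    · constructor
      rintro x y z ⟨V, hVo, hVc, hVk, hxV, hyV⟩ ⟨W, hWo, hWc, hWk, hyW, hzW⟩
      refine ⟨V ∪ W, hVo.union hWo, IsConnected.union ⟨y, hyV, hyW⟩ hVc hWc, ?_, Or.inl hxV,
        Or.inr hzW⟩
      rw [closure_union]
      exact hVk.union hWk
  refine hK.induction_on (p := fun K => ∃ U : Set E, IsOpen U ∧ IsConnected U ∧
    IsCompact (closure U) ∧ K ⊆ U ∧ a₀ ∈ U) ?_ ?_ ?_ ?_
  · obtain ⟨V, hVo, hVc, hVk, hxV⟩ := hsm a₀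
    exact ⟨V, hVo, hVc, hVk, empty_subset _, hxV⟩
  · rintro s t hst ⟨U, h1, h2, h3, h4, h5⟩
    exact ⟨U, h1, h2, h3, hst.trans h4, h5⟩
  · rintro s t ⟨U, h1, h2, h3, h4, h5⟩ ⟨V, k1, k2, k3, k4, k5⟩
    refine ⟨U ∪ V, h1.union k1, IsConnected.union ⟨a₀, h5, k5⟩ h2 k2, ?_,
      union_subset_union h4 k4, Or.inl h5⟩
    rw [closure_union]
    exact h3.union k3
  · intro x _
    obtain ⟨V, hVo, hVc, hVk, hxV, haV⟩ := h2 x a₀
    exact ⟨V, mem_nhdsWithin_of_mem_nhds (hVo.mem_nhds hxV), V, hVo, hVc, hVk, Subset.rfl, haV⟩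

/-- properness of the deck action -/
theorem deck_proper [T2Space M] [PreconnectedSpace E] (cov : IsCoveringMap π)
    (htr : ∀ x y : E, π x = π y → ∃ g : Deck π, g • x = y) (L K : Set E) (hL : IsCompact L)
    (hK : IsCompact K) : {g : Deck π | ∃ u ∈ L, g • u ∈ K}.Finite := by
  have key : ∀ s : Set (E × E), IsCompact s → {g : Deck π | ∃ q ∈ s, g • q.1 = q.2}.Finite := by
    intro s hs
    refine hs.induction_on (p := fun s => {g : Deck π | ∃ q ∈ s, g • q.1 = q.2}.Finite) ?_ ?_ ?_ ?_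
    · simp
    · intro s t hst ht
      exact ht.subset fun g ⟨q, hq, hg⟩ => ⟨q, hst hq, hg⟩
    · intro s t hs ht
      refine (hs.union ht).subset ?_
      rintro g ⟨q, hq | hq, hg⟩
      · exact Or.inl ⟨q, hq, hg⟩
      · exact Or.inr ⟨q, hq, hg⟩
    · rintro ⟨u, v⟩ _
      by_cases h : π u = π v
      · obtain ⟨g₀, hg₀⟩ := htr u v h
        obtain ⟨φ, huφ, hφ⟩ := cov.isLocalHomeomorph u
        have hinj : ∀ a ∈ φ.source, ∀ b ∈ φ.source, π a = π b → a = b := by
          intro a ha b hb hab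
          rw [hφ] at hab
          exact φ.injOn ha hb hab
        have hA : φ.source ∈ 𝓝 u := φ.open_source.mem_nhds huφ
        have hB : (fun z => g₀⁻¹ • z) ⁻¹' φ.source ∈ 𝓝 v := by
          refine (continuous_const_smul g₀⁻¹).continuousAt.preimage_mem_nhds ?_
          rw [← hg₀, inv_smul_smul]
          exact hA
        refine ⟨φ.source ×ˢ ((fun z => g₀⁻¹ • z) ⁻¹' φ.source),
          mem_nhdsWithin_of_mem_nhds (prod_mem_nhds hA hB), (finite_singleton g₀).subset ?_⟩
        rintro g ⟨⟨a, b⟩, ⟨ha, hb⟩, hg⟩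
        simp only at ha hb hg
        have hb' : g₀⁻¹ • b ∈ φ.source := hb
        have h1 : π a = π (g₀⁻¹ • b) := by
          rw [Deck.proj_smul (p := π), ← hg, Deck.proj_smul (p := π)]
        have h2 := hinj a ha _ hb' h1
        have h3 : g • a = g₀ • a := by
          rw [hg]
          conv_rhs => rw [h2, smul_inv_smul]
        exact Deck.ext_of_smul_eq cov a h3
      · obtain ⟨A, B, hA, hB, huA, hvB, hAB⟩ := t2_separation h
        refine ⟨(π ⁻¹' A) ×ˢ (π ⁻¹' B), mem_nhdsWithin_of_mem_nhds (prod_mem_nhds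
          ((hA.preimage cov.continuous).mem_nhds huA) ((hB.preimage cov.continuous).mem_nhds hvB)),
          finite_empty.subset ?_⟩
        rintro g ⟨⟨a, b⟩, ⟨ha, hb⟩, hg⟩
        simp only at ha hb hg
        have ha' : π a ∈ A := ha
        have hb' : π b ∈ B := hb
        rw [← hg, Deck.proj_smul (p := π)] at hb'
        exact (disjoint_left.1 hAB ha' hb').elim
  refine (key (L ×ˢ K) (hL.prod hK)).subset ?_
  rintro g ⟨u, hu, hg⟩
  exact ⟨(u, g • u), ⟨hu, hg⟩, rfl⟩

end geo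

theorem nGeo : NGeo := by
  intro d M _ _ _ _ _ x hM
  obtain ⟨E, _, π, hE, cov, hs⟩ := hM
  haveI : T2Space E := t2_of_cov cov
  letI : ChartedSpace (EE (d + 1)) E := chartedOfCov cov
  haveI : LocallyCompactSpace E := ChartedSpace.locallyCompactSpace (EE (d + 1)) E
  haveI : LocallyConnectedSpace E := ChartedSpace.locallyConnectedSpace (EE (d + 1)) E
  obtain ⟨e⟩ := nonempty_deck_equiv cov hs x (MulEquiv.refl (FundamentalGroup M x))
  obtain ⟨a₀, ha₀⟩ := hs x
  -- the action of the fundamental group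
  letI act : MulAction (FundamentalGroup M x) E := MulAction.compHom E (e.symm : FundamentalGroup M x →* Deck π)
  have hact : ∀ (g : FundamentalGroup M x) (z : E), g • z = e.symm g • z := fun g z => rfl
  -- the compact set
  obtain ⟨K, hK, hKM⟩ : ∃ K : Set E, IsCompact K ∧ π '' K = univ := by
    classical
    have h1 : ∀ y : M, ∃ L : Set E, IsCompact L ∧ π '' L ∈ 𝓝 y := by
      intro y
      obtain ⟨z, rfl⟩ := hs y
      obtain ⟨L, hL, hzL⟩ := exists_compact_mem_nhds z
      exact ⟨L, hL, cov.isOpenMap.image_mem_nhds hzL⟩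
    have h2 := (isCompact_univ (X := M)).induction_on
      (p := fun s => ∃ L : Set E, IsCompact L ∧ s ⊆ π '' L) ⟨∅, isCompact_empty, by simp⟩
      (fun s t hst ⟨L, hL, hs⟩ => ⟨L, hL, hst.trans hs⟩)
      (fun s t ⟨L, hL, hs⟩ ⟨L', hL', hs'⟩ => ⟨L ∪ L', hL.union hL', by
        rw [image_union]; exact union_subset_union hs hs'⟩)
      (fun y _ => by
        obtain ⟨L, hL, hy⟩ := h1 y
        exact ⟨_, mem_nhdsWithin_of_mem_nhds hy, L, hL, Subset.rfl⟩)
    obtain ⟨L, hL, h3⟩ := h2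
    exact ⟨L, hL, univ_subset_iff.1 h3⟩
  obtain ⟨U, hUo, hUc, hUk, hKU, haU⟩ := exists_open_conn K hK a₀
  have hprop : ∀ L K : Set E, IsCompact L → IsCompact K →
      {g : FundamentalGroup M x | ∃ u ∈ L, g • u ∈ K}.Finite := by
    intro L K hL hK
    have h1 := deck_proper cov (fun x y h => Deck.exists_smul_eq cov x y h) L K hL hK
    refine (h1.image e).subset ?_
    rintro g ⟨u, hu, hg⟩
    exact ⟨e.symm g, ⟨u, hu, hg⟩, e.apply_symm_apply g⟩
  have hpU : ∀ K : Set E, IsCompact K → {g : FundamentalGroup M x | ∃ u ∈ U, g • u ∈ K}.Finite := by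
    intro K hK
    refine (hprop (closure U) K hUk hK).subset ?_
    rintro g ⟨u, hu, hg⟩
    exact ⟨u, subset_closure hu, hg⟩
  have hS : {g : FundamentalGroup M x | ∃ u ∈ U, g • u ∈ U}.Finite := by
    refine (hpU (closure U) hUk).subset ?_
    rintro g ⟨u, hu, hg⟩
    exact ⟨u, hu, subset_closure hg⟩
  refine ⟨E, inferInstance, π, act, hS.toFinset, U, hE, cov, hs, inferInstance, inferInstance,
    ⟨inferInstance⟩, ?_, ?_, ?_⟩
  · intro g z
    rw [hact, Deck.proj_smul (p := π)]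
  · intro f hf
    refine ⟨e ⟨f, hf⟩, fun z => ?_⟩
    rw [hact, e.symm_apply_apply]
    rfl
  · exact
      { cont := fun g => by
          simp only [hact]
          exact continuous_const_smul _
        isOpen := hUo
        conn := hUc
        cpt := hUk
        cover := fun p => by
          have h1 : π p ∈ π '' K := by rw [hKM]; trivial
          obtain ⟨u, hu, hup⟩ := h1
          obtain ⟨g, hg⟩ := Deck.exists_smul_eq cov u p hup
          refine ⟨e g, u, hKU hu, ?_⟩
          rw [hact, e.symm_apply_apply, hg]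
        mem := fun g => by simp
        proper := hpU }

end Crest.Agent.R224.T
end
end

-- ▼ part R224/T/End
section

set_option autoImplicit false

noncomputable section

open Topology Set Filter

namespace Crest.Agent.R224.T

open EndAux

theorem nEnd : NEnd := by
  classical
  intro d G _ E _ _ _ _ _ S U hd hgeo hman ⟨μ, hμ, hsm⟩ A hA
  obtain ⟨n, rfl⟩ : ∃ n, d = n + 1 := ⟨d - 1, by omega⟩
  by_contra hcon
  push Not at hcon
  obtain ⟨hA1, hA2⟩ := hcon
  -- labels
  choose! lab hlab using hsm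
  have adj_of : ∀ (g h : G) (p : E), p ∈ tr g U → p ∈ tr h U → Adj S g h := by
    rintro g h p ⟨u, hu, rfl⟩ ⟨v, hv, hvu⟩
    have hvu' : h • v = g • u := hvu
    refine (hgeo.mem _).2 ⟨v, hv, ?_⟩
    rw [mul_smul, hvu', inv_smul_smul]
    exact hu
  set m : C(Dl (n + 1 + 1), E) → ZMod 2 := fun σ => if lab σ ∈ A then μ σ else 0 with hm
  have mA : ∀ σ, lab σ ∈ A → m σ = μ σ := fun σ h => by simp [hm, h]
  have mN : ∀ σ, lab σ ∉ A → m σ = 0 := fun σ h => by simp [hm, h]
  have hLFm : LF m := LF.of_supp hμ.lf (by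
    intro σ h1 h2
    apply h1
    by_cases h3 : lab σ ∈ A
    · rw [mA σ h3, h2]
    · exact mN σ h3)
  -- the finite set of elements of the boundary
  set P : Set G := Prod.fst '' (Crest.Agent.R224.bd S A) ∪ Prod.snd '' (Crest.Agent.R224.bd S A)
    with hP
  have hPf : P.Finite := (hA.image _).union (hA.image _)
  have hPadj : ∀ g h : G, Adj S g h → g ∉ P → (g ∈ A ↔ h ∈ A) := by
    intro g h hgh hg
    constructor
    · intro h1
      by_contra h2
      exact hg (Or.inl ⟨(g, h), ⟨hgh, h1, h2⟩, rfl⟩)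
    · intro h1
      by_contra h2
      refine hg (Or.inr ⟨(h, g), ⟨?_, h1, h2⟩, rfl⟩)
      obtain ⟨u, hu, hgu⟩ := (hgeo.mem _).1 hgh
      refine (hgeo.mem _).2 ⟨(g⁻¹ * h) • u, hgu, ?_⟩
      rw [← mul_smul]
      simpa using hu
  set K0 : Set E := ⋃ g ∈ P, (fun z => g • z) '' closure U with hK0
  have hK0c : IsCompact K0 :=
    hPf.isCompact_biUnion fun g _ => hgeo.cpt.image (hgeo.cont g)
  -- the true boundary of m lives on K0
  have claim1 : ∀ τ, tb m τ ≠ 0 → (range τ ∩ K0).Nonempty := by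
    intro τ hτ
    obtain ⟨σ, hσ, hσf⟩ := exists_of_bd _ _ hτ
    have hσm : m σ ≠ 0 := by
      rwa [cut_of_meet hLFm (range_cpt τ) (meet_of_face hσf (self_meet τ))] at hσ
    have hσA : lab σ ∈ A := by
      by_contra h; exact hσm (mN σ h)
    have hσμ : μ σ ≠ 0 := by rwa [mA σ hσA] at hσm
    have : ∃ σ', (∃ i, σ'.comp (face (n + 1) i) = τ) ∧ μ σ' ≠ 0 ∧ lab σ' ∉ A := by
      by_contra hcon
      push Not at hcon
      apply hτ
      rw [tb_congr hLFm hμ.lf, LCyc.tb_eq hμ.toLCyc]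
      intro σ' hσ'
      by_cases h1 : μ σ' = 0
      · by_cases h2 : lab σ' ∈ A
        · exact mA _ h2
        · rw [mN _ h2, h1]
      · exact mA _ (hcon σ' hσ' h1)
    obtain ⟨σ', hσ'f, hσ'μ, hσ'A⟩ := this
    obtain ⟨z, hz⟩ := range_ne τ
    have hz1 : z ∈ tr (lab σ) U := by
      obtain ⟨i, rfl⟩ := hσf
      exact hlab σ hσμ (range_face σ i hz)
    have hz2 : z ∈ tr (lab σ') U := by
      obtain ⟨i, hi⟩ := hσ'f
      rw [← hi] at hz
      exact hlab σ' hσ'μ (range_face σ' i hz)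
    have hlP : lab σ ∈ P := Or.inl ⟨(lab σ, lab σ'), ⟨adj_of _ _ z hz1 hz2, hσA, hσ'A⟩, rfl⟩
    refine ⟨z, hz, mem_biUnion hlP ?_⟩
    obtain ⟨u, hu, rfl⟩ := hz1
    exact ⟨u, subset_closure hu, rfl⟩
  -- the finite boundary chain
  obtain ⟨β, hβ⟩ : ∃ β : Ch (n + 1) E, ∀ τ, β τ = tb m τ := by
    refine ⟨(bd (n + 1) (cut m K0)).filter fun τ => (range τ ∩ K0).Nonempty, fun τ => ?_⟩
    by_cases h : (range τ ∩ K0).Nonempty
    · rw [Finsupp.filter_apply, if_pos h, bd_cut hLFm hK0c h]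
    · rw [Finsupp.filter_apply, if_neg h]
      by_contra hne
      exact h (claim1 τ (Ne.symm hne))
  have hβ0 : bd n β = 0 := bd_eq_zero_of_tb hLFm β hβ
  obtain ⟨b, hb⟩ := hman.fill n β hβ0
  -- the locally finite cycle m + b
  have hLF : LF fun σ => m σ + b σ := LF.add_fin hLFm b
  have hcyc : LCyc fun σ => m σ + b σ := by
    refine LCyc.of_tb hLF fun τ => ?_
    rw [tb_add hLFm (LF.fin b) hLF, tb_fin, hb, ← hβ]
    exact z2 _
  -- far away points
  set K1 : Set E := ⋃ σ ∈ b.support, range σ with hK1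
  have hK1c : IsCompact K1 := b.support.isCompact_biUnion fun σ _ => range_cpt σ
  have hfin : (P ∪ {g : G | ∃ u ∈ U, g • u ∈ K1}).Finite := hPf.union (hgeo.proper K1 hK1c)
  have far : ∀ g : G, g ∉ P → g ∉ {g : G | ∃ u ∈ U, g • u ∈ K1} → ∀ u ∈ U,
      ∀ σ : C(Dl (n + 1 + 1), E), g • u ∈ range σ → b σ = 0 ∧ (μ σ ≠ 0 → (g ∈ A ↔ lab σ ∈ A)) := by
    intro g hgP hgK u hu σ hσ
    constructor
    · by_contra hne
      apply hgK
      exact ⟨u, hu, mem_biUnion (Finset.mem_coe.2 (Finsupp.mem_support_iff.2 hne)) hσ⟩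
    · intro hne
      exact hPadj g (lab σ) (adj_of _ _ (g • u) ⟨u, hu, rfl⟩ (hlab σ hne hσ)) hgP
  obtain ⟨u, hu⟩ := hgeo.conn.nonempty
  obtain ⟨g1, hg1A, hg1⟩ := (hA1.sdiff hfin).nonempty
  obtain ⟨g2, hg2A, hg2⟩ := (hA2.sdiff hfin).nonempty
  have hg1' : g1 ∉ P ∧ g1 ∉ {g : G | ∃ u ∈ U, g • u ∈ K1} :=
    ⟨fun h => hg1 (Or.inl h), fun h => hg1 (Or.inr h)⟩
  have hg2' : g2 ∉ P ∧ g2 ∉ {g : G | ∃ u ∈ U, g • u ∈ K1} :=
    ⟨fun h => hg2 (Or.inl h), fun h => hg2 (Or.inr h)⟩
  -- degree zero at g2 • u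
  have hdeg2 : Nul {g2 • u}ᶜ (cut (fun σ => m σ + b σ) {g2 • u}) := by
    have h0 : LF fun σ : C(Dl (n + 1 + 1), E) => (0 : Ch (n + 1 + 1) E) σ := LF.fin 0
    rw [nul_cut_congr hLF h0]
    · rw [show cut (fun σ : C(Dl (n + 1 + 1), E) => (0 : Ch (n + 1 + 1) E) σ) {g2 • u} = 0 from ?_]
      · exact nul_zero
      · ext σ
        rw [cut_apply h0 isCompact_singleton]
        simp
    · intro σ hσ
      obtain ⟨h1, h2⟩ := far g2 hg2'.1 hg2'.2 u hu σ hσ
      show m σ + b σ = 0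
      rw [h1, add_zero]
      by_cases h3 : μ σ = 0
      · by_cases h4 : lab σ ∈ A
        · rw [mA _ h4, h3]
        · exact mN _ h4
      · exact mN _ fun h4 => hg2A ((h2 h3).2 h4)
  -- degree one at g1 • u
  have hdeg1 : ¬ Nul {g1 • u}ᶜ (cut (fun σ => m σ + b σ) {g1 • u}) := by
    rw [nul_cut_congr hLF hμ.lf]
    · exact hμ.deg _
    · intro σ hσ
      obtain ⟨h1, h2⟩ := far g1 hg1'.1 hg1'.2 u hu σ hσ
      show m σ + b σ = μ σ
      rw [h1, add_zero]
      by_cases h3 : μ σ = 0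
      · by_cases h4 : lab σ ∈ A
        · exact mA _ h4
        · rw [mN _ h4, h3]
      · exact mA _ ((h2 h3).1 hg1A)
  exact hdeg1 (deg_const hman hcyc _ _ hdeg2)

end Crest.Agent.R224.T
end
end

-- ▼ part R224/T/Glue
section

set_option autoImplicit false

noncomputable section

open Topology Set Filter

namespace Crest.Agent.R224.T

namespace Glue

lemma e_self {E : Type} {𝒲 : Set (Set E)} {e : E → E → ZMod 2}
    (he : ∀ W ∈ 𝒲, ∀ p ∈ W, ∀ q ∈ W, ∀ r ∈ W, e p q + e q r = e p r)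
    {V : Set E} (hV : V ∈ 𝒲) {p : E} (hp : p ∈ V) : e p p = 0 := by
  have := he V hV p hp p hp p hp
  rw [CharTwo.add_self_eq_zero] at this
  exact this.symm


/-- index set of the double cover -/
abbrev Idx {E : Type} (𝒲 : Set (Set E)) : Type := {i : Set E × E // i.1 ∈ 𝒲 ∧ i.2 ∈ i.1}

/-- the double cover attached to a cocycle -/
def core {E : Type} [TopologicalSpace E] {𝒲 : Set (Set E)}
    (hW : ∀ W ∈ 𝒲, IsOpen W ∧ IsPreconnected W) {e : E → E → ZMod 2}
    (he : ∀ W ∈ 𝒲, ∀ p ∈ W, ∀ q ∈ W, ∀ r ∈ W, e p q + e q r = e p r)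
    (W : E → Set E) (hmem : ∀ x, x ∈ W x) (hWm : ∀ x, W x ∈ 𝒲) :
    FiberBundleCore (Idx 𝒲) E (ZMod 2) where
  baseSet i := i.1.1
  isOpen_baseSet i := (hW _ i.2.1).1
  indexAt x := ⟨(W x, x), hWm x, hmem x⟩
  mem_baseSet_at := hmem
  coordChange i j x v := v + (e i.1.2 x + e j.1.2 x)
  coordChange_self i x _ v := by simp only [CharTwo.add_self_eq_zero, add_zero]
  continuousOn_coordChange i j := by
    rcases (i.1.1 ∩ j.1.1).eq_empty_or_nonempty with h | ⟨x0, hx0⟩
    · rw [h, Set.empty_prod]; exact continuousOn_empty _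
    · have h1 : ContinuousOn (fun p : E × ZMod 2 => p.2 + (e i.1.2 x0 + e j.1.2 x0))
          ((i.1.1 ∩ j.1.1) ×ˢ univ) := by fun_prop
      refine h1.congr ?_
      rintro ⟨x, v⟩ ⟨⟨hxi, hxj⟩, _⟩
      have h2 := he _ i.2.1 i.1.2 i.2.2 x hxi x0 hx0.1
      have h3 := he _ j.2.1 j.1.2 j.2.2 x hxj x0 hx0.2
      have h4 : e i.1.2 x0 + e j.1.2 x0 = e i.1.2 x + e j.1.2 x := by
        rw [← h2, ← h3]
        have : e i.1.2 x + e x x0 + (e j.1.2 x + e x x0) =
          e i.1.2 x + e j.1.2 x + (e x x0 + e x x0) := by ring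
        rw [this, CharTwo.add_self_eq_zero, add_zero]
      simp only [h4]
  coordChange_comp i j k x _ v := by
    have : v + (e i.1.2 x + e j.1.2 x) + (e j.1.2 x + e k.1.2 x) =
      v + (e i.1.2 x + e k.1.2 x) + (e j.1.2 x + e j.1.2 x) := by ring
    rw [this, CharTwo.add_self_eq_zero, add_zero]

end Glue

open Glue in
theorem nGlue : NGlue := by
  intro E _ _ 𝒲 hW hcov e he
  have hch : ∀ x : E, ∃ V ∈ 𝒲, x ∈ V := fun x => by
    have : x ∈ ⋃₀ 𝒲 := by rw [hcov]; trivial
    exact this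
  choose W hWm hmem using hch
  let Z := core hW he W hmem hWm
  have hcv : IsCoveringMap (Bundle.TotalSpace.proj : Z.TotalSpace → E) :=
    FiberBundle.isCoveringMap
  obtain ⟨x0, ⟨H⟩⟩ := id_nullhomotopic E
  let K : C(unitInterval × E, E) := ⟨fun p => H (unitInterval.symm p.1, p.2), by fun_prop⟩
  let z0 : Z.TotalSpace := ⟨x0, (0 : ZMod 2)⟩
  let f0 : C(E, Z.TotalSpace) := ContinuousMap.const E z0
  have hK0 : ∀ a, K (0, a) = Bundle.TotalSpace.proj (f0 a) := by
    intro a
    simp [K, f0, z0]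
  let L := hcv.liftHomotopy K f0 hK0
  let s : C(E, Z.TotalSpace) := ⟨fun a => L (1, a), by fun_prop⟩
  have hs : ∀ a, (s a).proj = a := by
    intro a
    have := congrFun (hcv.liftHomotopy_lifts K f0 hK0) (1, a)
    simp only [Function.comp] at this
    rw [show (s a).proj = (L (1, a)).proj from rfl, this]
    simp [K]
  -- the fibre coordinate
  let v : E → ZMod 2 := fun a => ((s a).2 : ZMod 2)
  refine ⟨fun a => v a, ?_⟩
  intro V hV p hp q hq
  let i : Idx 𝒲 := ⟨(V, p), hV, hp⟩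
  have hcont : ContinuousOn (fun a => (Z.localTriv i (s a)).2) V := by
    have h1 : ContinuousOn (Z.localTriv i) (Z.localTriv i).source :=
      (Z.localTriv i).continuousOn
    have h2 : ContinuousOn (fun a => Z.localTriv i (s a)) V := by
      refine h1.comp s.continuous.continuousOn ?_
      intro a ha
      rw [(Z.localTriv i).mem_source]
      change (s a).proj ∈ V
      rw [hs a]
      exact ha
    exact continuous_snd.comp_continuousOn h2
  have hval : ∀ a ∈ V, (Z.localTriv i (s a)).2 = v a + e p a := by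
    intro a ha
    have h1 : (Z.localTriv i (s a)).2 = v a + (e (s a).proj (s a).proj + e p (s a).proj) := rfl
    rw [h1, hs a, e_self he hV ha, zero_add]
  have hc : (Z.localTriv i (s p)).2 = (Z.localTriv i (s q)).2 :=
    (hW V hV).2.constant hcont hp hq
  rw [hval p hp, hval q hq, e_self he hV hp, add_zero] at hc
  change e p q = v p + v q
  rw [hc]
  have : v q + e p q + v q = e p q + (v q + v q) := by ring
  rw [this, CharTwo.add_self_eq_zero, add_zero]

end Crest.Agent.R224.T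
end
end

-- ▼ part R224/T/H1
section

set_option autoImplicit false

noncomputable section

open Topology Set Filter

namespace Crest.Agent.R224.T

/-- D1 -/
theorem nH1 (hG : NGlue) : NH1 := by
  intro G _ E _ _ _ S U hgeo ψ hψ
  classical
  -- basic facts on `ψ`
  have hadj : ∀ x y : G, ∀ p : E, p ∈ tr x U → p ∈ tr y U → Adj S x y := by
    rintro x y p ⟨u, hu, rfl⟩ ⟨w, hw, hwp⟩
    refine (hgeo.mem _).2 ⟨w, hw, ?_⟩
    have : (x⁻¹ * y) • w = u := by
      rw [mul_smul]
      have h2 : y • w = x • u := hwp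
      rw [h2, inv_smul_smul]
    rw [this]; exact hu
  have hcoc : ∀ x y z : G, ∀ p : E, p ∈ tr x U → p ∈ tr y U → p ∈ tr z U →
      ψ x y + ψ y z = ψ x z := fun x y z p hx hy hz =>
    hψ x y z (hadj x y p hx hy) (hadj y z p hy hz) (hadj x z p hx hz)
  have hself : ∀ x : G, ∀ p : E, p ∈ tr x U → ψ x x = 0 := by
    intro x p hx
    have := hcoc x x x p hx hx hx
    rw [CharTwo.add_self_eq_zero] at this
    exact this.symm
  have hsymm : ∀ x y : G, ∀ p : E, p ∈ tr x U → p ∈ tr y U → ψ x y = ψ y x := by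
    intro x y p hx hy
    have := hcoc x y x p hx hy hx
    rw [hself x p hx] at this
    exact CharTwo.add_eq_zero.mp this
  have hch : ∀ p : E, ∃ g : G, p ∈ tr g U := by
    intro p
    obtain ⟨g, u, hu, h⟩ := hgeo.cover p
    exact ⟨g, u, hu, h.symm⟩
  choose g hg using hch
  -- the cocycle
  let e : E → E → ZMod 2 := fun p q =>
    if h : ∃ γ : G, p ∈ tr γ U ∧ q ∈ tr γ U then ψ (g p) h.choose + ψ h.choose (g q) else 0
  have he1 : ∀ γ : G, ∀ p ∈ tr γ U, ∀ q ∈ tr γ U, e p q = ψ (g p) γ + ψ γ (g q) := by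
    intro γ p hp q hq
    have h : ∃ γ : G, p ∈ tr γ U ∧ q ∈ tr γ U := ⟨γ, hp, hq⟩
    have h0 : e p q = ψ (g p) h.choose + ψ h.choose (g q) := by simp only [e, dif_pos h]
    rw [h0]
    set δ := h.choose with hδ
    have hp' : p ∈ tr δ U := h.choose_spec.1
    have hq' : q ∈ tr δ U := h.choose_spec.2
    have h1 := hcoc (g p) γ δ p (hg p) hp hp'
    have h2 := hcoc δ γ (g q) q hq' hq (hg q)
    rw [← h1, ← h2, hsymm δ γ p hp' hp]
    have : ψ (g p) γ + ψ γ δ + (ψ γ δ + ψ γ (g q)) =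
      ψ (g p) γ + ψ γ (g q) + (ψ γ δ + ψ γ δ) := by ring
    rw [this, CharTwo.add_self_eq_zero, add_zero]
  have hopen : ∀ γ : G, IsOpen (tr γ U) := by
    intro γ
    have : tr γ U = (fun z : E => γ⁻¹ • z) ⁻¹' U := by
      ext z
      constructor
      · rintro ⟨u, hu, rfl⟩
        simpa using hu
      · intro hz
        exact ⟨γ⁻¹ • z, hz, by simp⟩
    rw [this]
    exact hgeo.isOpen.preimage (hgeo.cont _)
  have hconn : ∀ γ : G, IsPreconnected (tr γ U) := fun γ =>
    hgeo.conn.isPreconnected.image _ (hgeo.cont γ).continuousOn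
  obtain ⟨f, hf⟩ := hG E {V | ∃ γ : G, V = tr γ U}
    (by rintro V ⟨γ, rfl⟩; exact ⟨hopen γ, hconn γ⟩)
    (by
      rw [Set.eq_univ_iff_forall]
      intro p
      exact ⟨tr (g p) U, ⟨g p, rfl⟩, hg p⟩) e
    (by
      rintro V ⟨γ, rfl⟩ p hp q hq r hr
      rw [he1 γ p hp q hq, he1 γ q hq r hr, he1 γ p hp r hr, hsymm (g q) γ q (hg q) hq]
      have : ψ (g p) γ + ψ γ (g q) + (ψ γ (g q) + ψ γ (g r)) =
        ψ (g p) γ + ψ γ (g r) + (ψ γ (g q) + ψ γ (g q)) := by ring
      rw [this, CharTwo.add_self_eq_zero, add_zero])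
  obtain ⟨u0, hu0⟩ := hgeo.conn.nonempty
  let F : G → ZMod 2 := fun γ => f (γ • u0) + ψ (g (γ • u0)) γ
  have hF : ∀ γ : G, ∀ p ∈ tr γ U, F γ = f p + ψ (g p) γ := by
    intro γ p hp
    have hq : γ • u0 ∈ tr γ U := ⟨u0, hu0, rfl⟩
    have h1 := hf (tr γ U) ⟨γ, rfl⟩ (γ • u0) hq p hp
    rw [he1 γ _ hq p hp, hsymm γ (g p) p hp (hg p)] at h1
    have h2 : F γ + (f p + ψ (g p) γ) = 0 := by
      have : F γ + (f p + ψ (g p) γ) =
        (f (γ • u0) + f p) + (ψ (g (γ • u0)) γ + ψ (g p) γ) := by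
        simp only [F]; ring
      rw [this, ← h1, CharTwo.add_self_eq_zero]
    exact CharTwo.add_eq_zero.mp h2
  refine ⟨F, ?_⟩
  intro x y hxy
  obtain ⟨u, hu, hu'⟩ := (hgeo.mem _).1 hxy
  have hpy : y • u ∈ tr y U := ⟨u, hu, rfl⟩
  have hpx : y • u ∈ tr x U := ⟨(x⁻¹ * y) • u, hu', by simp [mul_smul]⟩
  rw [hF x _ hpx, hF y _ hpy]
  have h1 := hcoc x (g (y • u)) y _ hpx (hg _) hpy
  rw [← h1, hsymm x _ _ hpx (hg _)]
  have : f (y • u) + ψ (g (y • u)) x + (f (y • u) + ψ (g (y • u)) y) =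
    ψ (g (y • u)) x + ψ (g (y • u)) y + (f (y • u) + f (y • u)) := by ring
  rw [this, CharTwo.add_self_eq_zero, add_zero]

end Crest.Agent.R224.T
end
end

-- ▼ part R224/T/Lift
section

set_option autoImplicit false

noncomputable section

open Topology Set Filter
open Crest.Agent.R197.F

namespace Crest.Agent.R224.T

namespace Lift

instance contractible_Dl (n : ℕ) : ContractibleSpace (Dl n) :=
  (convex_stdSimplex ℝ (Fin (n + 1))).contractibleSpace ⟨_, single_mem_stdSimplex ℝ 0⟩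

section chains
variable {X : Type} [TopologicalSpace X] {Y : Type} [TopologicalSpace Y]

theorem cut_apply {n : ℕ} {m : C(Dl n, X) → ZMod 2} {K : Set X}
    (h : {σ : C(Dl n, X) | m σ ≠ 0 ∧ (range σ ∩ K).Nonempty}.Finite) (σ : C(Dl n, X)) :
    cut m K σ = open Classical in if (range σ ∩ K).Nonempty then m σ else 0 := by
  classical
  unfold cut
  rw [dif_pos h]
  rfl

theorem cut_apply_of_meets {n : ℕ} {m : C(Dl n, X) → ZMod 2} {K : Set X}
    (h : {σ : C(Dl n, X) | m σ ≠ 0 ∧ (range σ ∩ K).Nonempty}.Finite) {σ : C(Dl n, X)}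
    (hσ : (range σ ∩ K).Nonempty) : cut m K σ = m σ := by
  rw [cut_apply h, if_pos hσ]

theorem mem_supp_cut {n : ℕ} {m : C(Dl n, X) → ZMod 2} {K : Set X}
    (h : {σ : C(Dl n, X) | m σ ≠ 0 ∧ (range σ ∩ K).Nonempty}.Finite) (σ : C(Dl n, X)) :
    σ ∈ (cut m K).support ↔ m σ ≠ 0 ∧ (range σ ∩ K).Nonempty := by
  rw [Finsupp.mem_support_iff, cut_apply h]
  by_cases h1 : (range σ ∩ K).Nonempty
  · simp [h1]
  · simp [h1]

open Classical in
/-- coefficient of the boundary -/
theorem bd_apply {n : ℕ} (c : Ch (n + 1) X) (τ : C(Dl n, X)) :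
    bd n c τ = ∑ i : Fin (n + 2), ∑ σ ∈ c.support with σ.comp (face n i) = τ, c σ := by
  unfold bd
  rw [Finsupp.linearCombination_apply, Finsupp.sum, Finsupp.finsetSum_apply]
  simp only [Finset.sum_filter]
  rw [Finset.sum_comm]
  refine Finset.sum_congr rfl fun σ _ => ?_
  rw [Finsupp.smul_apply, Finsupp.finsetSum_apply, smul_eq_mul, Finset.mul_sum]
  refine Finset.sum_congr rfl fun i _ => ?_
  rw [Finsupp.single_apply]
  split_ifs <;> simp

theorem range_comp_face {n : ℕ} (σ : C(Dl (n + 1), X)) (i : Fin (n + 2)) :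
    range (σ.comp (face n i)) ⊆ range σ := by
  rintro _ ⟨v, rfl⟩
  exact ⟨face n i v, rfl⟩



theorem In.add' {A : Set X} {n : ℕ} {c c' : Ch n X} (h : In A c) (h' : In A c') :
    In A (c + c') := by
  classical
  intro σ hσ
  rcases Finset.mem_union.1 (Finsupp.support_add hσ) with h1 | h1
  · exact h σ h1
  · exact h' σ h1

theorem Nul.add' {A : Set X} {n : ℕ} {c c' : Ch n X} (h : Nul A c) (h' : Nul A c') :
    Nul A (c + c') := by
  obtain ⟨b, e, he, rfl⟩ := h
  obtain ⟨b', e', he', rfl⟩ := h'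
  exact ⟨b + b', e + e', In.add' he he', by rw [map_add]; abel⟩

theorem Nul.of_in {A : Set X} {n : ℕ} {c : Ch n X} (h : In A c) : Nul A c :=
  ⟨0, c, h, by simp⟩

theorem push_single (f : C(X, Y)) {n : ℕ} (σ : C(Dl n, X)) (a : ZMod 2) :
    push f n (Finsupp.single σ a) = Finsupp.single (f.comp σ) a := by
  simp [push]

theorem bd_single {n : ℕ} (σ : C(Dl (n + 1), X)) :
    bd n (Finsupp.single σ 1) = ∑ i, Finsupp.single (σ.comp (face n i)) (1 : ZMod 2) := by
  simp [bd]

theorem bd_push' (f : C(X, Y)) {n : ℕ} (c : Ch (n + 1) X) :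
    bd n (push f (n + 1) c) = push f n (bd n c) := by
  have : (bd n).comp (push f (n + 1)) = (push f n).comp (bd n) := by
    apply Finsupp.lhom_ext'
    intro σ
    apply LinearMap.ext_ring
    simp only [LinearMap.comp_apply, Finsupp.lsingle_apply]
    rw [push_single, bd_single, bd_single, map_sum]
    refine Finset.sum_congr rfl fun i _ => ?_
    rw [push_single]; rfl
  exact LinearMap.congr_fun this c

theorem In.push' (f : C(X, Y)) {A : Set X} {B : Set Y} {n : ℕ} {c : Ch n X} (h : In A c)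
    (hAB : ∀ x ∈ A, f x ∈ B) : In B (push f n c) := by
  classical
  intro τ hτ
  have := Finsupp.mapDomain_support (f := fun σ : C(Dl n, X) => f.comp σ) (s := c) hτ
  rw [Finset.mem_image] at this
  obtain ⟨σ, hσ, rfl⟩ := this
  rintro _ ⟨v, rfl⟩
  exact hAB _ (h σ hσ ⟨v, rfl⟩)

theorem Nul.push' (f : C(X, Y)) {A : Set X} {B : Set Y} {n : ℕ} {c : Ch n X} (h : Nul A c)
    (hAB : ∀ x ∈ A, f x ∈ B) : Nul B (push f n c) := by
  obtain ⟨b, e, he, rfl⟩ := h
  exact ⟨push f (n + 1) b, push f n e, In.push' f he hAB, by rw [map_add, bd_push']⟩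

end chains

section cov

variable {M E : Type} [TopologicalSpace M] [TopologicalSpace E] {π : E → M}

/-- sections of the covering over an open set -/
structure Sec (π : E → M) (V : Set M) (s : M → E) : Prop where
  isOpen : IsOpen V
  cont : ContinuousOn s V
  sec : ∀ x ∈ V, π (s x) = x

theorem Sec.image_open (hπ : IsCoveringMap π) {V : Set M} {s : M → E} (h : Sec π V s) :
    IsOpen (s '' V) := by
  rw [isOpen_iff_mem_nhds]
  rintro _ ⟨x, hx, rfl⟩
  obtain ⟨φ, hφ, hφπ⟩ := hπ.isLocalHomeomorph (s x)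
  have h1 : s ⁻¹' φ.source ∈ 𝓝[V] x := (h.cont x hx) (φ.open_source.mem_nhds hφ)
  rw [h.isOpen.nhdsWithin_eq hx] at h1
  have h2 : π ⁻¹' (V ∩ s ⁻¹' φ.source) ∈ 𝓝 (s x) := by
    apply hπ.continuous.continuousAt
    rw [h.sec x hx]
    exact inter_mem (h.isOpen.mem_nhds hx) h1
  filter_upwards [h2, φ.open_source.mem_nhds hφ] with e he he'
  refine ⟨π e, he.1, ?_⟩
  apply φ.injOn he.2 he'
  rw [← hφπ, h.sec _ he.1]

theorem exists_sec (hπ : IsCoveringMap π) (e : E) {U : Set E} (hU : IsOpen U) (he : e ∈ U) :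
    ∃ V s, Sec π V s ∧ π e ∈ V ∧ s (π e) = e ∧ ∀ x ∈ V, s x ∈ U := by
  obtain ⟨φ, hφ, hφπ⟩ := hπ.isLocalHomeomorph e
  refine ⟨φ.target ∩ φ.symm ⁻¹' U, φ.symm, ⟨φ.isOpen_inter_preimage_symm hU, ?_, ?_⟩, ?_, ?_, ?_⟩
  · exact φ.continuousOn_symm.mono inter_subset_left
  · rintro x ⟨hx, -⟩
    rw [hφπ]; exact φ.right_inv hx
  · rw [hφπ]
    exact ⟨φ.map_source hφ, by simpa [φ.left_inv hφ] using he⟩
  · rw [hφπ]; exact φ.left_inv hφ
  · rintro x ⟨-, hx⟩; exact hx

/-- every subset of a fibre is closed -/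
theorem fibre_closed [T1Space M] (hπ : IsCoveringMap π) (m : M) (B : Set E)
    (hB : ∀ e ∈ B, π e = m) : IsClosed B := by
  rw [← isOpen_compl_iff, isOpen_iff_mem_nhds]
  intro e he
  by_cases hm : π e = m
  · obtain ⟨φ, hφ, hφπ⟩ := hπ.isLocalHomeomorph e
    filter_upwards [φ.open_source.mem_nhds hφ] with e' he' hB'
    have : e' = e := φ.injOn he' hφ (by rw [← hφπ, hB e' hB', hm])
    exact he (this ▸ hB')
  · have : π ⁻¹' {m}ᶜ ∈ 𝓝 e := hπ.continuous.continuousAt (isOpen_compl_singleton.mem_nhds hm)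
    filter_upwards [this] with e' he' hB'
    exact he' (hB e' hB')

variable [ContractibleSpace E]

theorem Sec.deck_disj (hπ : IsCoveringMap π) {V : Set M} {s : M → E} (h : Sec π V s)
    {g g' : Deck π} {x y : M} (hx : x ∈ V) (hy : y ∈ V) (hxy : g • s x = g' • s y) : g = g' := by
  have h1 : x = y := by
    have := congrArg π hxy
    rwa [Deck.proj_smul g, Deck.proj_smul g', h.sec x hx, h.sec y hy] at this
  subst h1
  exact Deck.ext_of_smul_eq hπ _ hxy

/-- the lift of a simplex lying in `V` given by the section -/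
def Sec.lift {V : Set M} {s : M → E} (h : Sec π V s) {n : ℕ} (σ : C(Dl n, M))
    (hσ : range σ ⊆ V) : C(Dl n, E) :=
  ⟨s ∘ σ, h.cont.comp_continuous σ.continuous fun v => hσ ⟨v, rfl⟩⟩

theorem Sec.exists_deck (hπ : IsCoveringMap π) {V : Set M} {s : M → E} (h : Sec π V s) {n : ℕ}
    (σ' : C(Dl n, E)) (hσ : range (π ∘ σ') ⊆ V) :
    ∃ g : Deck π, ∀ v, σ' v = g • s (π (σ' v)) := by
  obtain ⟨v0⟩ : Nonempty (Dl n) := inferInstance
  have hV : ∀ v, π (σ' v) ∈ V := fun v => hσ ⟨v, rfl⟩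
  obtain ⟨g, hg⟩ := Deck.exists_smul_eq hπ (s (π (σ' v0))) (σ' v0) (h.sec _ (hV v0))
  refine ⟨g, fun v => ?_⟩
  have := hπ.eq_of_comp_eq (g₁ := σ') (g₂ := fun v => g • s (π (σ' v))) σ'.continuous
    (g.1.continuous.comp (h.cont.comp_continuous (hπ.continuous.comp σ'.continuous) hV))
    (funext fun v => by
      simp only [Function.comp_apply]
      rw [Deck.proj_smul g, h.sec _ (hV v)]) v0 hg.symm
  exact congrFun this v

/-- only finitely many lifts of a small simplex meet a compact set -/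
theorem Sec.finite_lifts [T2Space M] (hπ : IsCoveringMap π) {V : Set M} {s : M → E}
    (h : Sec π V s) {n : ℕ} (σ : C(Dl n, M)) (hσ : range σ ⊆ V) {K : Set E} (hK : IsCompact K) :
    {σ' : C(Dl n, E) | (∀ v, π (σ' v) = σ v) ∧ (range σ' ∩ K).Nonempty}.Finite := by
  have hR : IsClosed (range σ) := (isCompact_range σ.continuous).isClosed
  have hK' : IsCompact (K ∩ π ⁻¹' (range σ)) := hK.inter_right (hR.preimage hπ.continuous)
  have hop := h.image_open hπ
  obtain ⟨F, hF⟩ := hK'.elim_finite_subcover (fun g : Deck π => (fun z => g • z) '' (s '' V))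
    (fun g => g.1.isOpenMap _ hop) (by
      rintro z ⟨-, v, hv⟩
      have hz : π z ∈ V := hv ▸ hσ ⟨v, rfl⟩
      obtain ⟨g, hg⟩ := Deck.exists_smul_eq hπ (s (π z)) z (h.sec _ hz)
      rw [Set.mem_iUnion]
      exact ⟨g, s (π z), ⟨π z, hz, rfl⟩, hg⟩)
  refine ((F.finite_toSet).image (fun g : Deck π =>
    (⟨g.1, g.1.continuous⟩ : C(E, E)).comp (h.lift σ hσ))).subset ?_
  rintro σ' ⟨h1, z, ⟨v, hv⟩, hzK⟩
  have hr : range (π ∘ σ') ⊆ V := by
    rintro _ ⟨w, rfl⟩
    simp only [Function.comp_apply, h1]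
    exact hσ ⟨w, rfl⟩
  obtain ⟨g, hg⟩ := h.exists_deck hπ σ' hr
  refine ⟨g, ?_, ?_⟩
  · have hz : z ∈ K ∩ π ⁻¹' (range σ) := ⟨hzK, v, by rw [← h1, hv]⟩
    have := hF hz
    simp only [Set.mem_iUnion] at this
    obtain ⟨g', hg', _, ⟨y, hy, rfl⟩, hzy⟩ := this
    have hx : π (σ' v) ∈ V := hr ⟨v, rfl⟩
    have h2 : g' • s y = g • s (π (σ' v)) := by
      rw [← hg v, hv]; exact hzy
    have := h.deck_disj hπ hy hx h2
    rw [← this]
    exact hg'
  · ext v
    have := hg v
    rw [h1] at this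
    exact this.symm

end cov

end Lift

open Lift in
theorem nLift (hF : NFund) (hX : NExc) : NLift := by
  classical
  intro d M E _ _ _ _ _ _ π hπ hsurj 𝒰 hUo hUc hUd
  -- the small open sets of `M`
  let 𝒱 : Set (Set M) := {V | ∃ U ∈ 𝒰, ∃ s : M → E, Sec π V s ∧ ∀ x ∈ V, s x ∈ U}
  have hVo : ∀ V ∈ 𝒱, IsOpen V := by
    rintro V ⟨U, _, s, hs, _⟩; exact hs.isOpen
  have hVc : ⋃₀ 𝒱 = univ := by
    rw [eq_univ_iff_forall]
    intro m
    obtain ⟨e, rfl⟩ := hsurj m
    obtain ⟨U, hU, heU⟩ : ∃ U ∈ 𝒰, e ∈ U := by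
      have : e ∈ ⋃₀ 𝒰 := by rw [hUc]; trivial
      exact this
    obtain ⟨V, s, hs, heV, -, hsU⟩ := exists_sec hπ e (hUo U hU) heU
    exact ⟨V, ⟨U, hU, s, hs, hsU⟩, heV⟩
  obtain ⟨α, hα, hαs, hαd⟩ := hF d M 𝒱 hVo hVc
  let πc : C(E, M) := ⟨π, hπ.continuous⟩
  let μ : C(Dl (d + 1), E) → ZMod 2 := fun σ => α (πc.comp σ)
  have hμsupp : ∀ σ, μ σ ≠ 0 → πc.comp σ ∈ α.support := fun σ hσ => Finsupp.mem_support_iff.2 hσ
  -- local finiteness
  have hLF : LF μ := by
    intro K hK
    have h1 : (⋃ σ ∈ (α.support : Set C(Dl (d + 1), M)),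
        {σ' : C(Dl (d + 1), E) | (∀ v, π (σ' v) = σ v) ∧ (range σ' ∩ K).Nonempty}).Finite := by
      refine Set.Finite.biUnion α.support.finite_toSet fun σ hσ => ?_
      obtain ⟨V, ⟨U, hU, s, hs, hsU⟩, hσV⟩ := hαs σ hσ
      exact hs.finite_lifts hπ σ hσV hK
    refine h1.subset ?_
    rintro σ' ⟨h2, h3⟩
    simp only [Set.mem_iUnion]
    exact ⟨πc.comp σ', hμsupp σ' h2, fun v => rfl, h3⟩
  have hcutfin : ∀ K : Set E, IsCompact K →
    {σ : C(Dl (d + 1), E) | μ σ ≠ 0 ∧ (range σ ∩ K).Nonempty}.Finite := hLF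
  -- cycle condition
  have hcyc : ∀ K : Set E, IsCompact K → RC Kᶜ (cut μ K) := by
    intro K hK τ hτ
    by_contra hmeet
    have hτK : (range τ ∩ K).Nonempty := by
      rw [Set.not_subset] at hmeet
      obtain ⟨z, hz, hz'⟩ := hmeet
      exact ⟨z, hz, not_not.1 hz'⟩
    rw [Finsupp.mem_support_iff] at hτ
    apply hτ
    have h0 : bd d α (πc.comp τ) = 0 := by rw [hα]; rfl
    rw [bd_apply] at h0 ⊢
    rw [← h0]
    refine Finset.sum_congr rfl fun i _ => ?_
    refine Finset.sum_nbij (fun σ => πc.comp σ) ?_ ?_ ?_ ?_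
    · intro σ hσ
      rw [Finset.mem_filter] at hσ ⊢
      rw [mem_supp_cut (hcutfin K hK)] at hσ
      refine ⟨hμsupp σ hσ.1.1, ?_⟩
      rw [← hσ.2]; rfl
    · intro σ hσ σ' hσ' h
      simp only [Finset.coe_filter, Set.mem_ofPred_eq] at hσ hσ'
      obtain ⟨v0⟩ : Nonempty (Dl d) := inferInstance
      apply lift_unique hπ (fun a => DFunLike.congr_fun h a) (face d i v0)
      exact (DFunLike.congr_fun hσ.2 v0).trans (DFunLike.congr_fun hσ'.2 v0).symm
    · intro σ hσ
      simp only [Finset.coe_filter, Set.mem_ofPred_eq] at hσ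
      obtain ⟨v0⟩ : Nonempty (Dl d) := inferInstance
      obtain ⟨σ', h1, h2⟩ := exists_lift hπ σ (face d i v0) (τ v0)
        (DFunLike.congr_fun hσ.2 v0).symm
      have h3 : πc.comp σ' = σ := ContinuousMap.ext h1
      have h4 : σ'.comp (face d i) = τ := by
        apply lift_unique hπ (fun a => ?_) v0 h2
        show π (σ' (face d i a)) = π (τ a)
        rw [h1]
        exact DFunLike.congr_fun hσ.2 a
      refine ⟨σ', ?_, h3⟩
      simp only [Finset.coe_filter, Set.mem_ofPred_eq]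
      refine ⟨?_, h4⟩
      rw [mem_supp_cut (hcutfin K hK)]
      refine ⟨?_, ?_⟩
      · show α (πc.comp σ') ≠ 0
        rw [h3]; exact Finsupp.mem_support_iff.1 hσ.1
      · obtain ⟨z, hz, hzK⟩ := hτK
        refine ⟨z, ?_, hzK⟩
        apply range_comp_face σ' i
        rw [h4]; exact hz
    · intro σ hσ
      rw [Finset.mem_filter, mem_supp_cut (hcutfin K hK)] at hσ
      exact cut_apply_of_meets (hcutfin K hK) hσ.1.2
  -- local degree
  have hdeg : ∀ p : E, ¬ Nul {p}ᶜ (cut μ {p}) := by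
    intro p hnul
    apply hαd (π p)
    have hKp := hcutfin {p} isCompact_singleton
    -- the open set `A`
    let B : Set E := {e | π e = π p ∧ e ≠ p}
    have hBc : IsClosed B := fibre_closed hπ (π p) B fun e he => he.1
    let A : Set E := Bᶜ
    have hAo : IsOpen A := hBc.isOpen_compl
    have hpA : p ∈ A := fun h => h.2 rfl
    let jA : C(A, E) := ⟨Subtype.val, continuous_subtype_val⟩
    have hj : IsOpenEmbedding jA := hAo.isOpenEmbedding_subtypeVal
    let πA : C(A, M) := πc.comp jA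
    let L : Set A := {⟨p, hpA⟩}
    have hL : jA '' L = {p} := by
      show jA '' {⟨p, hpA⟩} = {p}
      rw [Set.image_singleton]; rfl
    have hpc : IsClosed ({p} : Set E) := fibre_closed hπ (π p) {p} fun e he => by
      rw [Set.mem_singleton_iff] at he; rw [he]
    -- all simplices of the cut lie in `A`
    have hcutA : In A (cut μ {p}) := by
      intro σ hσ
      rw [mem_supp_cut hKp] at hσ
      obtain ⟨h1, z, ⟨v, hv⟩, hz⟩ := hσ
      rw [Set.mem_singleton_iff] at hz
      obtain ⟨V, ⟨U, hU, s, hs, hsU⟩, hσV⟩ := hαs _ (hμsupp σ h1)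
      obtain ⟨g, hg⟩ := hs.exists_deck hπ σ hσV
      rintro _ ⟨w, rfl⟩ ⟨h2, h3⟩
      apply h3
      have e1 : σ v = p := hv.trans hz
      rw [hg w, h2, ← e1, ← hg v]
    -- restriction to `A`
    obtain ⟨c', hc'⟩ : ∃ c' : Ch (d + 1) A, push jA (d + 1) c' = cut μ {p} := by
      have hlift : ∀ σ ∈ (cut μ {p}).support, ∃ σ' : C(Dl (d + 1), A), jA.comp σ' = σ :=
        fun σ hσ => ⟨⟨fun v => ⟨σ v, hcutA σ hσ ⟨v, rfl⟩⟩, by fun_prop⟩, by ext v; rfl⟩
      have : Nonempty C(Dl (d + 1), A) := ⟨ContinuousMap.const _ ⟨p, hpA⟩⟩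
      choose! r hr using hlift
      refine ⟨∑ σ ∈ (cut μ {p}).support, Finsupp.single (r σ) (cut μ {p} σ), ?_⟩
      rw [map_sum]
      conv_rhs => rw [← Finsupp.sum_single (cut μ {p})]
      refine Finset.sum_congr rfl fun σ hσ => ?_
      rw [push_single, hr σ hσ]
    have hRC : RC Lᶜ c' := by
      have h1 : In (jA '' L)ᶜ (push jA d (bd d c')) := by
        rw [← bd_push', hc', hL]
        exact hcyc {p} isCompact_singleton
      intro τ hτ
      have h2 : jA.comp τ ∈ (push jA d (bd d c')).support := by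
        rw [Finsupp.mem_support_iff]
        have : push jA d (bd d c') (jA.comp τ) = bd d c' τ :=
          Finsupp.mapDomain_apply (f := fun σ : C(Dl d, A) => jA.comp σ)
            (fun a b hab => by
              ext v
              have := DFunLike.congr_fun hab v
              exact this) _ _
        rw [this]
        exact Finsupp.mem_support_iff.1 hτ
      rintro _ ⟨v, rfl⟩ hv
      exact h1 _ h2 ⟨v, rfl⟩ ⟨τ v, hv, rfl⟩
    have hN1 : Nul (jA '' L)ᶜ (push jA (d + 1) c') := by rw [hc', hL]; exact hnul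
    have hN2 : Nul Lᶜ c' :=
      ((hX A E jA hj L (by rw [hL]; exact hpc) d).2 c' hRC).1 hN1
    have hN3 : Nul {π p}ᶜ (push πA (d + 1) c') := by
      refine Nul.push' πA hN2 ?_
      intro x hx hx'
      apply hx
      show x = ⟨p, hpA⟩
      apply Subtype.ext
      by_contra hne
      exact x.2 ⟨hx', hne⟩
    have hN4 : push πA (d + 1) c' = push πc (d + 1) (cut μ {p}) := by
      rw [← hc']
      unfold push
      simp only [Finsupp.lmapDomain_apply]
      rw [← Finsupp.mapDomain_comp]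
      rfl
    rw [hN4] at hN3
    -- compare with `α`
    have hkey : α = push πc (d + 1) (cut μ {p}) + (α + push πc (d + 1) (cut μ {p})) := by
      have : push πc (d + 1) (cut μ {p}) + push πc (d + 1) (cut μ {p}) = 0 := by
        ext τ
        rw [Finsupp.add_apply]
        exact CharTwo.add_self_eq_zero _
      rw [add_comm α, ← add_assoc, this, zero_add]
    rw [hkey]
    refine Nul.add' hN3 (Nul.of_in ?_)
    -- `α + push` avoids `π p`
    intro σ hσ
    by_contra hmeet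
    rw [Finsupp.mem_support_iff] at hσ
    apply hσ
    have hσp : ∃ v, σ v = π p := by
      rw [Set.not_subset] at hmeet
      obtain ⟨z, ⟨v, hv⟩, hz'⟩ := hmeet
      exact ⟨v, hv.trans (not_not.1 hz')⟩
    obtain ⟨v, hv⟩ := hσp
    rw [Finsupp.add_apply]
    -- coefficient of the push forward
    have hcoef : push πc (d + 1) (cut μ {p}) σ = α σ := by
      obtain ⟨σ', h1, h2⟩ := exists_lift hπ σ v p hv.symm
      have h3 : πc.comp σ' = σ := ContinuousMap.ext h1
      by_cases hσα : α σ = 0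
      · rw [hσα]
        by_contra hne
        have := Finsupp.mapDomain_support (f := fun σ : C(Dl (d + 1), E) => πc.comp σ)
          (s := cut μ {p}) (Finsupp.mem_support_iff.2 hne)
        rw [Finset.mem_image] at this
        obtain ⟨σ'', h4, h5⟩ := this
        rw [mem_supp_cut hKp] at h4
        apply h4.1
        show α (πc.comp σ'') = 0
        rw [← hσα]; exact congrArg α h5
      · -- unique lift through `p`
        have hsupp : σ ∈ α.support := Finsupp.mem_support_iff.2 hσα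
        have huniq : ∀ τ ∈ (cut μ {p}).support, πc.comp τ = σ → τ = σ' := by
          intro τ hτ hτσ
          rw [mem_supp_cut hKp] at hτ
          obtain ⟨h4, z, ⟨w, hw⟩, hz⟩ := hτ
          rw [Set.mem_singleton_iff] at hz
          obtain ⟨V, ⟨U, hU, s, hs, hsU⟩, hσV⟩ := hαs _ hsupp
          have hτV : range (π ∘ τ) ⊆ V := by
            rintro _ ⟨u, rfl⟩
            apply hσV
            exact ⟨u, (DFunLike.congr_fun hτσ u).symm⟩
          have hσ'V : range (π ∘ σ') ⊆ V := by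
            rintro _ ⟨u, rfl⟩
            apply hσV
            exact ⟨u, (h1 u).symm⟩
          obtain ⟨g, hg⟩ := hs.exists_deck hπ τ hτV
          obtain ⟨g', hg'⟩ := hs.exists_deck hπ σ' hσ'V
          have e1 : g • s (π (τ w)) = g' • s (π (σ' v)) := by
            rw [← hg, ← hg', h2, hw, hz]
          have e2 : g = g' := hs.deck_disj hπ (hτV ⟨w, rfl⟩) (hσ'V ⟨v, rfl⟩) e1
          ext u
          rw [hg u, hg' u, e2, h1 u]
          have := DFunLike.congr_fun hτσ u
          rw [← this]; rfl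
        have hmem : σ' ∈ (cut μ {p}).support := by
          rw [mem_supp_cut hKp]
          refine ⟨?_, p, ⟨v, h2⟩, rfl⟩
          show α (πc.comp σ') ≠ 0
          rw [h3]; exact hσα
        show (Finsupp.mapDomain (fun σ : C(Dl (d + 1), E) => πc.comp σ) (cut μ {p})) σ = α σ
        rw [Finsupp.mapDomain, Finsupp.sum, Finsupp.finsetSum_apply,
          Finset.sum_eq_single_of_mem σ' hmem]
        · rw [h3, Finsupp.single_eq_same]
          rw [mem_supp_cut hKp] at hmem
          rw [cut_apply_of_meets hKp hmem.2]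
          show α (πc.comp σ') = α σ
          rw [h3]
        · intro τ hτ hne
          rw [Finsupp.single_apply, if_neg]
          intro h5
          exact hne (huniq τ hτ h5)
    rw [hcoef]
    exact CharTwo.add_self_eq_zero _
  refine ⟨μ, ⟨⟨hLF, hcyc⟩, hdeg⟩, ?_⟩
  -- smallness
  intro σ hσ
  obtain ⟨V, ⟨U, hU, s, hs, hsU⟩, hσV⟩ := hαs _ (hμsupp σ hσ)
  obtain ⟨g, hg⟩ := hs.exists_deck hπ σ hσV
  refine ⟨g.1 '' U, hUd U hU g.1 g.2, ?_⟩
  rintro _ ⟨v, rfl⟩
  exact ⟨s (π (σ v)), hsU _ (hσV ⟨v, rfl⟩), (hg v).symm⟩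

end Crest.Agent.R224.T
end
end

-- ▼ part R224/T/GeoAct

set_option autoImplicit false
set_option linter.unusedSectionVars false

namespace Crest.Agent.R224.Tp

open _root_.Topology Set Filter Pointwise

section geo
variable {G : Type} [Group G] {E : Type} [TopologicalSpace E] [MulAction G E]
  {S : Finset G} {U : Set E}

theorem geo_cont (h : T.Geo S U) : ContinuousConstSMul G E := ⟨h.cont⟩

theorem geo_cover (h : T.Geo S U) (p : E) : ∃ g : G, p ∈ g • U := by
  obtain ⟨g, u, hu, rfl⟩ := h.cover p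
  exact ⟨g, smul_mem_smul_set hu⟩

theorem geo_mem (h : T.Geo S U) (s : G) : s ∈ S ↔ (U ∩ s • U).Nonempty := by
  rw [h.mem]
  constructor
  · rintro ⟨u, hu, hg⟩
    exact ⟨s • u, hg, smul_mem_smul_set hu⟩
  · rintro ⟨p, hp, ⟨u, hu, rfl⟩⟩
    exact ⟨u, hu, hp⟩

theorem geo_fin (h : T.Geo S U) (C : Set E) (hC : IsCompact C) :
    {g : G | (g • U ∩ C).Nonempty}.Finite := by
  refine (h.proper C hC).subset ?_
  rintro g ⟨p, ⟨u, hu, rfl⟩, hp⟩
  exact ⟨u, hu, hp⟩

/-- the covering data of Transfer.lean -/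
theorem exists_actData (h : T.Geo S U) [T2Space E] [LocallyCompactSpace E] :
    ∃ A : ActData G E S, A.U = U := by
  classical
  have := geo_cont h
  -- a compact subset of `U` whose translates cover
  have h1 : ∀ x ∈ closure U, ∃ (g : G) (N : Set E), IsCompact N ∧ N ∈ 𝓝 x ∧ N ⊆ g • U := by
    intro x _
    obtain ⟨g, hg⟩ := geo_cover h x
    have hn : g • U ∈ 𝓝 x := (h.isOpen.smul g).mem_nhds hg
    obtain ⟨N, hN, hNU, hNc⟩ := local_compact_nhds hn
    exact ⟨g, N, hNc, hN, hNU⟩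
  choose! γ N hNc hN hNU using h1
  obtain ⟨t, htc⟩ := h.cpt.elim_nhds_subcover' (fun x _ => N x) (fun x hx => hN x hx)
  let K0 : Set E := ⋃ x ∈ t, (γ x)⁻¹ • N x
  have hK0 : IsCompact K0 := t.isCompact_biUnion fun x _ => (hNc x x.2).smul _
  have hK0U : K0 ⊆ U := by
    intro y hy
    obtain ⟨x, hx, hy⟩ := mem_iUnion₂.1 hy
    rw [mem_inv_smul_set_iff] at hy
    have := hNU x x.2 hy
    rwa [smul_mem_smul_set_iff] at this
  have hcov : ∀ y : E, ∃ g : G, y ∈ g • K0 := by
    intro y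
    obtain ⟨g, u, hu, rfl⟩ := h.cover y
    obtain ⟨x, hx, hux⟩ := mem_iUnion₂.1 (htc (subset_closure hu))
    refine ⟨g * γ x, ?_⟩
    rw [mul_smul, smul_mem_smul_set_iff, mem_smul_set_iff_inv_smul_mem]
    exact mem_iUnion₂.2 ⟨x, hx, smul_mem_smul_set hux⟩
  choose lab hlab using hcov
  have hne : U.Nonempty := h.conn.nonempty
  refine ⟨⟨U, closure U, h.isOpen, h.conn.isPreconnected, hne, subset_closure, h.cpt, geo_mem h,
    geo_fin h, lab, ?_⟩, rfl⟩
  intro x
  obtain ⟨g0, hg0⟩ := geo_cover h x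
  have hF : {g : G | (g • U ∩ g0 • closure U).Nonempty}.Finite :=
    geo_fin h _ (h.cpt.smul g0)
  let F := hF.toFinset
  let V1 : Set E := ⋂ g ∈ F.filter (fun g => x ∈ g • K0), g • U
  let V2 : Set E := ⋂ g ∈ F.filter (fun g => x ∉ g • K0), (g • K0)ᶜ
  have hV1 : V1 ∈ 𝓝 x := by
    rw [Finset.iInter_mem_sets]
    intro g hg
    have := (Finset.mem_filter.1 hg).2
    exact (h.isOpen.smul g).mem_nhds (smul_set_mono hK0U this)
  have hV2 : V2 ∈ 𝓝 x := by
    rw [Finset.iInter_mem_sets]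
    intro g hg
    have := (Finset.mem_filter.1 hg).2
    exact (hK0.smul g).isClosed.isOpen_compl.mem_nhds this
  refine ⟨g0 • U ∩ (V1 ∩ V2), inter_mem ((h.isOpen.smul g0).mem_nhds hg0) (inter_mem hV1 hV2), ?_⟩
  rintro y ⟨hy0, hy1, hy2⟩
  have hyF : lab y ∈ F := by
    rw [Set.Finite.mem_toFinset]
    exact ⟨y, smul_set_mono hK0U (hlab y), smul_set_mono subset_closure hy0⟩
  have hx : x ∈ lab y • K0 := by
    by_contra hx
    have := mem_iInter₂.1 hy2 (lab y) (Finset.mem_filter.2 ⟨hyF, hx⟩)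
    exact this (hlab y)
  rintro z ⟨hz0, hz1, hz2⟩
  exact mem_iInter₂.1 hz1 (lab y) (Finset.mem_filter.2 ⟨hyF, hx⟩)

theorem countable_of_closure_eq_top (hS : Subgroup.closure (S : Set G) = ⊤) : Countable G := by
  have hs : Function.Surjective
      (fun l : List ({u : G // u ∈ S} × Bool) =>
        (l.map fun p => if p.2 then (p.1 : G) else (p.1 : G)⁻¹).prod) := by
    intro g
    have hg : g ∈ Subgroup.closure (S : Set G) := by rw [hS]; trivial
    induction hg using Subgroup.closure_induction with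
    | mem x hx => exact ⟨[(⟨x, hx⟩, true)], by simp⟩
    | one => exact ⟨[], rfl⟩
    | mul x y _ _ hx hy =>
      obtain ⟨l, hl⟩ := hx
      obtain ⟨l', hl'⟩ := hy
      exact ⟨l ++ l', by simp only at hl hl' ⊢; rw [List.map_append, List.prod_append, hl, hl']⟩
    | inv x _ hx =>
      obtain ⟨l, hl⟩ := hx
      refine ⟨(l.map fun p => (p.1, !p.2)).reverse, ?_⟩
      simp only at hl ⊢
      rw [← hl, List.prod_inv_reverse, List.map_reverse, List.map_map, List.map_map]
      congr 2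
      apply List.map_congr_left
      rintro ⟨a, b⟩ _
      cases b <;> simp
  exact hs.countable

theorem geo_sigmaCompact (h : T.Geo S U) [T2Space E] [LocallyCompactSpace E] [PreconnectedSpace E] :
    SigmaCompactSpace E := by
  have := geo_cont h
  obtain ⟨A, hA⟩ := exists_actData h
  have hc : Countable G := countable_of_closure_eq_top A.closure_eq
  refine SigmaCompactSpace.of_countable (range fun g : G => g • closure U) (countable_range _) ?_ ?_
  · rintro _ ⟨g, rfl⟩
    exact h.cpt.smul g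
  · rw [eq_univ_iff_forall]
    intro x
    obtain ⟨g, hg⟩ := geo_cover h x
    exact ⟨_, ⟨g, rfl⟩, smul_set_mono subset_closure hg⟩

theorem geo_secondCountable (h : T.Geo S U) [T2Space E] [LocallyCompactSpace E]
    [PreconnectedSpace E] (d : ℕ) [ChartedSpace (T.EE d) E] : SecondCountableTopology E := by
  have := geo_sigmaCompact h
  exact ChartedSpace.secondCountable_of_sigmaCompact (T.EE d) E

end geo

/-- vanishing of the compactly supported Alexander–Spanier cohomology in degrees 1 and 2 of the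
contractible `4`-manifolds (node of plan B) -/
def NHC : Prop := ∀ (E : Type) [TopologicalSpace E] [T2Space E] [LocallyCompactSpace E]
  [SecondCountableTopology E] [ContractibleSpace E] [ChartedSpace (T.EE 4) E], HC1 E ∧ HC2 E

theorem nTop_of (hG : T.NGeo) (hT : T.NTorsFree) (hH : NHC) : T.NTop := by
  intro M _ _ _ _ _ _ x hM
  obtain ⟨E, _, π, _, S, U, hE, -, -, hE2, hEl, ⟨hE4⟩, -, -, hgeo⟩ := hG 3 M x hM
  have := geo_cont hgeo
  have h2 : SecondCountableTopology E := geo_secondCountable hgeo 4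
  obtain ⟨h1, h2⟩ := hH E
  obtain ⟨A, -⟩ := exists_actData hgeo
  exact ⟨S, A.topHyp h1 h2 (hT 3 M x hM)⟩

end Crest.Agent.R224.Tp
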