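import Mathlib
import Crest.Agent.R224.T.TFChain
import Crest.Prelude.Def_ClassifyingComplex
import Crest.Agent.R224.T.Iface
import Crest.Agent.R224.T.GeoAct_Mg
import Crest.Agent.R224.T.Basic

-- ▼ part R224/T/TFAlg
section

set_option autoImplicit false

noncomputable section

namespace Crest.Agent.R224.TF

section

variable {M : Type*} [AddCommGroup M] {n : ℕ}

/-- the norm -/
def nrm (n : ℕ) (h : M →+ M) (x : M) : M := ∑ b ∈ Finset.range n, (h^[b]) x

/-- `1 - h` -/
def dif (h : M →+ M) (x : M) : M := x - h x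

/-- first homotopy -/
def hs1 (n : ℕ) (h : M →+ M) (f : ZMod n → M →+ M) (x : M) : M :=
  ∑ a ∈ Finset.range n, ∑ b ∈ Finset.range (n - 1 - a), (h^[b]) (f ((a : ZMod n) + 1) x)

theorem iter_sub (h : M →+ M) (b : ℕ) (x y : M) : (h^[b]) (x - y) = (h^[b]) x - (h^[b]) y := by
  induction b generalizing x y with
  | zero => rfl
  | succ b ih => rw [Function.iterate_succ_apply, map_sub, ih]; rfl



theorem nrm_dif (h : M →+ M) (hn : ∀ x, (h^[n]) x = x) (x : M) : nrm n h (dif h x) = 0 := by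
  unfold nrm dif
  simp only [iter_sub]
  have : ∀ b, (h^[b]) (h x) = (h^[b + 1]) x := fun b => by rw [Function.iterate_succ_apply]
  simp only [this]
  rw [Finset.sum_range_sub' (fun b => (h^[b]) x) n, hn]
  simp

theorem dif_nrm (h : M →+ M) (hn : ∀ x, (h^[n]) x = x) (x : M) : dif h (nrm n h x) = 0 := by
  unfold nrm dif
  rw [map_sum]
  have : ∀ b, h ((h^[b]) x) = (h^[b + 1]) x := fun b => by rw [Function.iterate_succ_apply']
  simp only [this]
  rw [← Finset.sum_sub_distrib, Finset.sum_range_sub' (fun b => (h^[b]) x) n, hn]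
  simp

theorem dif_sum (h : M →+ M) (k : ℕ) (y : M) :
    dif h (∑ b ∈ Finset.range k, (h^[b]) y) = y - (h^[k]) y := by
  unfold dif
  rw [map_sum]
  have : ∀ b, h ((h^[b]) y) = (h^[b + 1]) y := fun b => by rw [Function.iterate_succ_apply']
  simp only [this]
  rw [← Finset.sum_sub_distrib, Finset.sum_range_sub' (fun b => (h^[b]) y) k]
  rfl

/-- (I1) `(1 - h) s₁ + s₂ N = Σ f` -/
theorem id1 [NeZero n] (h : M →+ M) (f : ZMod n → M →+ M)
    (hf : ∀ a x, f (a + 1) (h x) = h (f a x)) (x : M) :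
    dif h (hs1 n h f x) + f 0 (nrm n h x) = ∑ a ∈ Finset.range n, f ((a : ZMod n) + 1) x := by
  have hn : 0 < n := Nat.pos_of_ne_zero (NeZero.ne n)
  have hfb : ∀ (b : ℕ) (a : ZMod n) (y : M), f (a + b) ((h^[b]) y) = (h^[b]) (f a y) := by
    intro b
    induction b with
    | zero => intro a y; simp
    | succ b ih =>
      intro a y
      rw [Function.iterate_succ_apply', Function.iterate_succ_apply', Nat.cast_succ, ← add_assoc,
        hf, ih]
  have e1 : dif h (hs1 n h f x) = ∑ a ∈ Finset.range n,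
      (f ((a : ZMod n) + 1) x - (h^[n - 1 - a]) (f ((a : ZMod n) + 1) x)) := by
    have hd : ∀ y : M, dif h y = ((AddMonoidHom.id M) - h) y := fun y => rfl
    unfold hs1
    rw [hd, map_sum]
    refine Finset.sum_congr rfl fun a _ => ?_
    rw [← hd, dif_sum]
  have e2 : f 0 (nrm n h x) = ∑ a ∈ Finset.range n, (h^[n - 1 - a]) (f ((a : ZMod n) + 1) x) := by
    unfold nrm
    rw [map_sum, ← Finset.sum_range_reflect]
    refine Finset.sum_congr rfl fun a ha => ?_
    have ha' : a < n := Finset.mem_range.1 ha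
    rw [← hfb]
    congr 1
    have : ((n - 1 - a : ℕ) : ZMod n) = -1 - a := by
      have h1 : ((n - 1 - a : ℕ) : ZMod n) + (a + 1 : ℕ) = ((n - 1 - a + (a + 1) : ℕ) : ZMod n) := by
        push_cast; ring
      have h2 : n - 1 - a + (a + 1) = n := by omega
      rw [h2, ZMod.natCast_self] at h1
      push_cast at h1
      linear_combination h1
    rw [this]
    ring_nf
  rw [e1, e2, ← Finset.sum_add_distrib]
  refine Finset.sum_congr rfl fun a _ => ?_
  abel

/-- (I2) `N s₂ + s₁ (1 - h) = Σ f` -/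
theorem id2 [NeZero n] (h : M →+ M) (f : ZMod n → M →+ M)
    (hf : ∀ a x, f (a + 1) (h x) = h (f a x)) (x : M) :
    nrm n h (f 0 x) + hs1 n h f (dif h x) = ∑ a ∈ Finset.range n, f (a : ZMod n) x := by
  have hn : 0 < n := Nat.pos_of_ne_zero (NeZero.ne n)
  set T : ℕ → M := fun a => ∑ b ∈ Finset.range (n - a), (h^[b]) (f (a : ZMod n) x) with hT
  have e1 : hs1 n h f (dif h x) = ∑ a ∈ Finset.range n, (T (a + 1) - T a + f (a : ZMod n) x) := by
    unfold hs1
    refine Finset.sum_congr rfl fun a ha => ?_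
    have ha' : a < n := Finset.mem_range.1 ha
    have e : ∀ b, (h^[b]) (f ((a : ZMod n) + 1) (dif h x))
        = (h^[b]) (f ((a + 1 : ℕ) : ZMod n) x) - (h^[b + 1]) (f (a : ZMod n) x) := by
      intro b
      unfold dif
      rw [map_sub, iter_sub, hf, Function.iterate_succ_apply]
      push_cast
      rfl
    simp only [e, Finset.sum_sub_distrib]
    have e3 : T a = (∑ b ∈ Finset.range (n - 1 - a), (h^[b + 1]) (f (a : ZMod n) x))
        + f (a : ZMod n) x := by
      rw [hT]
      have : n - a = (n - 1 - a) + 1 := by omega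
      simp only [this]
      rw [Finset.sum_range_succ']
      rfl
    have e4 : T (a + 1) = ∑ b ∈ Finset.range (n - 1 - a), (h^[b]) (f ((a + 1 : ℕ) : ZMod n) x) := by
      rw [hT]
      have : n - (a + 1) = n - 1 - a := by omega
      simp only [this]
    rw [e3, e4]
    abel
  have e2 : nrm n h (f 0 x) = T 0 := by
    rw [hT]
    unfold nrm
    simp
  have e5 : T n = 0 := by rw [hT]; simp
  rw [e1, e2, Finset.sum_add_distrib, Finset.sum_range_sub, e5]
  abel

end

end Crest.Agent.R224.TF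
end
end

-- ▼ part R224/T/TFDescent
section

set_option autoImplicit false

noncomputable section

open Filter Topology

namespace Crest.Agent.R224.TF

/-- labels: `idx` chooses one of `m` patches, `lam j` is an equivariant `ZMod n`-valued function;
small pairs have the same `lam (idx v)`. -/
structure Lab {E : Type*} (n m : ℕ) (h : E → E) (W : Set (E × E)) (idx : E → ℕ)
    (lam : ℕ → E → ZMod n) : Prop where
  lt : ∀ v, idx v < m
  idx_h : ∀ v, idx (h v) = idx v
  lam_h : ∀ j v, lam j (h v) = lam j v + 1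
  W_h : ∀ v w, (v, w) ∈ W → (h v, h w) ∈ W
  W_lam : ∀ v w, (v, w) ∈ W → lam (idx v) w = lam (idx v) v

section

variable {E : Type*} {n : ℕ}

/-- `h` on chains -/
def HH (n : ℕ) (h : E → E) : Ch (ZMod n) E →+ Ch (ZMod n) E := (push h).toAddMonoidHom

theorem HH_apply (h : E → E) (x : Ch (ZMod n) E) : HH n h x = push h x := rfl

theorem D_HH (h : E → E) (x : Ch (ZMod n) E) : D (HH n h x) = HH n h (D x) := D_push h x

theorem D_HH_iter (h : E → E) (b : ℕ) (x : Ch (ZMod n) E) :
    D (((HH n h)^[b]) x) = ((HH n h)^[b]) (D x) := by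
  induction b generalizing x with
  | zero => rfl
  | succ b ih => rw [Function.iterate_succ_apply, ih, D_HH]; rfl

theorem HH_iter_apply (h : E → E) (b : ℕ) (x : Ch (ZMod n) E) :
    ((HH n h)^[b]) x = push (h^[b]) x := by
  induction b generalizing x with
  | zero => exact (push_id x).symm
  | succ b ih => rw [Function.iterate_succ_apply, ih, HH_apply, push_push]; rfl

theorem HH_iter_n (h : E → E) (hn : ∀ v, h^[n] v = v) (x : Ch (ZMod n) E) :
    ((HH n h)^[n]) x = x := by
  rw [HH_iter_apply]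
  have : h^[n] = fun v => v := funext hn
  rw [this, push_id]

/-- the alternating operators `1 - h` (odd) and norm (even) -/
def al (n : ℕ) (h : E → E) (k : ℕ) (x : Ch (ZMod n) E) : Ch (ZMod n) E :=
  if Even k then nrm n (HH n h) x else dif (HH n h) x

theorem nrm_sub {M : Type*} [AddCommGroup M] (h : M →+ M) (x y : M) :
    nrm n h (x - y) = nrm n h x - nrm n h y := by
  unfold nrm
  rw [← Finset.sum_sub_distrib]
  exact Finset.sum_congr rfl fun b _ => iter_sub h b x y

theorem dif_sub {M : Type*} [AddCommGroup M] (h : M →+ M) (x y : M) :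
    dif h (x - y) = dif h x - dif h y := by
  unfold dif
  rw [map_sub]
  abel

theorem al_sub (h : E → E) (k : ℕ) (x y : Ch (ZMod n) E) :
    al n h k (x - y) = al n h k x - al n h k y := by
  unfold al
  split_ifs
  · exact nrm_sub _ _ _
  · exact dif_sub _ _ _


theorem D_nrm (h : E → E) (x : Ch (ZMod n) E) : D (nrm n (HH n h) x) = nrm n (HH n h) (D x) := by
  unfold nrm
  rw [map_sum]
  exact Finset.sum_congr rfl fun b _ => D_HH_iter h b x

theorem D_al (h : E → E) (k : ℕ) (x : Ch (ZMod n) E) : D (al n h k x) = al n h k (D x) := by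
  unfold al
  split_ifs
  · exact D_nrm h x
  · unfold dif
    rw [map_sub, D_HH]

theorem al_al (h : E → E) (hn : ∀ v, h^[n] v = v) (k : ℕ) (x : Ch (ZMod n) E) :
    al n h (k + 1) (al n h k x) = 0 := by
  unfold al
  by_cases hk : Even k
  · have hk' : ¬ Even (k + 1) := by rw [Nat.even_add_one]; simpa using hk
    rw [if_pos hk, if_neg hk', dif_nrm _ (HH_iter_n h hn)]
  · have hk' : Even (k + 1) := by rw [Nat.even_add_one]; simpa using hk
    rw [if_neg hk, if_pos hk', nrm_dif _ (HH_iter_n h hn)]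

/-- supports of operators -/
theorem HH_iter_mem (h : E → E) {L : Set (List E)} (hL : ∀ l ∈ L, l.map h ∈ L) (b : ℕ)
    {x : Ch (ZMod n) E} (hx : x ∈ Sp (ZMod n) L) : ((HH n h)^[b]) x ∈ Sp (ZMod n) L := by
  induction b generalizing x with
  | zero => exact hx
  | succ b ih =>
    rw [Function.iterate_succ_apply]
    exact ih (push_mem h hL hx)

theorem al_mem (h : E → E) {L : Set (List E)} (hL : ∀ l ∈ L, l.map h ∈ L) (k : ℕ)
    {x : Ch (ZMod n) E} (hx : x ∈ Sp (ZMod n) L) : al n h k x ∈ Sp (ZMod n) L := by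
  unfold al
  split_ifs
  · exact Submodule.sum_mem _ fun b _ => HH_iter_mem h hL b hx
  · exact Submodule.sub_mem _ hx (push_mem h hL hx)

theorem fah {α M : Type*} [AddZeroClass M] (p : α → Prop) [DecidablePred p] (x : α →₀ M) :
    Finsupp.filterAddHom p x = Finsupp.filter p x := rfl

variable (idx : E → ℕ) (lam : ℕ → E → ZMod n)

/-- lists with all points of index `≥ j` -/
def Fl (idx : E → ℕ) (j : ℕ) : Set (List E) := {l | ∀ v ∈ l, j ≤ idx v}

/-- label of a list -/
def hv (lam : ℕ → E → ZMod n) (j : ℕ) : List E → ZMod n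
  | [] => 0
  | a :: _ => lam j a

open Classical in
/-- restriction to lists with some point of index `< j+1` -/
def RR (n : ℕ) (idx : E → ℕ) (j : ℕ) : Ch (ZMod n) E →+ Ch (ZMod n) E :=
  Finsupp.filterAddHom fun l => l ∉ Fl idx (j + 1)

open Classical in
/-- restriction to those with label `a` -/
def ff (idx : E → ℕ) (lam : ℕ → E → ZMod n) (j : ℕ) (a : ZMod n) :
    Ch (ZMod n) E →+ Ch (ZMod n) E :=
  Finsupp.filterAddHom fun l => l ∉ Fl idx (j + 1) ∧ hv lam j l = a

open Classical in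
theorem RR_single (j : ℕ) (l : List E) (r : ZMod n) :
    RR n idx j (Finsupp.single l r) = if l ∉ Fl idx (j + 1) then Finsupp.single l r else 0 := by
  unfold RR
  rw [fah]
  by_cases h : l ∉ Fl idx (j + 1)
  · rw [if_pos h]
    exact Finsupp.filter_single_of_pos _ h
  · rw [if_neg h]
    exact Finsupp.filter_single_of_neg _ h

open Classical in
theorem ff_single (j : ℕ) (a : ZMod n) (l : List E) (r : ZMod n) :
    ff idx lam j a (Finsupp.single l r)
      = if l ∉ Fl idx (j + 1) ∧ hv lam j l = a then Finsupp.single l r else 0 := by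
  unfold ff
  rw [fah]
  split_ifs with h
  · exact Finsupp.filter_single_of_pos _ h
  · exact Finsupp.filter_single_of_neg _ h

theorem ff_mem (j : ℕ) (a : ZMod n) {L : Set (List E)} {x : Ch (ZMod n) E}
    (hx : x ∈ Sp (ZMod n) L) : ff idx lam j a x ∈ Sp (ZMod n) L := by
  classical
  rw [Finsupp.mem_supported] at hx ⊢
  intro l hl
  apply hx
  unfold ff at hl
  rw [fah, Finsupp.support_filter] at hl
  exact (Finset.mem_filter.1 hl).1

variable {idx lam}
variable {m : ℕ} {h : E → E} {W : Set (E × E)}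

theorem Lab.Fl_map (hL : Lab n m h W idx lam) (j : ℕ) (l : List E) :
    l.map h ∈ Fl idx j ↔ l ∈ Fl idx j := by
  unfold Fl
  simp only [Set.mem_ofPred_eq, List.mem_map, forall_exists_index, and_imp,
    forall_apply_eq_imp_iff₂, hL.idx_h]

theorem Lab.hv_map (hL : Lab n m h W idx lam) (j : ℕ) {l : List E} (hl : l ≠ []) :
    hv lam j (l.map h) = hv lam j l + 1 := by
  cases l with
  | nil => exact absurd rfl hl
  | cons a l => exact hL.lam_h j a

theorem ne_nil_of_notMem_Fl {j : ℕ} {l : List E} (hl : l ∉ Fl idx j) : l ≠ [] := by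
  rintro rfl
  exact hl (by simp [Fl])

theorem Lab.F1 (hL : Lab n m h W idx lam) (j : ℕ) (a : ZMod n) (x : Ch (ZMod n) E) :
    ff idx lam j (a + 1) (HH n h x) = HH n h (ff idx lam j a x) := by
  classical
  induction x using Finsupp.induction_linear with
  | zero => simp
  | add x y hx hy => rw [map_add, map_add, hx, hy, map_add, map_add]
  | single l r =>
    rw [HH_apply, push_single, ff_single, ff_single]
    by_cases h1 : l ∉ Fl idx (j + 1)
    · have h2 : l.map h ∉ Fl idx (j + 1) := fun hh => h1 ((hL.Fl_map _ _).1 hh)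
      have h3 := hL.hv_map j (ne_nil_of_notMem_Fl h1)
      by_cases h4 : hv lam j l = a
      · rw [if_pos ⟨h2, by rw [h3, h4]⟩, if_pos ⟨h1, h4⟩, HH_apply, push_single]
      · rw [if_neg, if_neg, map_zero]
        · exact fun hh => h4 hh.2
        · rintro ⟨-, hh⟩
          rw [h3] at hh
          exact h4 (add_right_cancel hh)
    · rw [if_neg, if_neg, map_zero]
      · exact fun hh => h1 hh.1
      · rintro ⟨hh, -⟩
        exact h1 fun h5 => hh ((hL.Fl_map _ _).2 h5)

theorem Lab.RR_HH (hL : Lab n m h W idx lam) (j : ℕ) (x : Ch (ZMod n) E) :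
    RR n idx j (HH n h x) = HH n h (RR n idx j x) := by
  classical
  induction x using Finsupp.induction_linear with
  | zero => simp
  | add x y hx hy => rw [map_add, map_add, hx, hy, map_add, map_add]
  | single l r =>
    rw [HH_apply, push_single, RR_single, RR_single]
    by_cases h1 : l ∈ Fl idx (j + 1)
    · have h2 : l.map h ∈ Fl idx (j + 1) := (hL.Fl_map _ _).2 h1
      rw [if_neg (not_not.2 h2), if_neg (not_not.2 h1), map_zero]
    · have h2 : l.map h ∉ Fl idx (j + 1) := fun hh => h1 ((hL.Fl_map _ _).1 hh)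
      rw [if_pos h2, if_pos h1, HH_apply, push_single]

theorem Lab.RR_HH_iter (hL : Lab n m h W idx lam) (j b : ℕ) (x : Ch (ZMod n) E) :
    RR n idx j (((HH n h)^[b]) x) = ((HH n h)^[b]) (RR n idx j x) := by
  induction b generalizing x with
  | zero => rfl
  | succ b ih => rw [Function.iterate_succ_apply, ih, hL.RR_HH]; rfl

theorem Lab.RR_al (hL : Lab n m h W idx lam) (j k : ℕ) (x : Ch (ZMod n) E) :
    RR n idx j (al n h k x) = al n h k (RR n idx j x) := by
  unfold al
  split_ifs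
  · unfold nrm
    rw [map_sum]
    exact Finset.sum_congr rfl fun b _ => hL.RR_HH_iter j b x
  · unfold dif
    rw [map_sub, hL.RR_HH]

theorem RR_ff (j : ℕ) (a : ZMod n) (x : Ch (ZMod n) E) :
    RR n idx j (ff idx lam j a x) = ff idx lam j a x := by
  classical
  induction x using Finsupp.induction_linear with
  | zero => simp
  | add x y hx hy => rw [map_add, map_add, hx, hy]
  | single l r =>
    rw [ff_single]
    split_ifs with h1
    · rw [RR_single, if_pos h1.1]
    · exact map_zero _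

theorem sum_range_zmod [NeZero n] {M : Type*} [AddCommMonoid M] (g : ZMod n → M) :
    ∑ a ∈ Finset.range n, g (a : ZMod n) = ∑ c, g c := by
  refine Finset.sum_bij' (fun a _ => (a : ZMod n)) (fun c _ => c.val) ?_ ?_ ?_ ?_ ?_
  · intro a _; exact Finset.mem_univ _
  · intro c _; exact Finset.mem_range.2 (ZMod.val_lt c)
  · intro a ha; exact ZMod.val_cast_of_lt (Finset.mem_range.1 ha)
  · intro c _; exact ZMod.natCast_zmod_val c
  · intro a _; rfl

theorem F3 [NeZero n] (j : ℕ) (x : Ch (ZMod n) E) :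
    ∑ c, ff idx lam j c x = RR n idx j x := by
  classical
  induction x using Finsupp.induction_linear with
  | zero => simp
  | add x y hx hy => simp only [map_add, Finset.sum_add_distrib, hx, hy]
  | single l r =>
    simp only [ff_single, RR_single]
    by_cases h1 : l ∈ Fl idx (j + 1)
    · simp [h1]
    · simp [h1]

theorem F3' [NeZero n] (j : ℕ) (x : Ch (ZMod n) E) :
    ∑ a ∈ Finset.range n, ff idx lam j ((a : ZMod n) + 1) x = RR n idx j x := by
  rw [sum_range_zmod (fun c => ff idx lam j (c + 1) x), ← F3 (lam := lam)]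
  exact Equiv.sum_comp (Equiv.addRight (1 : ZMod n)) (fun c => ff idx lam j c x)

theorem F3'' [NeZero n] (j : ℕ) (x : Ch (ZMod n) E) :
    ∑ a ∈ Finset.range n, ff idx lam j (a : ZMod n) x = RR n idx j x := by
  rw [sum_range_zmod (fun c => ff idx lam j c x), F3]

/-- (F2) -/
theorem Lab.F2 (hL : Lab n m h W idx lam) (j k : ℕ) (a : ZMod n) {x : Ch (ZMod n) E}
    (hx : x ∈ Sp (ZMod n) (Sm W k ∩ Fl idx j)) :
    RR n idx j (D (ff idx lam j a x)) = ff idx lam j a (D x) := by
  classical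
  -- linear in x
  have main : ∀ l ∈ Sm W k ∩ Fl idx j, RR n idx j (D (ff idx lam j a (Finsupp.single l 1)))
      = ff idx lam j a (D (Finsupp.single l 1)) := by
    rintro l ⟨hl1, hl2⟩
    have hsub : ∀ l' : List E, (∀ b ∈ l', b ∈ l) →
        ((l' ∉ Fl idx (j + 1) ∧ hv lam j l' = a) ↔
          (l' ∉ Fl idx (j + 1) ∧ (l ∉ Fl idx (j + 1) ∧ hv lam j l = a))) := by
      intro l' hl'
      refine and_congr_right fun h1 => ?_
      have h1' : l ∉ Fl idx (j + 1) := fun hh => h1 fun v hvv => hh v (hl' v hvv)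
      -- a point of index j
      obtain ⟨v, hvl, hvj⟩ : ∃ v ∈ l', idx v = j := by
        have : ∃ v ∈ l', ¬ (j + 1 ≤ idx v) := by
          by_contra hcon
          push Not at hcon
          exact h1 hcon
        obtain ⟨v, hvl, h2⟩ := this
        have h3 := hl2 v (hl' v hvl)
        exact ⟨v, hvl, by omega⟩
      have hh : ∀ l'' : List E, l'' ≠ [] → (∀ b ∈ l'', b ∈ l) → hv lam j l'' = lam j v := by
        intro l'' h4 h5
        cases l'' with
        | nil => exact absurd rfl h4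
        | cons b l'' =>
          have := hL.W_lam v b (hl1.2 v (hl' v hvl) b (h5 b List.mem_cons_self))
          rw [hvj] at this
          exact this
      rw [hh l' (ne_nil_of_notMem_Fl h1) hl', hh l (ne_nil_of_notMem_Fl h1') (fun b hb => hb)]
      exact ⟨fun h6 => ⟨h1', h6⟩, fun h6 => h6.2⟩
    -- on chains carried by sublists
    have hx' : ∀ y ∈ Sp (ZMod n) {l' : List E | ∀ b ∈ l', b ∈ l},
        ff idx lam j a y = if (l ∉ Fl idx (j + 1) ∧ hv lam j l = a) then RR n idx j y else 0 := by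
      intro y hy
      rw [Sp, Finsupp.supported_eq_span_single] at hy
      induction hy using Submodule.span_induction with
      | mem y hy =>
        obtain ⟨l', hl', rfl⟩ := hy
        have e := hsub l' hl'
        simp only [ff_single, RR_single]
        by_cases h1 : l' ∉ Fl idx (j + 1)
        · by_cases h2 : (l ∉ Fl idx (j + 1) ∧ hv lam j l = a)
          · rw [if_pos (e.2 ⟨h1, h2⟩), if_pos h2, if_pos h1]
          · rw [if_neg (fun h3 => h2 (e.1 h3).2), if_neg h2]
        · rw [if_neg (fun h3 => h1 h3.1), if_neg h1]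
          split_ifs <;> rfl
      | zero => simp
      | add x y _ _ hx hy =>
        rw [map_add, hx, hy, map_add]
        split_ifs
        · rfl
        · exact add_zero 0
      | smul r x _ hx =>
        have e1 : ff idx lam j a (r • x) = r • ff idx lam j a x := by
          unfold ff
          rw [fah, fah, Finsupp.filter_smul]
        have e2 : RR n idx j (r • x) = r • RR n idx j x := by
          unfold RR
          rw [fah, fah, Finsupp.filter_smul]
        rw [e1, hx, e2]
        split_ifs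
        · rfl
        · exact smul_zero r
    have hb : bd1 (ZMod n) l ∈ Sp (ZMod n) {l' : List E | ∀ b ∈ l', b ∈ l} :=
      Sp_mono (fun l' h => h.2) (bd1_mem l)
    rw [ff_single, D_single, one_smul, hx' _ hb]
    split_ifs with h1
    · rw [D_single, one_smul]
    · rw [map_zero, map_zero]
  rw [Sp, Finsupp.supported_eq_span_single] at hx
  induction hx using Submodule.span_induction with
  | mem y hy =>
    obtain ⟨l', hl', rfl⟩ := hy
    exact main l' hl'
  | zero => simp
  | add x y _ _ hx hy => simp only [map_add, hx, hy]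
  | smul r x _ hx =>
    have e1 : ∀ x, ff idx lam j a (r • x) = r • ff idx lam j a x := by
      intro x
      unfold ff
      rw [fah, fah, Finsupp.filter_smul]
    have e2 : ∀ x, RR n idx j (r • x) = r • RR n idx j x := by
      intro x
      unfold RR
      rw [fah, fah, Finsupp.filter_smul]
    rw [e1, map_smul, e2, hx, map_smul, e1]

/-- the homotopies -/
def ss (n : ℕ) (h : E → E) (idx : E → ℕ) (lam : ℕ → E → ZMod n) (j k : ℕ)
    (x : Ch (ZMod n) E) : Ch (ZMod n) E :=
  if Even k then ff idx lam j 0 x else hs1 n (HH n h) (ff idx lam j) x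

theorem Lab.ss_mem (_hL : Lab n m h W idx lam) (j k : ℕ) {L : Set (List E)}
    (hLh : ∀ l ∈ L, l.map h ∈ L) {x : Ch (ZMod n) E} (hx : x ∈ Sp (ZMod n) L) :
    ss n h idx lam j k x ∈ Sp (ZMod n) L := by
  unfold ss
  split_ifs
  · exact ff_mem idx lam j 0 hx
  · exact Submodule.sum_mem _ fun a _ => Submodule.sum_mem _ fun b _ =>
      HH_iter_mem h hLh b (ff_mem idx lam j _ hx)

theorem Lab.RR_ss (hL : Lab n m h W idx lam) (j k : ℕ) (x : Ch (ZMod n) E) :
    RR n idx j (ss n h idx lam j k x) = ss n h idx lam j k x := by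
  unfold ss
  split_ifs
  · exact RR_ff j 0 x
  · unfold hs1
    rw [map_sum]
    refine Finset.sum_congr rfl fun a _ => ?_
    rw [map_sum]
    refine Finset.sum_congr rfl fun b _ => ?_
    rw [hL.RR_HH_iter, RR_ff]

theorem Lab.RR_D_ss (hL : Lab n m h W idx lam) (j k q : ℕ) {x : Ch (ZMod n) E}
    (hx : x ∈ Sp (ZMod n) (Sm W q ∩ Fl idx j)) :
    RR n idx j (D (ss n h idx lam j k x)) = ss n h idx lam j k (D x) := by
  unfold ss
  split_ifs
  · exact hL.F2 j q 0 hx
  · unfold hs1
    rw [map_sum, map_sum]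
    refine Finset.sum_congr rfl fun a _ => ?_
    rw [map_sum, map_sum]
    refine Finset.sum_congr rfl fun b _ => ?_
    rw [D_HH_iter, hL.RR_HH_iter, hL.F2 j q _ hx]

theorem Lab.homot [NeZero n] (hL : Lab n m h W idx lam) (j k : ℕ) (x : Ch (ZMod n) E) :
    al n h k (ss n h idx lam j k x) + ss n h idx lam j (k + 1) (al n h (k + 1) x)
      = RR n idx j x := by
  unfold al ss
  by_cases hk : Even k
  · have hk' : ¬ Even (k + 1) := by rw [Nat.even_add_one]; simpa using hk
    rw [if_pos hk, if_pos hk, if_neg hk', if_neg hk', id2 _ _ (hL.F1 j), F3'']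
  · have hk' : Even (k + 1) := by rw [Nat.even_add_one]; simpa using hk
    rw [if_neg hk, if_neg hk, if_pos hk', if_pos hk', id1 _ _ (hL.F1 j), F3']

theorem nrm_nil (h : E → E) {W : Set (E × E)} {x : Ch (ZMod n) E}
    (hx : x ∈ Sp (ZMod n) (Sm W 0)) : al n h 0 x = 0 := by
  have h0 : Sm W 0 = {([] : List E)} := by
    ext l
    constructor
    · rintro ⟨h1, -⟩
      exact List.length_eq_zero_iff.1 h1
    · rintro rfl
      exact ⟨rfl, by simp⟩
  rw [h0, Sp, Finsupp.supported_eq_span_single, Set.image_singleton,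
    Submodule.mem_span_singleton] at hx
  obtain ⟨r, rfl⟩ := hx
  unfold al nrm
  rw [if_pos (by decide)]
  have : ∀ b, ((HH n h)^[b]) (r • Finsupp.single ([] : List E) (1 : ZMod n))
      = r • Finsupp.single ([] : List E) (1 : ZMod n) := by
    intro b
    rw [HH_iter_apply, map_smul, push_single]
    rfl
  simp only [this, Finset.sum_const, Finset.card_range]
  rw [← Nat.cast_smul_eq_nsmul (ZMod n), ZMod.natCast_self, zero_smul]

/-- DESCENT: no such sequence. -/
theorem Lab.no_seq [NeZero n] (h1n : (1 : ZMod n) ≠ 0) (hL : Lab n m h W idx lam)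
    (hn : ∀ v, h^[n] v = v) :
    ∀ (r j : ℕ) (_ : j + r = m) (y : ℕ → Ch (ZMod n) E)
      (_ : ∀ k ≤ r, y k ∈ Sp (ZMod n) (Sm W (k + 1) ∩ Fl idx j))
      (_ : D (y 0) = Finsupp.single [] 1) (_ : ∀ k < r, D (y (k + 1)) = al n h (k + 1) (y k)),
      False := by
  intro r
  induction r with
  | zero =>
    intro j hj y hy h0 _
    have h2 : y 0 ∈ Sp (ZMod n) (∅ : Set (List E)) := by
      refine Sp_mono ?_ (hy 0 le_rfl)
      rintro l ⟨⟨h3, -⟩, h4⟩
      obtain ⟨v, rfl⟩ := List.length_eq_one_iff.1 h3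
      have := h4 v List.mem_cons_self
      have := hL.lt v
      omega
    have h3 : y 0 = 0 := by
      rw [Sp, Finsupp.supported_empty] at h2
      exact (Submodule.mem_bot _).1 h2
    rw [h3, map_zero] at h0
    have := congrArg (fun f : Ch (ZMod n) E => f []) h0
    simp at this
    exact h1n this.symm
  | succ r ih =>
    intro j hj y hy h0 hs
    have hinv : ∀ q, ∀ l ∈ Sm W q ∩ Fl idx j, l.map h ∈ Sm W q ∩ Fl idx j := by
      rintro q l ⟨⟨h3, h4⟩, h5⟩
      refine ⟨⟨by simpa using h3, ?_⟩, (hL.Fl_map j l).2 h5⟩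
      intro a ha b hb
      obtain ⟨a', ha', rfl⟩ := List.mem_map.1 ha
      obtain ⟨b', hb', rfl⟩ := List.mem_map.1 hb
      exact hL.W_h _ _ (h4 a' ha' b' hb')
    have hD : ∀ q, ∀ x ∈ Sp (ZMod n) (Sm W (q + 1) ∩ Fl idx j),
        D x ∈ Sp (ZMod n) (Sm W q ∩ Fl idx j) := by
      intro q x hx
      refine lin_mem D (fun l hl => ?_) hx
      rw [D_single, one_smul]
      refine Sp_mono ?_ (bd1_mem l)
      rintro l' ⟨h6, h7⟩
      refine ⟨⟨?_, fun a ha b hb => hl.1.2 a (h7 a ha) b (h7 b hb)⟩, fun v hvv => hl.2 v (h7 v hvv)⟩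
      have := hl.1.1
      omega
    set y' : ℕ → Ch (ZMod n) E := fun k =>
      y k - al n h k (ss n h idx lam j k (y k)) - D (ss n h idx lam j (k + 1) (y (k + 1))) with hy'
    refine ih (j + 1) (by omega) y' ?_ ?_ ?_
    · intro k hk
      have hmem : y' k ∈ Sp (ZMod n) (Sm W (k + 1) ∩ Fl idx j) := by
        refine Submodule.sub_mem _ (Submodule.sub_mem _ (hy k (by omega)) ?_) ?_
        · exact al_mem h (hinv _) k (hL.ss_mem j k (hinv _) (hy k (by omega)))
        · exact hD _ _ (hL.ss_mem j (k + 1) (hinv _) (hy (k + 1) (by omega)))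
      have hR : RR n idx j (y' k) = 0 := by
        rw [hy']
        simp only [map_sub]
        rw [hL.RR_al, hL.RR_ss, hL.RR_D_ss j (k + 1) (k + 2) (hy (k + 1) (by omega)),
          hs k (by omega), ← hL.homot j k (y k)]
        abel
      classical
      rw [Finsupp.mem_supported] at hmem ⊢
      intro l hl
      refine ⟨(hmem hl).1, ?_⟩
      by_contra h8
      have h9 : (RR n idx j (y' k)) l = y' k l := by
        unfold RR
        rw [fah, Finsupp.filter_apply, if_pos h8]
      rw [hR] at h9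
      exact (Finsupp.mem_support_iff.1 hl) h9.symm
    · rw [hy']
      simp only [map_sub, D_D, sub_zero]
      rw [D_al, h0]
      have h3 : D (ss n h idx lam j 0 (y 0)) ∈ Sp (ZMod n) (Sm W 0) :=
        Sp_mono (fun l hl => hl.1) (hD 0 _ (hL.ss_mem j 0 (hinv _) (hy 0 (by omega))))
      rw [nrm_nil h h3, sub_zero]
    · intro k hk
      have e1 : D (y' (k + 1)) = al n h (k + 1) (y k)
          - al n h (k + 1) (D (ss n h idx lam j (k + 1) (y (k + 1)))) := by
        rw [hy']
        simp only [map_sub, D_D, sub_zero]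
        rw [D_al, hs k (by omega)]
      have e2 : al n h (k + 1) (y' k) = al n h (k + 1) (y k)
          - al n h (k + 1) (D (ss n h idx lam j (k + 1) (y (k + 1)))) := by
        rw [hy']
        simp only [al_sub]
        rw [al_al h hn, sub_zero]
      rw [e1, e2]

end

end Crest.Agent.R224.TF
end
private theorem rz_08658d7aaf : type_of% @_root_.Crest.Agent.R224.TF.hv.eq_1 := @_root_.Crest.Agent.R224.TF.hv.eq_1 -- L128
end

-- ▼ part R224/T/TFAbs
section

set_option autoImplicit false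

noncomputable section

open Filter Topology

namespace Crest.Agent.R224.TF

variable {E : Type*} [TopologicalSpace E] {n : ℕ}

/-- scales -/
def Wsc (n : ℕ) (H : unitInterval × E → E) (h : E → E) (W : Set (E × E)) : ℕ → Set (E × E)
  | 0 => W
  | i + 1 => {q | ∀ b ∈ Finset.range n, ∀ t, (H (t, h^[b] q.1), H (t, h^[b] q.2)) ∈ Wsc n H h W i}

theorem Wsc_open (H : unitInterval × E → E) (hH : Continuous H) (h : E → E) (hh : Continuous h)
    (W : Set (E × E)) (hW : IsOpen W) (i : ℕ) : IsOpen (Wsc n H h W i) := by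
  induction i with
  | zero => exact hW
  | succ i ih =>
    have e : Wsc n H h W (i + 1) = ⋂ b ∈ Finset.range n,
        {q : E × E | ∀ t, (H (t, h^[b] q.1), H (t, h^[b] q.2)) ∈ Wsc n H h W i} := by
      ext q
      simp [Wsc]
    rw [e]
    exact isOpen_biInter_finset fun b _ => isOpen_scale H hH _ ih _ (hh.iterate b)

omit [TopologicalSpace E] in
theorem Wsc_diag (H : unitInterval × E → E) (h : E → E) (W : Set (E × E)) (hd : ∀ x, (x, x) ∈ W)
    (i : ℕ) (x : E) : (x, x) ∈ Wsc n H h W i := by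
  induction i generalizing x with
  | zero => exact hd x
  | succ i ih => exact fun b _ t => ih _

omit [TopologicalSpace E] in
theorem Wsc_inv (H : unitInterval × E → E) (h : E → E) (hn : ∀ v, h^[n] v = v)
    (W : Set (E × E)) (hWh : ∀ v w, (v, w) ∈ W → (h v, h w) ∈ W) (i : ℕ) (v w : E)
    (hvw : (v, w) ∈ Wsc n H h W i) : (h v, h w) ∈ Wsc n H h W i := by
  cases i with
  | zero => exact hWh v w hvw
  | succ i =>
    intro b hb t
    rcases Nat.lt_or_ge (b + 1) n with h1 | h1
    · have := hvw (b + 1) (Finset.mem_range.2 h1) t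
      simpa [Function.iterate_succ_apply] using this
    · have h2 : b + 1 = n := by
        have := Finset.mem_range.1 hb
        omega
      have h3 : ∀ v, h^[b] (h v) = v := by
        intro v
        rw [← Function.iterate_succ_apply, Nat.succ_eq_add_one, h2, hn]
      have h4 := hvw 0 (Finset.mem_range.2 (by omega)) t
      simpa [h3] using h4

omit [TopologicalSpace E] in
theorem Wsc_sub (hn0 : 0 < n) (H : unitInterval × E → E) (H0 : ∀ x, H (0, x) = x) (h : E → E)
    (W : Set (E × E)) (i : ℕ) : Wsc n H h W i ⊆ W := by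
  induction i with
  | zero => exact subset_rfl
  | succ i ih =>
    intro q hq
    have := hq 0 (Finset.mem_range.2 hn0) 0
    rw [H0, H0] at this
    exact ih this

/-- the equivariant chains -/
theorem exists_seq [NeZero n] [ContractibleSpace E] (h : E → E) (hh : Continuous h)
    (hn : ∀ v, h^[n] v = v) (W : Set (E × E)) (hW : IsOpen W) (hd : ∀ x, (x, x) ∈ W)
    (hWh : ∀ v w, (v, w) ∈ W → (h v, h w) ∈ W) (m : ℕ) :
    ∃ z : ℕ → Ch (ZMod n) E, (∀ k ≤ m, z k ∈ Sp (ZMod n) (Sm W (k + 1))) ∧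
      D (z 0) = Finsupp.single [] 1 ∧ ∀ k < m, D (z (k + 1)) = al n h (k + 1) (z k) := by
  have hn0 : 0 < n := Nat.pos_of_ne_zero (NeZero.ne n)
  obtain ⟨c, ⟨F⟩⟩ := id_nullhomotopic E
  set H : unitInterval × E → E := fun p => F p with hHdef
  have hH : Continuous H := F.continuous
  have H0 : ∀ x, H (0, x) = x := fun x => F.apply_zero x
  have H1 : ∀ x, H (1, x) = c := fun x => F.apply_one x
  have key : ∀ K ≤ m, ∃ z : ℕ → Ch (ZMod n) E,
      (∀ k ≤ K, z k ∈ Sp (ZMod n) (Sm (Wsc n H h W (m - k)) (k + 1))) ∧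
      D (z 0) = Finsupp.single [] 1 ∧ ∀ k < K, D (z (k + 1)) = al n h (k + 1) (z k) := by
    intro K
    induction K with
    | zero =>
      intro _
      refine ⟨fun _ => Finsupp.single [c] 1, ?_, ?_, ?_⟩
      · intro k hk
        obtain rfl : k = 0 := by omega
        have h5 : ([c] : List E) ∈ Sm (Wsc n H h W (m - 0)) (0 + 1) := by
          refine ⟨rfl, ?_⟩
          intro a ha b hb
          rw [List.mem_singleton] at ha hb
          subst ha; subst hb
          exact Wsc_diag H h W hd _ _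
        exact single_mem h5 1
      · rw [D_single, one_smul]
        simp [bd1]
      · intro k hk
        exact absurd hk (Nat.not_lt_zero k)
    | succ K ih =>
      intro hK
      obtain ⟨z, hz, hz0, hzs⟩ := ih (by omega)
      have hinv : ∀ l ∈ Sm (Wsc n H h W (m - K)) (K + 1),
          l.map h ∈ Sm (Wsc n H h W (m - K)) (K + 1) := by
        rintro l ⟨h3, h4⟩
        refine ⟨by simpa using h3, ?_⟩
        intro a ha b hb
        obtain ⟨a', ha', rfl⟩ := List.mem_map.1 ha
        obtain ⟨b', hb', rfl⟩ := List.mem_map.1 hb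
        exact Wsc_inv H h hn W hWh _ _ _ (h4 a' ha' b' hb')
      have hmem := al_mem h hinv (K + 1) (hz K le_rfl)
      have hcyc : D (al n h (K + 1) (z K)) = 0 := by
        rw [D_al]
        cases K with
        | zero =>
          rw [hz0]
          unfold al dif
          rw [if_neg (by decide), HH_apply, push_single]
          simp
        | succ K => rw [hzs K (by omega), al_al h hn]
      have e : m - K = (m - (K + 1)) + 1 := by omega
      rw [e] at hmem
      obtain ⟨w, hw, hDw⟩ := acyc H hH c H0 H1 (Wsc n H h W (m - (K + 1)))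
        (Wsc_open H hH h hh W hW _) (Wsc_diag H h W hd _)
        (n := K + 1) (z := al n h (K + 1) (z K)) (by
          refine Sp_mono ?_ hmem
          rintro l ⟨h3, h4⟩
          refine ⟨h3, fun a ha b hb t => ?_⟩
          exact h4 a ha b hb 0 (Finset.mem_range.2 hn0) t) hcyc
      refine ⟨Function.update z (K + 1) w, ?_, ?_, ?_⟩
      · intro k hk
        rcases Nat.lt_or_ge k (K + 1) with h1 | h1
        · rw [Function.update_of_ne (by omega)]
          exact hz k (by omega)
        · obtain rfl : k = K + 1 := by omega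
          rw [Function.update_self]
          exact hw
      · rw [Function.update_of_ne (by omega)]
        exact hz0
      · intro k hk
        rcases Nat.lt_or_ge k K with h1 | h1
        · rw [Function.update_of_ne (by omega), Function.update_of_ne (by omega)]
          exact hzs k h1
        · obtain rfl : k = K := by omega
          rw [Function.update_self, Function.update_of_ne (by omega)]
          exact hDw
  obtain ⟨z, hz, hz0, hzs⟩ := key m le_rfl
  refine ⟨z, fun k hk => Sp_mono ?_ (hz k hk), hz0, hzs⟩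
  rintro l ⟨h3, h4⟩
  exact ⟨h3, fun a ha b hb => Wsc_sub hn0 H H0 h W _ (h4 a ha b hb)⟩

/-- ABSTRACT TORSION THEOREM. -/
theorem no_period [ContractibleSpace E] (hn2 : 2 ≤ n) (h : E → E) (hh : Continuous h)
    (hn : ∀ v, h^[n] v = v) (m : ℕ) (K V : ℕ → Set E) (hK : ∀ j, IsClosed (K j))
    (hV : ∀ j, IsOpen (V j)) (hKV : ∀ j, K j ⊆ V j) (hcov : ∀ v, ∃ j < m, v ∈ K j)
    (hKh : ∀ j v, h v ∈ K j ↔ v ∈ K j) (hVh : ∀ j v, h v ∈ V j ↔ v ∈ V j)
    (lam : ℕ → E → ZMod n) (hlam : ∀ j, ∀ v ∈ V j, lam j (h v) = lam j v + 1)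
    (hloc : ∀ j, ∀ v ∈ V j, ∀ᶠ w in 𝓝 v, lam j w = lam j v) : False := by
  classical
  have _ : NeZero n := ⟨by omega⟩
  have _ : Fact (1 < n) := ⟨by omega⟩
  set idx : E → ℕ := fun v => Nat.find (hcov v) with hidx
  have hidx1 : ∀ v, idx v < m ∧ v ∈ K (idx v) := fun v => Nat.find_spec (hcov v)
  have hidxh : ∀ v, idx (h v) = idx v := by
    intro v
    simp only [hidx]
    congr 1
    funext j
    exact propext (and_congr_right fun _ => hKh j v)
  set lam' : ℕ → E → ZMod n := fun j v => if v ∈ V j then lam j v else lam (idx v) v with hlam'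
  set W : Set (E × E) := {q | ∀ j < m, q.1 ∈ K j → (q.2 ∈ V j ∧ lam j q.2 = lam j q.1)} with hWdef
  have hWo : IsOpen W := by
    rw [isOpen_iff_mem_nhds]
    intro q hq
    have h1 : ∀ j ∈ Finset.range m, ∀ᶠ q' in 𝓝 q, q'.1 ∈ K j →
        (q'.2 ∈ V j ∧ lam j q'.2 = lam j q'.1) := by
      intro j hj
      by_cases hqj : q.1 ∈ K j
      · obtain ⟨h2, h3⟩ := hq j (Finset.mem_range.1 hj) hqj
        have e1 : ∀ᶠ q' : E × E in 𝓝 q, lam j q'.1 = lam j q.1 :=
          (continuous_fst.tendsto q).eventually (hloc j q.1 (hKV j hqj))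
        have e2 : ∀ᶠ q' : E × E in 𝓝 q, lam j q'.2 = lam j q.2 :=
          (continuous_snd.tendsto q).eventually (hloc j q.2 h2)
        have e3 : ∀ᶠ q' : E × E in 𝓝 q, q'.2 ∈ V j :=
          (continuous_snd.tendsto q).eventually ((hV j).mem_nhds h2)
        filter_upwards [e1, e2, e3] with q' a1 a2 a3 _
        exact ⟨a3, by rw [a1, a2, h3]⟩
      · have e1 : ∀ᶠ q' : E × E in 𝓝 q, q'.1 ∈ (K j)ᶜ :=
          (continuous_fst.tendsto q).eventually ((hK j).isOpen_compl.mem_nhds hqj)
        filter_upwards [e1] with q' a1 a2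
        exact absurd a2 a1
    have h2 : ∀ᶠ q' in 𝓝 q, ∀ j ∈ Finset.range m, q'.1 ∈ K j →
        (q'.2 ∈ V j ∧ lam j q'.2 = lam j q'.1) := by
      rw [Filter.eventually_all_finset]
      exact h1
    filter_upwards [h2] with q' hq' j hj
    exact hq' j (Finset.mem_range.2 hj)
  have hWd : ∀ x, (x, x) ∈ W := fun x j _ hx => ⟨hKV j hx, rfl⟩
  have hWh : ∀ v w, (v, w) ∈ W → (h v, h w) ∈ W := by
    intro v w hvw j hj hv
    obtain ⟨h1, h2⟩ := hvw j hj ((hKh j v).1 hv)
    refine ⟨(hVh j w).2 h1, ?_⟩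
    show lam j (h w) = lam j (h v)
    rw [hlam j w h1, hlam j v (hKV j ((hKh j v).1 hv))]
    exact congrArg (· + 1) h2
  have hLab : Lab n m h W idx lam' := by
    refine ⟨fun v => (hidx1 v).1, hidxh, ?_, hWh, ?_⟩
    · intro j v
      simp only [hlam']
      by_cases hv : v ∈ V j
      · rw [if_pos hv, if_pos ((hVh j v).2 hv), hlam j v hv]
      · rw [if_neg hv, if_neg (fun hh => hv ((hVh j v).1 hh)), hidxh,
          hlam _ v (hKV _ (hidx1 v).2)]
    · intro v w hvw
      obtain ⟨h1, h2⟩ := hvw (idx v) (hidx1 v).1 (hidx1 v).2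
      simp only [hlam']
      rw [if_pos h1, if_pos (hKV _ (hidx1 v).2)]
      exact h2
  obtain ⟨z, hz, hz0, hzs⟩ := exists_seq h hh hn W hWo hWd hWh m
  refine hLab.no_seq one_ne_zero hn m 0 (by omega) z (fun k hk => ?_) hz0 hzs
  refine Sp_mono ?_ (hz k hk)
  intro l hl
  exact ⟨hl, fun v _ => Nat.zero_le _⟩

end Crest.Agent.R224.TF
end
private theorem rz_d68b53e725 : type_of% @_root_.Crest.Agent.R224.TF.Wsc.eq_def := @_root_.Crest.Agent.R224.TF.Wsc.eq_def -- L18
private theorem rz_2cd106b6d9 : type_of% @_root_.Crest.Agent.R224.TF.Wsc.eq_1 := @_root_.Crest.Agent.R224.TF.Wsc.eq_1 -- L18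
end

-- ▼ part R224/T/TorsFree
section

set_option autoImplicit false

noncomputable section

open Filter Topology Function

namespace Crest.Agent.R224.TF

/-- labels in `ZMod n` for a free map of period `n` -/
theorem exists_theta {I : Type*} {n : ℕ} (hn0 : 0 < n) (σ : I → I) (hn : ∀ i, σ^[n] i = i)
    (hfree : ∀ i k, 0 < k → k < n → σ^[k] i ≠ i) :
    ∃ θ : I → ZMod n, ∀ i, θ (σ i) = θ i + 1 := by
  classical
  have hper : ∀ i, IsPeriodicPt σ n i := hn
  have hmod : ∀ k i, σ^[k % n] i = σ^[k] i := fun k i => (hper i).iterate_mod_apply k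
  have hinv : ∀ k i j, σ^[k] i = j → ∃ k', σ^[k'] j = i := by
    intro k i j hij
    refine ⟨n - k % n, ?_⟩
    rw [← hij, ← hmod k, ← iterate_add_apply, Nat.sub_add_cancel (Nat.mod_lt _ hn0).le, hn]
  let S : Setoid I :=
    { r := fun i j => ∃ k, σ^[k] i = j
      iseqv :=
        ⟨fun i => ⟨0, rfl⟩, fun {i j} ⟨k, hk⟩ => hinv k i j hk,
          fun {i j l} ⟨k, hk⟩ ⟨k', hk'⟩ => ⟨k' + k, by rw [iterate_add_apply, hk, hk']⟩⟩ }
  have hrep : ∀ i : I, ∃ k, σ^[k] (Quotient.out (Quotient.mk S i)) = i := fun i =>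
    (Quotient.mk_out (s := S) i)
  choose kk hkk using hrep
  refine ⟨fun i => (kk i : ZMod n), fun i => ?_⟩
  have e1 : Quotient.mk S (σ i) = Quotient.mk S i := Quotient.sound (hinv 1 _ _ rfl)
  set r := Quotient.out (Quotient.mk S i) with hr
  have e2 : σ^[kk (σ i)] r = σ^[kk i + 1] r := by
    have h1 := hkk (σ i)
    rw [e1] at h1
    rw [h1, iterate_succ_apply']
    exact congrArg σ (hkk i).symm
  -- compare exponents
  have key : ∀ a b, a ≤ b → σ^[a] r = σ^[b] r → ((a : ℕ) : ZMod n) = b := by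
    intro a b hab h1
    have h2 : σ^[b - a] r = r := by
      have h3 : σ^[n * a] r = r := by
        rw [← hmod, Nat.mul_mod_right]
        rfl
      have h4 : ∀ s, σ^[n * a - a] (σ^[a] s) = s := by
        intro s
        rw [← iterate_add_apply, Nat.sub_add_cancel (Nat.le_mul_of_pos_left a hn0), ← hmod,
          Nat.mul_mod_right]
        rfl
      have h5 := congrArg (σ^[n * a - a]) h1
      rw [h4] at h5
      conv at h5 => rhs; rw [show b = a + (b - a) by omega, iterate_add_apply, h4]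
      exact h5.symm
    have h3 : (b - a) % n = 0 := by
      by_contra hne
      exact hfree r _ (Nat.pos_of_ne_zero hne) (Nat.mod_lt _ hn0) (by rw [hmod, h2])
    have h4 : ((b - a : ℕ) : ZMod n) = 0 :=
      (ZMod.natCast_eq_zero_iff _ _).2 (Nat.dvd_of_mod_eq_zero h3)
    have h5 : b = a + (b - a) := by omega
    rw [h5, Nat.cast_add, h4, add_zero]
  have h6 : ((kk (σ i) : ℕ) : ZMod n) = ((kk i + 1 : ℕ) : ZMod n) := by
    rcases le_total (kk (σ i)) (kk i + 1) with h | h
    · exact key _ _ h e2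
    · exact (key _ _ h e2.symm).symm
  show ((kk (σ i) : ℕ) : ZMod n) = (kk i : ZMod n) + 1
  rw [h6]
  push_cast
  rfl

section cover

variable {E M : Type*} [TopologicalSpace E] [TopologicalSpace M] {p : E → M}

/-- monodromy commutes with deck maps -/
theorem mono_comm (cov : IsCoveringMap p) (F : C(E, E)) (hF : p ∘ F = p) {x y : M}
    (γ : Path.Homotopic.Quotient x y) (e : p ⁻¹' {x}) (he : p (F e) = x) :
    (cov.monodromy γ ⟨F e, he⟩ : E) = F (cov.monodromy γ e) := by
  obtain ⟨γ⟩ := γ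
  have h0 : (γ : C(unitInterval, M)) 0 = p e := γ.source.trans e.2.symm
  have h1 : (γ : C(unitInterval, M)) 0 = p (F e) := γ.source.trans he.symm
  have h2 : F.comp (cov.liftPath γ e h0) = cov.liftPath γ (F e) h1 := by
    refine (cov.eq_liftPath_iff' _).2 ⟨?_, ?_⟩
    · have h3 := cov.liftPath_lifts (γ : C(unitInterval, M)) e h0
      funext t
      have h4 := congrFun h3 t
      have h5 : p (F (cov.liftPath γ e h0 t)) = p (cov.liftPath γ e h0 t) := congrFun hF _
      simpa using h5.trans h4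
    · simp [cov.liftPath_zero]
  exact (congrArg (fun f : C(unitInterval, E) => f 1) h2).symm

/-- a loop class fixing a point of the fibre of a simply connected cover is trivial -/
theorem mono_free (cov : IsCoveringMap p) [SimplyConnectedSpace E] {x : M}
    (γ : FundamentalGroup M x) (e : p ⁻¹' {x}) (h : cov.monodromy γ e = e) : γ = 1 := by
  obtain ⟨γ⟩ := γ
  have h0 : (γ : C(unitInterval, M)) 0 = p e := γ.source.trans e.2.symm
  have hend : cov.liftPath γ e h0 1 = e := congrArg Subtype.val h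
  let Γ : Path (e : E) (e : E) := ⟨cov.liftPath γ e h0, cov.liftPath_zero _ _ _, hend⟩
  have h1 : Γ.Homotopic (Path.refl (e : E)) := SimplyConnectedSpace.paths_homotopic _ _
  have h2 : (Γ.map cov.continuous).Homotopic ((Path.refl (e : E)).map cov.continuous) :=
    h1.map ⟨p, cov.continuous⟩
  have hx : p e = x := e.2
  have h3 : (Path.Homotopic.Quotient.mk γ) = Path.Homotopic.Quotient.mk (Path.refl x) := by
    obtain ⟨e, he⟩ := e
    have hpe : p e = x := he
    subst hpe
    refine Quotient.sound ?_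
    have e1 : γ = Γ.map cov.continuous := by
      ext t
      exact (congrFun (cov.liftPath_lifts (γ : C(unitInterval, M)) e h0) t).symm
    have e2 : (Path.refl e).map cov.continuous = Path.refl (p e) := by
      ext t
      rfl
    rw [e1, ← e2]
    exact h2
  exact h3

/-- local labels of an evenly covered connected set -/
theorem exists_lam [LocallyConnectedSpace M] (cov : IsCoveringMap p) {n : ℕ} (hn0 : 0 < n)
    (F : C(E, E)) (hF : p ∘ F = p) (hn : ∀ v, F^[n] v = v)
    (hfree : ∀ v k, 0 < k → k < n → F^[k] v ≠ v) (a : M) :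
    ∃ U : Set M, IsOpen U ∧ a ∈ U ∧ ∃ lam : E → ZMod n,
      (∀ v, p v ∈ U → lam (F v) = lam v + 1) ∧
      (∀ v, p v ∈ U → ∀ᶠ w in 𝓝 v, lam w = lam v) := by
  classical
  obtain ⟨hdisc, U, haU, hU, hpU, H, hH⟩ := cov a
  -- a connected open neighbourhood
  obtain ⟨U', hU'U, hU'o, haU', hU'c⟩ :=
    locallyConnectedSpace_iff_subsets_isOpen_isConnected.1 inferInstance a U (hU.mem_nhds haU)
  have hpF : ∀ v, p (F v) = p v := fun v => congrFun hF v
  have hpFk : ∀ k v, p (F^[k] v) = p v := by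
    intro k
    induction k with
    | zero => intro v; rfl
    | succ k ih => intro v; rw [iterate_succ_apply, ih, hpF]
  have hpUF : ∀ v, p v ∈ U → F v ∈ p ⁻¹' U := fun v hv => by
    show p (F v) ∈ U
    rw [hpF]; exact hv
  rcases isEmpty_or_nonempty (p ⁻¹' {a}) with hemp | hne
  · refine ⟨U, hU, haU, fun _ => 0, fun v hv => ?_, fun v hv => ?_⟩
    · exact (hemp.false (H ⟨v, hv⟩).2).elim
    · exact Eventually.of_forall fun _ => rfl
  -- sheet labels
  let i0 : p ⁻¹' {a} := Classical.choice hne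
  let q : E → p ⁻¹' {a} := fun v => if hv : p v ∈ U then (H ⟨v, hv⟩).2 else i0
  have hq : ∀ v (hv : p v ∈ U), q v = (H ⟨v, hv⟩).2 := fun v hv => dif_pos hv
  have hqloc : ∀ v, p v ∈ U → ∀ᶠ w in 𝓝 v, q w = q v := by
    intro v hv
    have hc : Continuous fun w : p ⁻¹' U => (H w).2 := continuous_snd.comp H.continuous
    have h1 : ∀ᶠ w : p ⁻¹' U in 𝓝 ⟨v, hv⟩, (H w).2 = (H ⟨v, hv⟩).2 :=
      hc.continuousAt.eventually (IsOpen.mem_nhds (isOpen_discrete {(H ⟨v, hv⟩).2}) rfl)
    have h2 : 𝓝 v = Filter.map Subtype.val (𝓝 (⟨v, hv⟩ : p ⁻¹' U)) :=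
      (hpU.isOpenEmbedding_subtypeVal.map_nhds_eq ⟨v, hv⟩).symm
    rw [h2, Filter.eventually_map]
    filter_upwards [h1] with w hw
    rw [hq w w.2, hq v hv]
    exact hw
  have hinj : ∀ v w, p v ∈ U → p v = p w → q v = q w → v = w := by
    intro v w hv hvw hqvw
    have hw : p w ∈ U := hvw ▸ hv
    rw [hq v hv, hq w hw] at hqvw
    have h1 : H ⟨v, hv⟩ = H ⟨w, hw⟩ := by
      refine Prod.ext (Subtype.ext ?_) hqvw
      rw [hH, hH]
      exact hvw
    exact congrArg Subtype.val (H.injective h1)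
  -- the sheets
  let s : U → p ⁻¹' {a} → E := fun u i => (H.symm (u, i) : E)
  have hps : ∀ u i, p (s u i) = u := by
    intro u i
    have := hH (H.symm (u, i))
    rw [H.apply_symm_apply] at this
    exact this.symm
  have hpsU : ∀ u i, p (s u i) ∈ U := fun u i => by rw [hps]; exact u.2
  have hqs : ∀ u i, q (s u i) = i := by
    intro u i
    rw [hq _ (hpsU u i)]
    have : (⟨s u i, hpsU u i⟩ : p ⁻¹' U) = H.symm (u, i) := Subtype.ext rfl
    rw [this, H.apply_symm_apply]
  let σ : p ⁻¹' {a} → p ⁻¹' {a} := fun i => q (F (s ⟨a, haU⟩ i))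
  have hσ : ∀ v, p v ∈ U' → q (F v) = σ (q v) := by
    intro v hv
    have hvU : p v ∈ U := hU'U hv
    have hpre : PreconnectedSpace U' := isPreconnected_iff_preconnectedSpace.1 hU'c.isPreconnected
    let f : U' → p ⁻¹' {a} := fun u =>
      (H ⟨F (s ⟨u, hU'U u.2⟩ (q v)), hpUF _ (hpsU _ _)⟩).2
    have hf : Continuous f := by
      refine continuous_snd.comp (H.continuous.comp (Continuous.subtype_mk ?_ _))
      refine F.continuous.comp (continuous_subtype_val.comp (H.symm.continuous.comp ?_))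
      exact (Continuous.subtype_mk continuous_subtype_val _).prodMk continuous_const
    have h1 : f ⟨p v, hv⟩ = f ⟨a, haU'⟩ := PreconnectedSpace.constant hpre hf
    have h2 : s ⟨p v, hvU⟩ (q v) = v := hinj _ _ (hpsU _ _) (hps _ _) (hqs _ _)
    have h3 : f ⟨p v, hv⟩ = q (F v) := by
      rw [hq _ (hpUF v hvU)]
      show (H ⟨F (s ⟨p v, hvU⟩ (q v)), _⟩).2 = _
      simp only [h2]
    have h4 : f ⟨a, haU'⟩ = σ (q v) := (hq _ (hpUF _ (hpsU ⟨a, haU⟩ (q v)))).symm
    rw [← h3, h1, h4]
  have hσk : ∀ k i, σ^[k] i = q (F^[k] (s ⟨a, haU⟩ i)) := by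
    intro k i
    induction k with
    | zero => exact (hqs _ _).symm
    | succ k ih =>
      rw [iterate_succ_apply', iterate_succ_apply', ih, hσ]
      rw [hpFk, hps]
      exact haU'
  obtain ⟨θ, hθ⟩ := exists_theta hn0 σ (fun i => by rw [hσk, hn, hqs]) (by
    intro i k hk hkn hcon
    rw [hσk] at hcon
    refine hfree (s ⟨a, haU⟩ i) k hk hkn (hinj _ _ ?_ ?_ ?_)
    · rw [hpFk]; exact hpsU _ _
    · rw [hpFk]
    · rw [hcon, hqs])
  refine ⟨U', hU'o, haU', fun v => θ (q v), fun v hv => ?_, fun v hv => ?_⟩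
  · show θ (q (F v)) = θ (q v) + 1
    rw [hσ v hv, hθ]
  · filter_upwards [hqloc v (hU'U hv)] with w hw
    rw [hw]

end cover

/-- TORSION-FREENESS. -/
theorem torsion_free (M : Type*) [TopologicalSpace M] [T2Space M] [CompactSpace M]
    [LocallyPathConnectedSpace M] (hM : Crest.Topology.HasContractibleCover M) (x : M) :
    ∀ g : FundamentalGroup M x, g ≠ 1 → ∀ N : ℕ, 0 < N → g ^ N ≠ 1 := by
  classical
  intro g hg N hN hgN
  obtain ⟨E, _, p, hE, cov, hsurj⟩ := hM
  -- order
  have hord : 0 < orderOf g := orderOf_pos_iff.2 (isOfFinOrder_iff_pow_eq_one.2 ⟨N, hN, hgN⟩)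
  have hord1 : orderOf g ≠ 1 := fun h => hg (orderOf_eq_one_iff.1 h)
  set n := orderOf g with hndef
  have hn2 : 2 ≤ n := by omega
  -- `E` is locally path connected
  have hloc : ∀ e : E, ∃ φ : OpenPartialHomeomorph E M, e ∈ φ.source := fun e => by
    obtain ⟨φ, h1, -⟩ := cov.isLocalHomeomorph e
    exact ⟨φ, h1⟩
  choose φ hφ using hloc
  let _ : ChartedSpace M E :=
    { atlas := Set.univ
      chartAt := φ
      mem_chart_source := hφ
      chart_mem_atlas := fun _ => Set.mem_univ _ }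
  have _ : LocallyPathConnectedSpace E := ChartedSpace.locallyPathConnectedSpace M E
  -- the deck map
  obtain ⟨e0, he0⟩ := hsurj x
  let e0' : p ⁻¹' {x} := ⟨e0, he0⟩
  obtain ⟨F, ⟨hF0, hFp⟩, -⟩ := cov.existsUnique_continuousMap_lifts (A := E)
    ⟨p, cov.continuous⟩ e0 (cov.monodromy g e0' : E) ((cov.monodromy g e0').2.trans he0.symm)
  have hFp' : p ∘ F = p := hFp
  have hpF : ∀ v, p (F v) = p v := fun v => congrFun hFp' v
  have hpFk : ∀ k v, p (F^[k] v) = p v := by
    intro k
    induction k with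
    | zero => intro v; rfl
    | succ k ih => intro v; rw [iterate_succ_apply, ih, hpF]
  have hFk : ∀ k, F^[k] e0 = (cov.monodromy (g ^ k : FundamentalGroup M x) e0' : E) := by
    let _ := cov.fundamentalGroupMulAction x
    intro k
    induction k with
    | zero =>
      rw [pow_zero]
      exact (congrArg Subtype.val (congrFun cov.monodromy_refl e0')).symm
    | succ k ih =>
      rw [iterate_succ_apply', ih, pow_succ]
      have h1 : cov.monodromy (g ^ k * g : FundamentalGroup M x) e0'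
          = cov.monodromy (g ^ k : FundamentalGroup M x) (cov.monodromy g e0') :=
        mul_smul (g ^ k) g e0'
      rw [h1]
      have hFe : p (F e0) = x := (hpF e0).trans he0
      have h2 : cov.monodromy g e0' = ⟨F e0, hFe⟩ := Subtype.ext hF0.symm
      rw [h2]
      exact (mono_comm cov F hFp' (g ^ k : FundamentalGroup M x) e0' hFe).symm
  have hcontk : ∀ k, Continuous F^[k] := fun k => F.continuous.iterate k
  have hn : ∀ v, F^[n] v = v := by
    have h1 : F^[n] = id := by
      refine cov.eq_of_comp_eq (hcontk n) continuous_id (funext fun v => hpFk n v) e0 ?_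
      rw [hFk, hndef, pow_orderOf_eq_one]
      exact congrArg Subtype.val (congrFun cov.monodromy_refl e0')
    intro v
    rw [h1]
    rfl
  have hfree : ∀ v k, 0 < k → k < n → F^[k] v ≠ v := by
    intro v k hk hkn hcon
    have h1 : F^[k] = id :=
      cov.eq_of_comp_eq (hcontk k) continuous_id (funext fun v => hpFk k v) v hcon
    have h2 : cov.monodromy (g ^ k : FundamentalGroup M x) e0' = e0' :=
      Subtype.ext (by rw [← hFk, h1]; rfl)
    have h3 := mono_free cov (g ^ k : FundamentalGroup M x) e0' h2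
    exact absurd (orderOf_le_of_pow_eq_one hk h3) (by omega)
  -- the finite cover
  choose U hUo haU lam hlam hlamloc using
    fun a => exists_lam cov (by omega : 0 < n) F hFp' hn hfree a
  have hcl : ∀ a : M, ∃ C ∈ 𝓝 a, IsClosed C ∧ C ⊆ U a := fun a =>
    exists_mem_nhds_isClosed_subset ((hUo a).mem_nhds (haU a))
  choose C hCn hCc hCU using hcl
  obtain ⟨t, -, ht⟩ := isCompact_univ.elim_nhds_subcover C fun a _ => hCn a
  set L := t.toList with hLdef
  refine no_period hn2 F F.continuous hn L.length (fun j => p ⁻¹' C (L.getD j x))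
    (fun j => p ⁻¹' U (L.getD j x)) (fun j => (hCc _).preimage cov.continuous)
    (fun j => (hUo _).preimage cov.continuous) (fun j => Set.preimage_mono (hCU _)) ?_ ?_ ?_
    (fun j => lam (L.getD j x)) (fun j v hv => hlam _ v hv) (fun j v hv => hlamloc _ v hv)
  · intro v
    obtain ⟨a, ha, hva⟩ : ∃ a ∈ t, p v ∈ C a := by
      have := ht (Set.mem_univ (p v))
      simpa using this
    obtain ⟨j, hj, hja⟩ := List.getElem_of_mem (Finset.mem_toList.2 ha)
    refine ⟨j, hj, ?_⟩
    show p v ∈ C (L.getD j x)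
    rw [List.getD_eq_getElem _ _ hj, hja]
    exact hva
  · intro j v
    rw [Set.mem_preimage, Set.mem_preimage, hpF]
  · intro j v
    rw [Set.mem_preimage, Set.mem_preimage, hpF]

/-- the form needed for `TopHyp.tf` of row 224 -/
theorem torsion_free_manifold (M : Type) [TopologicalSpace M] [T2Space M] [CompactSpace M]
    [ChartedSpace (EuclideanSpace ℝ (Fin 4)) M] (hM : Crest.Topology.HasContractibleCover M)
    (x : M) : ∀ g : FundamentalGroup M x, g ≠ 1 → ∀ N : ℕ, 0 < N → g ^ N ≠ 1 := by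
  have _ : LocallyPathConnectedSpace M :=
    ChartedSpace.locallyPathConnectedSpace (EuclideanSpace ℝ (Fin 4)) M
  exact torsion_free M hM x

end Crest.Agent.R224.TF
end
end

-- ▼ part R224/T/Top
section

set_option autoImplicit false

noncomputable section

open Topology Set Filter

namespace Crest.Agent.R224.T

/-- D3 with local connectedness -/
def NT2L : Prop := ∀ (d : ℕ) (G : Type) [Group G] (E : Type) [TopologicalSpace E] [T2Space E]
  [ContractibleSpace E] [LocallyCompactSpace E] [LocallyConnectedSpace E] [MulAction G E]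
  (S : Finset G) (U : Set E),
  2 ≤ d → Geo S U → ManHyp d E →
  (∃ μ : C(Dl (d + 1), E) → ZMod 2, IsFund μ ∧ ∀ σ, μ σ ≠ 0 → ∃ g : G, range σ ⊆ tr g U) →
  ∀ ψ : G → G → ZMod 2,
    {p : G × G × G | Adj S p.1 p.2.1 ∧ Adj S p.2.1 p.2.2 ∧ Adj S p.1 p.2.2 ∧
      ψ p.1 p.2.1 + ψ p.2.1 p.2.2 ≠ ψ p.1 p.2.2}.Finite →
    ∃ f : G → ZMod 2, {p : G × G | Adj S p.1 p.2 ∧ ψ p.1 p.2 ≠ f p.1 + f p.2}.Finite

theorem manHyp_of (hFill : NFill) (hMan : NMan) (d : ℕ) (E : Type) [TopologicalSpace E] [T2Space E]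
    [ContractibleSpace E] [ChartedSpace (EE (d + 1)) E] : ManHyp d E where
  fill := hFill E
  low := (hMan d E).1
  two := (hMan d E).2.1
  loc := (hMan d E).2.2

theorem nTop_of (hFill : NFill) (hMan : NMan) (hLift : NLift) (hT2 : NT2L) : NTop := by
  intro M _ _ _ _ _ hch x hM
  have hch' : ChartedSpace (EE (3 + 1)) M := hch
  obtain ⟨E, tE, π, act, S, U, hc, hcov, hsurj, hT2E, hlc, ⟨hchE⟩, hπ, hdeck, hgeo⟩ :=
    nGeo 3 M x hM
  have hman : ManHyp 3 E := manHyp_of hFill hMan 3 E
  have hconn : ConnectedSpace E := inferInstance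
  have hlcE : LocallyConnectedSpace E := ChartedSpace.locallyConnectedSpace (EE (3 + 1)) E
  have hcs := Tp.geo_cont hgeo
  obtain ⟨A, -⟩ := Tp.exists_actData hgeo
  have hstd : Std S := A.std
  have hμ : ∃ μ : C(Dl (3 + 1), E) → ZMod 2, IsFund μ ∧
      ∀ σ, μ σ ≠ 0 → ∃ g : FundamentalGroup M x, range σ ⊆ tr g U := by
    have h1 : ∀ V ∈ range fun g : FundamentalGroup M x => tr g U, IsOpen V := by
      rintro _ ⟨g, rfl⟩
      have h1 : tr g U = (fun z : E => g⁻¹ • z) ⁻¹' U := by
        ext z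
        constructor
        · rintro ⟨u, hu, rfl⟩
          simpa using hu
        · intro hz
          exact ⟨g⁻¹ • z, hz, by simp⟩
      show IsOpen (tr g U)
      rw [h1]
      exact hgeo.isOpen.preimage (hgeo.cont g⁻¹)
    have h2 : ⋃₀ (range fun g : FundamentalGroup M x => tr g U) = univ := by
      rw [Set.eq_univ_iff_forall]
      intro z
      obtain ⟨g, u, hu, rfl⟩ := hgeo.cover z
      exact ⟨tr g U, ⟨g, rfl⟩, u, hu, rfl⟩
    have h3 : ∀ V ∈ range fun g : FundamentalGroup M x => tr g U, ∀ g : E ≃ₜ E,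
        (∀ z, π (g z) = π z) → g '' V ∈ range fun g : FundamentalGroup M x => tr g U := by
      rintro _ ⟨g, rfl⟩ f hf
      obtain ⟨k, hk⟩ := hdeck f hf
      refine ⟨k * g, ?_⟩
      ext z
      constructor
      · rintro ⟨u, hu, rfl⟩
        refine ⟨g • u, ⟨u, hu, rfl⟩, ?_⟩
        rw [hk]
        exact (mul_smul k g u).symm
      · rintro ⟨_, ⟨u, hu, rfl⟩, rfl⟩
        refine ⟨u, hu, ?_⟩
        rw [hk]
        exact mul_smul k g u
    obtain ⟨μ, hμ, hsm⟩ := hLift 3 M E π hcov hsurj _ h1 h2 h3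
    refine ⟨μ, hμ, fun σ hσ => ?_⟩
    obtain ⟨V, hV0, hV⟩ := hsm σ hσ
    obtain ⟨g, rfl⟩ := hV0
    exact ⟨g, hV⟩
  refine ⟨S, ⟨hstd, nH1 nGlue (FundamentalGroup M x) E S U hgeo,
    nEnd 3 (FundamentalGroup M x) E S U (by norm_num) hgeo hman hμ,
    hT2 3 (FundamentalGroup M x) E S U (by norm_num) hgeo hman hμ,
    TF.torsion_free_manifold M hM x⟩⟩

end Crest.Agent.R224.T
end
end

-- ▼ part R224/T/Man
section

set_option autoImplicit false

noncomputable section

open Topology Set Filter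

namespace Crest.Agent.R224.T

namespace Man

theorem mapsTo_compl {X Y : Type} {f : X → Y} (hf : Function.Injective f) (L : Set X) :
    MapsTo f Lᶜ (f '' L)ᶜ := by
  intro x hx ⟨y, hy, hyx⟩
  exact hx (hf hyx ▸ hy)

/-- transfer of relative cycles between two spaces having a common open subspace -/
theorem transfer (hExc : NExc) {X Y Z : Type} [TopologicalSpace X] [TopologicalSpace Y]
    [TopologicalSpace Z] (f : C(X, Y)) (g : C(X, Z)) (hf : IsOpenEmbedding f)
    (hg : IsOpenEmbedding g) (L : Set X) (hLf : IsClosed (f '' L)) (q : ℕ) (c : Ch (q + 1) Y)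
    (hc : RC (f '' L)ᶜ c) :
    ∃ c' : Ch (q + 1) Z, RC (g '' L)ᶜ c' ∧
      ∀ M : Set X, M ⊆ L → IsClosed (f '' M) → IsClosed (g '' M) →
        (Nul (f '' M)ᶜ c ↔ Nul (g '' M)ᶜ c') := by
  obtain ⟨c₀, h0, h1⟩ := (hExc X Y f hf L hLf q).1 c hc
  refine ⟨push g (q + 1) c₀, h0.push (mapsTo_compl hg.injective L), ?_⟩
  intro M hM hMf hMg
  have hrc : RC Mᶜ c₀ := h0.mono (compl_subset_compl.2 hM)
  have h2 : Nul (f '' M)ᶜ (c + push f (q + 1) c₀) :=
    h1.mono (compl_subset_compl.2 (image_mono hM))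
  rw [Nul_congr h2, (hExc X Y f hf M hMf q).2 c₀ hrc, (hExc X Z g hg M hMg q).2 c₀ hrc]

/-- a homeomorphism preserves `Nul` -/
theorem Nul_homeo {X Y : Type} [TopologicalSpace X] [TopologicalSpace Y] (t : X ≃ₜ Y) (A : Set X)
    {n : ℕ} (c : Ch n X) : Nul (t '' A)ᶜ (push ⟨t, t.continuous⟩ n c) ↔ Nul Aᶜ c := by
  constructor
  · intro h
    have h1 := h.push (f := ⟨t.symm, t.symm.continuous⟩) (B := Aᶜ) (by
      intro y hy hy'
      exact hy ⟨t.symm y, hy', by simp⟩)
    rw [push_push] at h1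
    have h2 : (ContinuousMap.comp ⟨t.symm, t.symm.continuous⟩ ⟨t, t.continuous⟩ : C(X, X)) =
        ContinuousMap.id X := by
      ext x; simp
    rwa [h2, push_id] at h1
  · intro h
    exact h.push (mapsTo_compl t.injective A)

theorem RC_homeo {X Y : Type} [TopologicalSpace X] [TopologicalSpace Y] (t : X ≃ₜ Y) (A : Set X)
    {n : ℕ} {c : Ch (n + 1) X} (h : RC Aᶜ c) : RC (t '' A)ᶜ (push ⟨t, t.continuous⟩ (n + 1) c) :=
  h.push (mapsTo_compl t.injective A)

/-- `NLoc` at an arbitrary point -/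
theorem loc_at {d : ℕ} (hLoc : NLoc d) (p : EE (d + 1)) :
    (∀ q (c : Ch (q + 1) (EE (d + 1))), q ≠ d → RC {p}ᶜ c → Nul {p}ᶜ c) ∧
    (∀ c c' : Ch (d + 1) (EE (d + 1)), RC {p}ᶜ c → RC {p}ᶜ c' → ¬ Nul {p}ᶜ c → ¬ Nul {p}ᶜ c' →
      Nul {p}ᶜ (c + c')) := by
  set t : EE (d + 1) ≃ₜ EE (d + 1) := Homeomorph.addRight (-p) with ht
  have htp : t '' {p} = {0} := by
    rw [image_singleton]; simp [ht]
  refine ⟨fun q c hq hc => ?_, fun c c' hc hc' hn hn' => ?_⟩
  · have h1 := RC_homeo t {p} hc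
    rw [htp] at h1
    have h2 := hLoc.1 q _ hq h1
    rw [← htp, Nul_homeo] at h2
    exact h2
  · have h1 := RC_homeo t {p} hc
    have h1' := RC_homeo t {p} hc'
    rw [← Nul_homeo t] at hn hn'
    rw [htp] at h1 h1' hn hn'
    have h2 := hLoc.2.2 _ _ h1 h1' hn hn'
    rw [← map_add, ← htp, Nul_homeo] at h2
    exact h2

section

variable {d : ℕ} {Y : Type} [TopologicalSpace Y] [ChartedSpace (EE (d + 1)) Y]

/-- chart domain -/
abbrev Dom (d : ℕ) {Y : Type} [TopologicalSpace Y] [ChartedSpace (EE (d + 1)) Y] (p : Y) : Type :=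
  (chartAt (EE (d + 1)) p).source

/-- inclusion in the manifold -/
def fm (d : ℕ) {Y : Type} [TopologicalSpace Y] [ChartedSpace (EE (d + 1)) Y] (p : Y) :
    C(Dom d p, Y) := ⟨Subtype.val, continuous_subtype_val⟩

/-- the chart -/
def gm (d : ℕ) {Y : Type} [TopologicalSpace Y] [ChartedSpace (EE (d + 1)) Y] (p : Y) :
    C(Dom d p, EE (d + 1)) :=
  ⟨fun x => chartAt (EE (d + 1)) p x, by
    exact (chartAt (EE (d + 1)) p).continuousOn.domRestrict⟩

theorem fm_open (p : Y) : IsOpenEmbedding (fm d p) :=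
  (chartAt (EE (d + 1)) p).open_source.isOpenEmbedding_subtypeVal

theorem gm_open (p : Y) : IsOpenEmbedding (gm d p) :=
  (chartAt (EE (d + 1)) p).isOpenEmbedding_restrict

end

end Man

open Man in
/-- node C1 -/
theorem man_holds (hExc : NExc) (hStar : NStar) (hLoc : NLocAll) : NMan := by
  intro d Y _ _ _
  have key : ∀ (q : ℕ) (p : Y) (c : Ch (q + 1) Y), RC {p}ᶜ c →
      ∃ c' : Ch (q + 1) (EE (d + 1)), RC {chartAt (EE (d + 1)) p p}ᶜ c' ∧
        (Nul {p}ᶜ c ↔ Nul {chartAt (EE (d + 1)) p p}ᶜ c') := by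
    intro q p c hc
    have hx : p ∈ (chartAt (EE (d + 1)) p).source := mem_chart_source _ p
    have h1 : fm d p '' {⟨p, hx⟩} = {p} := by rw [image_singleton]; rfl
    have h2 : gm d p '' {⟨p, hx⟩} = {chartAt (EE (d + 1)) p p} := by rw [image_singleton]; rfl
    obtain ⟨c', h3, h4⟩ := transfer hExc (fm d p) (gm d p) (fm_open p) (gm_open p) {⟨p, hx⟩}
      (by rw [h1]; exact isClosed_singleton) q c (by rw [h1]; exact hc)
    have h5 := h4 _ le_rfl (by rw [h1]; exact isClosed_singleton)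
      (by rw [h2]; exact isClosed_singleton)
    rw [h1, h2] at h5
    rw [h2] at h3
    exact ⟨c', h3, h5⟩
  refine ⟨?_, ?_, ?_⟩
  · intro q hq p c hc
    obtain ⟨c', h1, h2⟩ := key q p c hc
    exact h2.2 ((loc_at (hLoc d) _).1 q c' hq h1)
  · intro p c c' hc hc' hn hn'
    have hx : p ∈ (chartAt (EE (d + 1)) p).source := mem_chart_source _ p
    have h1 : fm d p '' {⟨p, hx⟩} = {p} := by rw [image_singleton]; rfl
    have h2 : gm d p '' {⟨p, hx⟩} = {chartAt (EE (d + 1)) p p} := by rw [image_singleton]; rfl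
    have hcl1 : IsClosed (fm d p '' {⟨p, hx⟩}) := by rw [h1]; exact isClosed_singleton
    have hcl2 : IsClosed (gm d p '' {⟨p, hx⟩}) := by rw [h2]; exact isClosed_singleton
    obtain ⟨a, ha, ha'⟩ := (hExc _ Y (fm d p) (fm_open p) {⟨p, hx⟩} hcl1 d).1 c (by rwa [h1])
    obtain ⟨b, hb, hb'⟩ := (hExc _ Y (fm d p) (fm_open p) {⟨p, hx⟩} hcl1 d).1 c' (by rwa [h1])
    rw [h1] at ha' hb'
    have e1 := (hExc _ Y (fm d p) (fm_open p) {⟨p, hx⟩} hcl1 d).2
    have e2 := (hExc _ _ (gm d p) (gm_open p) {⟨p, hx⟩} hcl2 d).2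
    rw [h1] at e1
    rw [h2] at e2
    have hna : ¬ Nul {chartAt (EE (d + 1)) p p}ᶜ (push (gm d p) (d + 1) a) := by
      rw [e2 a ha, ← e1 a ha, ← Nul_congr ha']; exact hn
    have hnb : ¬ Nul {chartAt (EE (d + 1)) p p}ᶜ (push (gm d p) (d + 1) b) := by
      rw [e2 b hb, ← e1 b hb, ← Nul_congr hb']; exact hn'
    have hra := ha.push (B := {chartAt (EE (d + 1)) p p}ᶜ) (f := gm d p) (by
      rw [← h2]; exact mapsTo_compl (gm_open p).injective _)
    have hrb := hb.push (B := {chartAt (EE (d + 1)) p p}ᶜ) (f := gm d p) (by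
      rw [← h2]; exact mapsTo_compl (gm_open p).injective _)
    have h3 := (loc_at (hLoc d) _).2 _ _ hra hrb hna hnb
    rw [← map_add, e2 (a + b) (ha.add hb), ← e1 (a + b) (ha.add hb), map_add] at h3
    have h4 := (ha'.add hb').add h3
    have h5 : c + push (fm d p) (d + 1) a + (c' + push (fm d p) (d + 1) b) +
        (push (fm d p) (d + 1) a + push (fm d p) (d + 1) b) = c + c' := by
      have e3 := add_self (push (fm d p) (d + 1) a)
      have e4 := add_self (push (fm d p) (d + 1) b)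
      calc _ = c + c' + (push (fm d p) (d + 1) a + push (fm d p) (d + 1) a) +
            (push (fm d p) (d + 1) b + push (fm d p) (d + 1) b) := by abel
        _ = _ := by rw [e3, e4, add_zero, add_zero]
    rwa [h5] at h4
  · intro c p hc
    set φ := chartAt (EE (d + 1)) p with hφ
    obtain ⟨N, hN, hNc⟩ := In.exists_nhds hc
    have hx : p ∈ φ.source := mem_chart_source _ p
    -- a closed ball in the chart
    have hT : φ.target ∩ φ.symm ⁻¹' N ∈ 𝓝 (φ p) := by
      refine inter_mem (φ.open_target.mem_nhds (φ.map_source hx)) ?_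
      have h1 : ContinuousAt φ.symm (φ p) := φ.continuousAt_symm (φ.map_source hx)
      apply h1
      rw [φ.left_inv hx]; exact hN
    obtain ⟨r, hr, hB⟩ := Metric.nhds_basis_closedBall.mem_iff.1 hT
    set B := Metric.closedBall (φ p) r with hBdef
    have hBc : IsCompact B := isCompact_closedBall _ _
    set L : Set (Dom d p) := gm d p ⁻¹' B with hL
    have hgL : gm d p '' L = B := by
      apply Subset.antisymm
      · rintro _ ⟨x, hx, rfl⟩; exact hx
      · intro z hz
        have hz' := hB hz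
        refine ⟨⟨φ.symm z, φ.map_target hz'.1⟩, ?_, ?_⟩
        · show φ (φ.symm z) ∈ B
          rw [φ.right_inv hz'.1]; exact hz
        · show φ (φ.symm z) = z
          exact φ.right_inv hz'.1
    have hfL : fm d p '' L = φ.symm '' B := by
      apply Subset.antisymm
      · rintro _ ⟨x, hx, rfl⟩
        exact ⟨φ x, hx, φ.left_inv x.2⟩
      · rintro _ ⟨z, hz, rfl⟩
        have hz' := hB hz
        refine ⟨⟨φ.symm z, φ.map_target hz'.1⟩, ?_, rfl⟩
        show φ (φ.symm z) ∈ B
        rw [φ.right_inv hz'.1]; exact hz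
    have hfLc : IsClosed (fm d p '' L) := by
      rw [hfL]
      refine (hBc.image_of_continuousOn ?_).isClosed
      exact φ.continuousOn_symm.mono fun z hz => (hB hz).1
    have hLN : fm d p '' L ⊆ N := by
      rw [hfL]
      rintro _ ⟨z, hz, rfl⟩
      exact (hB hz).2
    obtain ⟨c', h3, h4⟩ := transfer hExc (fm d p) (gm d p) (fm_open p) (gm_open p) L hfLc d c
      (hNc.mono (compl_subset_compl.2 hLN))
    rw [hgL] at h3
    have hpt : ∀ x ∈ L, (Nul {(x : Y)}ᶜ c ↔ Nul {φ x}ᶜ c') := by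
      intro x hx
      have h1 : fm d p '' {x} = {(x : Y)} := by rw [image_singleton]; rfl
      have h2 : gm d p '' {x} = {φ x} := by rw [image_singleton]; rfl
      have h5 := h4 {x} (singleton_subset_iff.2 hx) (by rw [h1]; exact isClosed_singleton)
        (by rw [h2]; exact isClosed_singleton)
      rwa [h1, h2] at h5
    have hball : ∀ z ∈ B, ∀ z' ∈ B, Nul {z}ᶜ c' → Nul {z'}ᶜ c' := by
      intro z hz z' hz' h
      have h6 := hStar (d + 1) d B z hBc hz ((convex_closedBall _ _).starConvex hz) c' h3 h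
      exact h6.mono (compl_subset_compl.2 (singleton_subset_iff.2 hz'))
    have hpL : (⟨p, hx⟩ : Dom d p) ∈ L := Metric.mem_closedBall_self hr.le
    have hnb : fm d p '' L ∈ 𝓝 p := by
      have h7 : L ∈ 𝓝 (⟨p, hx⟩ : Dom d p) := by
        refine (gm d p).continuous.continuousAt.preimage_mem_nhds ?_
        exact Metric.closedBall_mem_nhds _ hr
      exact (fm_open p).isOpenMap.image_mem_nhds h7
    filter_upwards [hnb] with q hq
    obtain ⟨x, hxL, rfl⟩ := hq
    refine ⟨hNc.mono (compl_subset_compl.2 ?_), ?_⟩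
    · exact singleton_subset_iff.2 (hLN ⟨x, hxL, rfl⟩)
    · show Nul {(x : Y)}ᶜ c ↔ Nul {p}ᶜ c
      rw [hpt x hxL, hpt ⟨p, hx⟩ hpL]
      exact ⟨hball _ hxL _ hpL, hball _ hpL _ hxL⟩

end Crest.Agent.R224.T
end
end

-- ▼ part R224/MVabs
section

set_option autoImplicit false

namespace Crest.Agent.R224.TM

open Set

/-- An abstract mod 2 chain theory on a space `X`: chains, supports, boundary, subdivision. -/
structure ChTh (X : Type*) [TopologicalSpace X] where
  C : ℕ → Type
  grp : ∀ k, AddCommGroup (C k)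
  two : ∀ k (c : C k), c + c = 0
  d : ∀ k, C (k + 1) →+ C k
  dd : ∀ k (c : C (k + 2)), d k (d (k + 1) c) = 0
  In : Set X → ∀ k, AddSubgroup (C k)
  In_mono : ∀ {A B : Set X} (k : ℕ), A ⊆ B → In A k ≤ In B k
  In_inter : ∀ {A B : Set X} {k : ℕ} {c : C k}, c ∈ In A k → c ∈ In B k → c ∈ In (A ∩ B) k
  In_univ : ∀ {k : ℕ} (c : C k), c ∈ In univ k
  In_d : ∀ {A : Set X} {k : ℕ} {c : C (k + 1)}, c ∈ In A (k + 1) → d k c ∈ In A k
  cpt : ∀ {A : Set X} {k : ℕ} {c : C k}, c ∈ In A k → ∃ L : Set X, L ⊆ A ∧ IsCompact L ∧ c ∈ In L k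
  sd : ℕ → ∀ k, C k →+ C k
  T : ℕ → ∀ k, C k →+ C (k + 1)
  sd_eq : ∀ (m k : ℕ) (c : C (k + 1)),
    sd m (k + 1) c + c = d (k + 1) (T m (k + 1) c) + T m k (d k c)
  sd_In : ∀ {A : Set X} (m : ℕ) {k : ℕ} {c : C k}, c ∈ In A k → sd m k c ∈ In A k
  T_In : ∀ {A : Set X} (m : ℕ) {k : ℕ} {c : C k}, c ∈ In A k → T m k c ∈ In A (k + 1)
  small : ∀ {U V A : Set X}, IsOpen U → IsOpen V → ∀ {k : ℕ} {c : C k}, c ∈ In ((U ∪ V) ∩ A) k →
    ∃ (m : ℕ) (a b : C k), a ∈ In (U ∩ A) k ∧ b ∈ In (V ∩ A) k ∧ sd m k c = a + b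

attribute [instance] ChTh.grp

namespace ChTh

variable {X : Type*} [TopologicalSpace X] (S : ChTh X)

/-- `w` is null over `A` : homologous to a chain avoiding `A`. -/
def Null (A : Set X) (k : ℕ) (w : S.C k) : Prop :=
  ∃ (u : S.C (k + 1)) (v : S.C k), v ∈ S.In Aᶜ k ∧ w = S.d k u + v

/-- every relative `(k+1)`-cycle over `A` is null -/
def Van (A : Set X) (k : ℕ) : Prop :=
  ∀ w : S.C (k + 1), S.d k w ∈ S.In Aᶜ k → S.Null A (k + 1) w

variable {S}

lemma eq_of_add {k : ℕ} {a b c : S.C k} (h : a + b = c) : a = c + b := by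
  rw [← h, add_assoc, S.two, add_zero]


lemma Null.mono {A B : Set X} (hAB : A ⊆ B) {k : ℕ} {w : S.C k} (h : S.Null B k w) :
    S.Null A k w := by
  obtain ⟨u, v, hv, e⟩ := h
  exact ⟨u, v, S.In_mono k (compl_subset_compl.2 hAB) hv, e⟩

lemma Null.add {A : Set X} {k : ℕ} {w w' : S.C k} (h : S.Null A k w) (h' : S.Null A k w') :
    S.Null A k (w + w') := by
  obtain ⟨u, v, hv, e⟩ := h
  obtain ⟨u', v', hv', e'⟩ := h'
  refine ⟨u + u', v + v', AddSubgroup.add_mem _ hv hv', ?_⟩
  rw [e, e', map_add]; abel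

lemma Null.of_In {A : Set X} {k : ℕ} {w : S.C k} (h : w ∈ S.In Aᶜ k) : S.Null A k w :=
  ⟨0, w, h, by rw [map_zero, zero_add]⟩

lemma Null.of_d {A : Set X} {k : ℕ} (u : S.C (k + 1)) : S.Null A k (S.d k u) :=
  ⟨u, 0, AddSubgroup.zero_mem _, by rw [add_zero]⟩

lemma Null.empty {k : ℕ} (w : S.C k) : S.Null ∅ k w :=
  Null.of_In (by rw [compl_empty]; exact S.In_univ w)

/-- Mayer–Vietoris step. -/
lemma Null.union {A B : Set X} (hA : IsClosed A) (hB : IsClosed B) {k : ℕ} {w : S.C k}
    (h1 : S.Null A k w) (h2 : S.Null B k w) (h3 : S.Van (A ∩ B) k) : S.Null (A ∪ B) k w := by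
  obtain ⟨u, v, hv, e⟩ := h1
  obtain ⟨u', v', hv', e'⟩ := h2
  have hz : S.d k (u + u') = v + v' := by
    have : S.d k u + v = S.d k u' + v' := by rw [← e, ← e']
    rw [map_add]
    have h := congrArg (fun t => t + S.d k u' + v) this
    have h4 : S.d k u + v + S.d k u' + v = S.d k u + S.d k u' := by
      calc S.d k u + v + S.d k u' + v = (S.d k u + S.d k u') + (v + v) := by abel
        _ = _ := by rw [S.two, add_zero]
    have h5 : S.d k u' + v' + S.d k u' + v = v + v' := by
      calc S.d k u' + v' + S.d k u' + v = (v + v') + (S.d k u' + S.d k u') := by abel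
        _ = _ := by rw [S.two, add_zero]
    rw [h4, h5] at h
    exact h
  have hin : S.d k (u + u') ∈ S.In (A ∩ B)ᶜ k := by
    rw [hz, compl_inter]
    exact AddSubgroup.add_mem _ (S.In_mono k subset_union_left hv)
      (S.In_mono k subset_union_right hv')
  obtain ⟨y, t, ht, ez⟩ := h3 _ hin
  have ht' : t ∈ S.In ((Aᶜ ∪ Bᶜ) ∩ univ) (k + 1) := by
    rw [inter_univ, ← compl_inter]; exact ht
  obtain ⟨m, a, b, ha, hb, eab⟩ := S.small hA.isOpen_compl hB.isOpen_compl ht'
  rw [inter_univ] at ha hb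
  have hdt : S.d k t = v + v' := by
    rw [← hz, ez, map_add, S.dd, zero_add]
  have e1 := S.sd_eq m k t
  rw [hdt, eab, map_add] at e1
  -- a + b + t = d T t + (T v + T v')
  refine ⟨u + a + S.T m k v, w + S.d k (u + a + S.T m k v), ?_, ?_⟩
  · rw [compl_union]
    refine S.In_inter ?_ ?_
    · have : w + S.d k (u + a + S.T m k v) = v + S.d k (a + S.T m k v) := by
        rw [e, add_assoc u, map_add (S.d k) u]
        calc S.d k u + v + (S.d k u + S.d k (a + S.T m k v))
            = (S.d k u + S.d k u) + (v + S.d k (a + S.T m k v)) := by abel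
          _ = _ := by rw [S.two, zero_add]
      rw [this]
      exact AddSubgroup.add_mem _ hv (S.In_d (AddSubgroup.add_mem _ ha (S.T_In m hv)))
    · have hu : u + a + S.T m k v = u' + b + S.T m k v' + S.d (k + 1) (y + S.T m (k + 1) t) := by
        have h6 : u = S.d (k + 1) y + t + u' := eq_of_add ez
        have h7 : a = S.d (k + 1) (S.T m (k + 1) t) + (S.T m k v + S.T m k v') + t + b := by
          have := eq_of_add e1
          -- a + b = ... + t
          exact eq_of_add this
        calc u + a + S.T m k v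
            = (S.d (k + 1) y + t + u')
              + (S.d (k + 1) (S.T m (k + 1) t) + (S.T m k v + S.T m k v') + t + b)
              + S.T m k v := by rw [← h6, ← h7]
          _ = u' + b + S.T m k v' + (S.d (k + 1) y + S.d (k + 1) (S.T m (k + 1) t))
              + (t + t) + (S.T m k v + S.T m k v) := by abel
          _ = _ := by rw [S.two, S.two, add_zero, add_zero, map_add]
      have : w + S.d k (u + a + S.T m k v) = v' + S.d k (b + S.T m k v') := by
        rw [hu, map_add (S.d k) _ (S.d (k + 1) _), S.dd, add_zero, e', add_assoc u',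
          map_add (S.d k) u']
        calc S.d k u' + v' + (S.d k u' + S.d k (b + S.T m k v'))
            = (S.d k u' + S.d k u') + (v' + S.d k (b + S.T m k v')) := by abel
          _ = _ := by rw [S.two, zero_add]
      rw [this]
      exact AddSubgroup.add_mem _ hv' (S.In_d (AddSubgroup.add_mem _ hb (S.T_In m hv')))
  · calc w = w + (S.d k (u + a + S.T m k v) + S.d k (u + a + S.T m k v)) := by
          rw [S.two, add_zero]
      _ = _ := by abel

lemma Van.union {A B : Set X} (hA : IsClosed A) (hB : IsClosed B) {k : ℕ}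
    (h1 : S.Van A k) (h2 : S.Van B k) (h3 : S.Van (A ∩ B) (k + 1)) : S.Van (A ∪ B) k := by
  intro w hw
  refine Null.union hA hB (h1 w ?_) (h2 w ?_) h3
  · exact S.In_mono k (compl_subset_compl.2 subset_union_left) hw
  · exact S.In_mono k (compl_subset_compl.2 subset_union_right) hw

/-- Null over `A` is invariant under subdivision. -/
lemma null_sd_iff {A : Set X} (m : ℕ) {k : ℕ} {w : S.C (k + 1)} (hw : S.d k w ∈ S.In Aᶜ k) :
    S.Null A (k + 1) (S.sd m (k + 1) w) ↔ S.Null A (k + 1) w := by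
  have h1 := S.sd_eq m k w
  have h2 : S.Null A (k + 1) (S.sd m (k + 1) w + w) := by
    rw [h1]
    exact (Null.of_d _).add (Null.of_In (S.T_In m hw))
  constructor
  · intro h
    have := h2.add h
    have e : S.sd m (k + 1) w + w + S.sd m (k + 1) w = w := by
      calc _ = w + (S.sd m (k + 1) w + S.sd m (k + 1) w) := by abel
        _ = w := by rw [S.two, add_zero]
    rwa [e] at this
  · intro h
    have := h2.add h
    have e : S.sd m (k + 1) w + w + w = S.sd m (k + 1) w := by
      rw [add_assoc, S.two, add_zero]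
    rwa [e] at this

end ChTh

end Crest.Agent.R224.TM
end

-- ▼ part R224/MVRn
section

set_option autoImplicit false

namespace Crest.Agent.R224.TM

open Set ChTh

variable {E : Type*} [NormedAddCommGroup E] [NormedSpace ℝ E]

/-- radial expansions with their prism operators -/
def HasExp (S : ChTh E) : Prop :=
  ∀ (x : E) (R : ℝ), 1 ≤ R → ∃ (h : ∀ k, S.C k →+ S.C k) (P : ∀ k, S.C k →+ S.C (k + 1)),
    (∀ k (c : S.C (k + 1)), h (k + 1) c + c = S.d (k + 1) (P (k + 1) c) + P k (S.d k c)) ∧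
    (∀ (A : Set E) (k : ℕ) (c : S.C k), c ∈ S.In A k →
      h k c ∈ S.In ((fun y => x + R • (y - x)) '' A) k) ∧
    (∀ (A : Set E) (k : ℕ) (c : S.C k), c ∈ S.In A k →
      P k c ∈ S.In {z | ∃ s ∈ Icc (1 : ℝ) R, ∃ y ∈ A, z = x + s • (y - x)} (k + 1))

variable {S : ChTh E}

lemma exp_compl {B : Set E} {x : E} (hB : StarConvex ℝ x B) {y : E} (hy : y ∉ B) {s : ℝ}
    (hs : 1 ≤ s) : x + s • (y - x) ∉ B := by
  intro hz
  apply hy
  have h0 : 0 < s := by linarith
  have h1 : (1 - s⁻¹) • x + s⁻¹ • (x + s • (y - x)) = y := by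
    rw [smul_add, smul_smul, inv_mul_cancel₀ h0.ne', one_smul, sub_smul, one_smul]
    abel
  rw [← h1]
  have h2 : s⁻¹ ≤ 1 := inv_le_one_of_one_le₀ hs
  exact hB hz (by linarith) (by positivity) (by ring)

lemma exp_far {B L : Set E} (hB : IsCompact B) (hL : IsCompact L) {x : E} (hx : x ∉ L) :
    ∃ R : ℝ, 1 ≤ R ∧ ∀ y ∈ L, x + R • (y - x) ∉ B := by
  rcases L.eq_empty_or_nonempty with h | hne
  · exact ⟨1, le_rfl, by simp [h]⟩
  obtain ⟨y0, hy0, hmin⟩ := hL.exists_isMinOn hne (f := fun y => ‖y - x‖) (by fun_prop)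
  obtain ⟨M, hM⟩ := hB.isBounded.exists_norm_le
  have h0 : 0 < ‖y0 - x‖ := by
    rw [norm_pos_iff, sub_ne_zero]; rintro rfl; exact hx hy0
  refine ⟨max 1 ((M + ‖x‖ + 1) / ‖y0 - x‖), le_max_left _ _, ?_⟩
  intro y hy hc
  have h1 := hM _ hc
  have h2 : ‖y0 - x‖ ≤ ‖y - x‖ := hmin hy
  set R := max 1 ((M + ‖x‖ + 1) / ‖y0 - x‖) with hR
  have hRpos : 0 < R := lt_of_lt_of_le one_pos (le_max_left _ _)
  have h3 : M + ‖x‖ + 1 ≤ R * ‖y0 - x‖ := by
    have := le_max_right 1 ((M + ‖x‖ + 1) / ‖y0 - x‖)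
    rw [← hR, div_le_iff₀ h0] at this
    exact this
  have h4 : ‖R • (y - x)‖ = R * ‖y - x‖ := by
    rw [norm_smul, Real.norm_eq_abs, abs_of_pos hRpos]
  have h5 : ‖R • (y - x)‖ ≤ ‖x + R • (y - x)‖ + ‖x‖ := by
    calc ‖R • (y - x)‖ = ‖(x + R • (y - x)) - x‖ := by congr 1; abel
      _ ≤ _ := norm_sub_le _ _
  have h6 : R * ‖y0 - x‖ ≤ R * ‖y - x‖ := by gcongr
  rw [h4] at h5
  linarith

/-- base case: a star-shaped compact set -/
lemma null_star (hE : HasExp S) {B : Set E} {x : E} (hB : StarConvex ℝ x B) (hBc : IsCompact B)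
    {k : ℕ} {w : S.C (k + 1)} (hw : S.d k w ∈ S.In Bᶜ k)
    (h : S.Null {x} (k + 1) w) : S.Null B (k + 1) w := by
  obtain ⟨u, v, hv, e⟩ := h
  obtain ⟨L, hL, hLc, hvL⟩ := S.cpt hv
  have hxL : x ∉ L := fun h => hL h rfl
  obtain ⟨R, hR, hfar⟩ := exp_far hBc hLc hxL
  obtain ⟨h, P, h1, h2, h3⟩ := hE x R hR
  have hdv : S.d k v ∈ S.In Bᶜ k := by
    have : S.d k v = S.d k w := by rw [e, map_add, S.dd, zero_add]
    rw [this]; exact hw
  have e1 := h1 k v
  refine ⟨u + P (k + 1) v, h (k + 1) v + P k (S.d k v), ?_, ?_⟩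
  · refine AddSubgroup.add_mem _ (S.In_mono _ ?_ (h2 L _ _ hvL)) (S.In_mono _ ?_ (h3 Bᶜ _ _ hdv))
    · rintro _ ⟨y, hy, rfl⟩
      exact hfar y hy
    · rintro _ ⟨s, hs, y, hy, rfl⟩
      exact exp_compl hB hy hs.1
  · rw [e, map_add]
    have e2 : v = S.d (k + 1) (P (k + 1) v) + P k (S.d k v) + h (k + 1) v := by
      have e3 : v + h (k + 1) v = S.d (k + 1) (P (k + 1) v) + P k (S.d k v) := by
        exact (add_comm _ _).trans e1
      exact eq_of_add e3
    calc S.d (k + 1) u + v
        = S.d (k + 1) u + (S.d (k + 1) (P (k + 1) v) + P k (S.d k v) + h (k + 1) v) := by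
          rw [← e2]
      _ = _ := by abel

/-- base case: a convex compact set -/
lemma null_convex (hE : HasExp S) {B : Set E} (hB : Convex ℝ B) (hBc : IsCompact B) {x : E}
    (hx : x ∈ B) {k : ℕ} {w : S.C (k + 1)} (hw : S.d k w ∈ S.In Bᶜ k)
    (h : S.Null {x} (k + 1) w) : S.Null B (k + 1) w :=
  null_star hE (hB.starConvex hx) hBc hw h

/-- finite unions of convex compact sets -/
inductive CU : ℕ → Set E → Prop
  | zero : CU 0 ∅
  | succ {m : ℕ} {A B : Set E} : CU m A → Convex ℝ B → IsCompact B → CU (m + 1) (A ∪ B)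

lemma CU.isCompact {m : ℕ} {A : Set E} (h : CU m A) : IsCompact A := by
  induction h with
  | zero => exact isCompact_empty
  | succ _ _ hB ih => exact ih.union hB

lemma CU.inter {m : ℕ} {A : Set E} (h : CU m A) {C : Set E} (hC : Convex ℝ C)
    (hCc : IsCompact C) : CU m (A ∩ C) := by
  induction h with
  | zero => rw [empty_inter]; exact CU.zero
  | succ _ hB hBc ih =>
    rw [union_inter_distrib_right]
    exact CU.succ ih (hB.inter hC) (hBc.inter hCc)

lemma van_convex (hE : HasExp S) {k : ℕ} (hv : ∀ x : E, S.Van {x} k) {B : Set E}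
    (hB : Convex ℝ B) (hBc : IsCompact B) : S.Van B k := by
  intro w hw
  rcases B.eq_empty_or_nonempty with h | ⟨x, hx⟩
  · subst h; exact Null.empty w
  · refine null_convex hE hB hBc hx hw (hv x w ?_)
    exact S.In_mono k (compl_subset_compl.2 (singleton_subset_iff.2 hx)) hw

lemma van_CU (hE : HasExp S) {n : ℕ} (hv : ∀ k, n ≤ k → ∀ x : E, S.Van {x} k) :
    ∀ (m : ℕ) (A : Set E), CU m A → ∀ k, n ≤ k → S.Van A k := by
  intro m
  induction m with
  | zero =>
    intro A hA k _ w _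
    cases hA
    exact Null.empty w
  | succ m ih =>
    intro A hA k hk
    cases hA with
    | succ h1 hB hBc =>
      refine Van.union h1.isCompact.isClosed hBc.isClosed (ih _ h1 k hk)
        (van_convex hE (hv k hk) hB hBc) (ih _ (h1.inter hB hBc) (k + 1) (by omega))

lemma cu_balls (hp : ∀ (x : E) (r : ℝ), IsCompact (Metric.closedBall x r)) (t : Finset E)
    (r : ℝ) : ∃ m, CU m (⋃ x ∈ t, Metric.closedBall x r) := by
  classical
  induction t using Finset.induction_on with
  | empty => exact ⟨0, by simpa using CU.zero⟩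
  | insert a s ha ih =>
    obtain ⟨m, hm⟩ := ih
    refine ⟨m + 1, ?_⟩
    rw [Finset.set_biUnion_insert, union_comm]
    exact CU.succ hm (convex_closedBall a r) (hp a r)

/-- **M5(b)** : over an arbitrary compact set, in degree `k + 1 = n`. -/
theorem null_compact (hp : ∀ (x : E) (r : ℝ), IsCompact (Metric.closedBall x r))
    (hE : HasExp S) {k : ℕ} (hv : ∀ j, k + 1 ≤ j → ∀ x : E, S.Van {x} j)
    {K : Set E} (hK : IsCompact K) {w : S.C (k + 1)} (hw : S.d k w ∈ S.In Kᶜ k)
    (h : ∀ x ∈ K, S.Null {x} (k + 1) w) : S.Null K (k + 1) w := by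
  classical
  obtain ⟨L, hL, hLc, hwL⟩ := S.cpt hw
  have hKL : K ⊆ Lᶜ := by
    intro y hy hyL
    exact hL hyL hy
  obtain ⟨δ, hδ, hthick⟩ := hK.exists_thickening_subset_open hLc.isClosed.isOpen_compl hKL
  obtain ⟨t, ht, hcov⟩ := hK.elim_nhds_subcover (fun x => Metric.closedBall x (δ / 2))
    (fun x _ => Metric.closedBall_mem_nhds x (by linarith))
  have key : ∀ s : Finset E, s ⊆ t → S.Null (⋃ x ∈ s, Metric.closedBall x (δ / 2)) (k + 1) w := by
    intro s
    induction s using Finset.induction_on with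
    | empty => intro _; simpa using (Null.empty w : S.Null ∅ (k + 1) w)
    | insert a s ha ih =>
      intro hs
      rw [Finset.set_biUnion_insert, union_comm]
      obtain ⟨m, hm⟩ := cu_balls hp s (δ / 2)
      have hat : a ∈ t := hs (Finset.mem_insert_self a s)
      refine Null.union hm.isCompact.isClosed (hp a _).isClosed
        (ih (fun x hx => hs (Finset.mem_insert_of_mem hx))) ?_ ?_
      · refine null_convex hE (convex_closedBall a _) (hp a _)
          (Metric.mem_closedBall_self (by linarith)) ?_ (h a (ht a hat))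
        refine S.In_mono k ?_ hwL
        intro y hyL hy
        have : y ∈ Metric.thickening δ K := by
          rw [Metric.mem_thickening_iff]
          exact ⟨a, ht a hat, lt_of_le_of_lt (Metric.mem_closedBall.1 hy) (by linarith)⟩
        exact hthick this hyL
      · exact van_CU hE hv m _ (hm.inter (convex_closedBall a _) (hp a _)) (k + 1) le_rfl
  refine (key t (Finset.Subset.refl t)).mono hcov

end Crest.Agent.R224.TM
end

-- ▼ part R224/MVFund
section

set_option autoImplicit false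

namespace Crest.Agent.R224.TM

open Set ChTh

section glue

variable {X : Type*} [TopologicalSpace X] {S : ChTh X}

/-- `w` is a chain whose boundary avoids `A` and which is non-null at every point of `A`. -/
def Fund (S : ChTh X) (A : Set X) (k : ℕ) (w : S.C (k + 1)) : Prop :=
  S.d k w ∈ S.In Aᶜ k ∧ ∀ y ∈ A, ¬ S.Null {y} (k + 1) w

lemma not_null_of_add {y : X} {k : ℕ} {w w' : S.C k} (h : ¬ S.Null {y} k w)
    (h' : S.Null {y} k w') : ¬ S.Null {y} k (w + w') := by
  intro h2
  apply h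
  have := h2.add h'
  rwa [add_assoc, S.two, add_zero] at this

lemma null_single_of_In {A : Set X} {y : X} (hy : y ∈ A) {k : ℕ} {w : S.C k}
    (h : w ∈ S.In Aᶜ k) : S.Null {y} k w :=
  Null.of_In (S.In_mono k (compl_subset_compl.2 (singleton_subset_iff.2 hy)) h)

/-- gluing step -/
lemma Fund.union {A B : Set X} (hA : IsClosed A) (hB : IsClosed B) {k : ℕ} {w w' : S.C (k + 1)}
    (h1 : Fund S A k w) (h2 : Fund S B k w') (h3 : S.Null (A ∩ B) (k + 1) (w + w')) :
    ∃ w'' : S.C (k + 1), Fund S (A ∪ B) k w'' := by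
  obtain ⟨u, v, hv, e⟩ := h3
  have hv' : v ∈ S.In ((Aᶜ ∪ Bᶜ) ∩ univ) (k + 1) := by
    rw [inter_univ, ← compl_inter]; exact hv
  obtain ⟨m, a, b, ha, hb, eab⟩ := S.small hA.isOpen_compl hB.isOpen_compl hv'
  rw [inter_univ] at ha hb
  have hdv : S.d k v = S.d k w + S.d k w' := by
    have := congrArg (S.d k) e
    rw [map_add, map_add, S.dd, zero_add] at this
    exact this.symm
  have e1 := S.sd_eq m k v
  rw [hdv, eab, map_add] at e1
  -- a + b + v = d T v + (T dw + T dw')
  have ev : v = S.d (k + 1) (S.T m (k + 1) v) + (S.T m k (S.d k w) + S.T m k (S.d k w'))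
      + (a + b) := eq_of_add ((add_comm _ _).trans e1)
  have hw : w + a + S.T m k (S.d k w)
      = w' + b + S.T m k (S.d k w') + S.d (k + 1) (u + S.T m (k + 1) v) := by
    have e2 : w = S.d (k + 1) u + v + w' := eq_of_add e
    calc w + a + S.T m k (S.d k w)
        = S.d (k + 1) u + v + w' + a + S.T m k (S.d k w) := by rw [← e2]
      _ = S.d (k + 1) u + (S.d (k + 1) (S.T m (k + 1) v) + (S.T m k (S.d k w)
            + S.T m k (S.d k w')) + (a + b)) + w' + a + S.T m k (S.d k w) := by rw [← ev]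
      _ = w' + b + S.T m k (S.d k w') + (S.d (k + 1) u + S.d (k + 1) (S.T m (k + 1) v))
            + (a + a) + (S.T m k (S.d k w) + S.T m k (S.d k w)) := by abel
      _ = _ := by rw [S.two, S.two, add_zero, add_zero, map_add]
  have hTA : S.T m k (S.d k w) ∈ S.In Aᶜ (k + 1) := S.T_In m h1.1
  have hTB : S.T m k (S.d k w') ∈ S.In Bᶜ (k + 1) := S.T_In m h2.1
  refine ⟨w + a + S.T m k (S.d k w), ?_, ?_⟩
  · rw [compl_union]
    refine S.In_inter ?_ ?_
    · rw [map_add, map_add]
      exact AddSubgroup.add_mem _ (AddSubgroup.add_mem _ h1.1 (S.In_d ha)) (S.In_d hTA)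
    · rw [hw, map_add, S.dd, add_zero, map_add, map_add]
      exact AddSubgroup.add_mem _ (AddSubgroup.add_mem _ h2.1 (S.In_d hb)) (S.In_d hTB)
  · rintro y (hy | hy)
    · rw [add_assoc]
      exact not_null_of_add (h1.2 y hy)
        (null_single_of_In hy (AddSubgroup.add_mem _ ha hTA))
    · rw [hw, add_assoc w', add_assoc w']
      exact not_null_of_add (h2.2 y hy)
        ((null_single_of_In hy (AddSubgroup.add_mem _ hb hTB)).add (Null.of_d _))

/-- **M6, abstract form** -/
theorem exists_fund [T2Space X] [CompactSpace X] {k : ℕ}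
    (L1 : ∀ (x : X) (w w' : S.C (k + 1)), S.d k w ∈ S.In {x}ᶜ k → S.d k w' ∈ S.In {x}ᶜ k →
      ¬ S.Null {x} (k + 1) w → ¬ S.Null {x} (k + 1) w' → S.Null {x} (k + 1) (w + w'))
    (L2 : ∀ x : X, ∃ B : Set X, IsCompact B ∧ B ∈ nhds x ∧ (∃ w, Fund S B k w) ∧
      ∀ K : Set X, IsCompact K → K ⊆ B → ∀ w : S.C (k + 1), S.d k w ∈ S.In Kᶜ k →
        (∀ y ∈ K, S.Null {y} (k + 1) w) → S.Null K (k + 1) w) :
    ∃ μ : S.C (k + 1), Fund S univ k μ := by
  classical
  choose B hBc hBn hBw hBK using L2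
  obtain ⟨t, -, ht⟩ := isCompact_univ.elim_nhds_subcover B (fun x _ => hBn x)
  have key : ∀ s : Finset X, ∃ w, Fund S (⋃ x ∈ s, B x) k w := by
    intro s
    induction s using Finset.induction_on with
    | empty =>
      refine ⟨0, ?_, by simp⟩
      rw [map_zero]; exact AddSubgroup.zero_mem _
    | insert a s ha ih =>
      obtain ⟨w, hw⟩ := ih
      obtain ⟨w', hw'⟩ := hBw a
      rw [Finset.set_biUnion_insert, union_comm]
      have hAc : IsCompact (⋃ x ∈ s, B x) := s.isCompact_biUnion fun x _ => hBc x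
      refine Fund.union hAc.isClosed (hBc a).isClosed hw hw' ?_
      refine hBK a _ (hAc.inter (hBc a)) inter_subset_right _ ?_ ?_
      · rw [map_add, compl_inter]
        exact AddSubgroup.add_mem _ (S.In_mono k subset_union_left hw.1)
          (S.In_mono k subset_union_right hw'.1)
      · intro y hy
        refine L1 y w w' ?_ ?_ (hw.2 y hy.1) (hw'.2 y hy.2)
        · exact S.In_mono k (compl_subset_compl.2 (singleton_subset_iff.2 hy.1)) hw.1
        · exact S.In_mono k (compl_subset_compl.2 (singleton_subset_iff.2 hy.2)) hw'.1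
  obtain ⟨w, hw⟩ := key t
  have : (⋃ x ∈ t, B x) = univ := univ_subset_iff.1 ht
  rw [this] at hw
  exact ⟨w, hw⟩

end glue

section exc

variable {X : Type*} [TopologicalSpace X] {S : ChTh X}

/-- excision, first form -/
lemma exc1 {V A : Set X} (hV : IsOpen V) (hA : IsClosed A) (hAV : A ⊆ V) {k : ℕ}
    {w : S.C (k + 1)} (hw : S.d k w ∈ S.In Aᶜ k) :
    ∃ w' : S.C (k + 1), w' ∈ S.In V (k + 1) ∧ S.d k w' ∈ S.In (V ∩ Aᶜ) k ∧
      S.Null A (k + 1) (w + w') := by
  have hw0 : w ∈ S.In ((V ∪ Aᶜ) ∩ univ) (k + 1) := by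
    have : (V ∪ Aᶜ) ∩ univ = univ := by
      rw [inter_univ, eq_univ_iff_forall]
      intro x
      by_cases hx : x ∈ A
      · exact Or.inl (hAV hx)
      · exact Or.inr hx
    rw [this]; exact S.In_univ w
  obtain ⟨m, a, b, ha, hb, eab⟩ := S.small hV hA.isOpen_compl hw0
  rw [inter_univ] at ha hb
  have e1 := S.sd_eq m k w
  have h2 : w + a = S.d (k + 1) (S.T m (k + 1) w) + (b + S.T m k (S.d k w)) := by
    have e3 : a = S.sd m (k + 1) w + b := eq_of_add eab.symm
    calc w + a = (S.sd m (k + 1) w + w) + b := by rw [e3]; abel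
      _ = _ := by rw [e1]; abel
  have hnull : S.Null A (k + 1) (w + a) :=
    ⟨_, _, AddSubgroup.add_mem _ hb (S.T_In m hw), h2⟩
  refine ⟨a, ha, S.In_inter (S.In_d ha) ?_, hnull⟩
  have h4 : S.d k a = S.d k w + (S.d k b + S.d k (S.T m k (S.d k w))) := by
    have := congrArg (S.d k) h2
    rw [map_add, map_add, S.dd, zero_add, map_add] at this
    have h5 : S.d k a + S.d k w = S.d k b + S.d k (S.T m k (S.d k w)) :=
      (add_comm _ _).trans this
    exact (eq_of_add h5).trans (add_comm _ _)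
  rw [h4]
  exact AddSubgroup.add_mem _ hw (AddSubgroup.add_mem _ (S.In_d hb) (S.In_d (S.T_In m hw)))

/-- excision, second form -/
lemma exc2 {V A : Set X} (hV : IsOpen V) (hA : IsClosed A) (hAV : A ⊆ V) {k : ℕ}
    {w : S.C (k + 1)} (hwV : w ∈ S.In V (k + 1)) (h : S.Null A (k + 1) w) :
    ∃ (u : S.C (k + 2)) (v : S.C (k + 1)), u ∈ S.In V (k + 2) ∧ v ∈ S.In (V ∩ Aᶜ) (k + 1) ∧
      w = S.d (k + 1) u + v := by
  obtain ⟨u, v, hv, e⟩ := h
  have hu0 : u ∈ S.In ((V ∪ Aᶜ) ∩ univ) (k + 2) := by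
    have : (V ∪ Aᶜ) ∩ univ = univ := by
      rw [inter_univ, eq_univ_iff_forall]
      intro x
      by_cases hx : x ∈ A
      · exact Or.inl (hAV hx)
      · exact Or.inr hx
    rw [this]; exact S.In_univ u
  obtain ⟨m, a, b, ha, hb, eab⟩ := S.small hV hA.isOpen_compl hu0
  rw [inter_univ] at ha hb
  have e1 := S.sd_eq m (k + 1) u
  have hdu : S.d (k + 1) u = w + v := eq_of_add e.symm
  rw [hdu, eab, map_add] at e1
  -- a + b + u = d T u + (T w + T v)
  have e2 := congrArg (S.d (k + 1)) e1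
  rw [map_add, map_add, map_add, map_add, S.dd, zero_add] at e2
  -- d a + d b + d u = d T w + d T v
  have e3 : w = S.d (k + 1) (a + S.T m (k + 1) w)
      + (S.d (k + 1) b + S.d (k + 1) (S.T m (k + 1) v) + v) := by
    have e4 : S.d (k + 1) u = S.d (k + 1) (S.T m (k + 1) w) + S.d (k + 1) (S.T m (k + 1) v)
        + (S.d (k + 1) a + S.d (k + 1) b) := eq_of_add ((add_comm _ _).trans e2)
    calc w = S.d (k + 1) u + v := e
      _ = _ := by rw [e4, map_add]; abel
  refine ⟨a + S.T m (k + 1) w, _, AddSubgroup.add_mem _ ha (S.T_In m hwV),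
    S.In_inter ?_ ?_, e3⟩
  · have : S.d (k + 1) b + S.d (k + 1) (S.T m (k + 1) v) + v
        = w + S.d (k + 1) (a + S.T m (k + 1) w) := by
      have := eq_of_add (S := S) ((add_comm _ _).trans e3.symm)
      exact this
    rw [this]
    exact AddSubgroup.add_mem _ hwV (S.In_d (AddSubgroup.add_mem _ ha (S.T_In m hwV)))
  · exact AddSubgroup.add_mem _ (AddSubgroup.add_mem _ (S.In_d hb) (S.In_d (S.T_In m hv))) hv

end exc

/-- transfer of chains through a chart -/
structure Tr {X Y : Type*} [TopologicalSpace X] [TopologicalSpace Y] (S : ChTh X) (S' : ChTh Y)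
    (V : Set X) (W : Set Y) (φ : X → Y) (ψ : Y → X) where
  f : ∀ k, S.C k →+ S'.C k
  g : ∀ k, S'.C k →+ S.C k
  f_d : ∀ {k : ℕ} {c : S.C (k + 1)}, c ∈ S.In V (k + 1) → f k (S.d k c) = S'.d k (f (k + 1) c)
  g_d : ∀ {k : ℕ} {c : S'.C (k + 1)}, c ∈ S'.In W (k + 1) → g k (S'.d k c) = S.d k (g (k + 1) c)
  f_In : ∀ {A : Set X}, A ⊆ V → ∀ {k : ℕ} {c : S.C k}, c ∈ S.In A k → f k c ∈ S'.In (φ '' A) k
  g_In : ∀ {A : Set Y}, A ⊆ W → ∀ {k : ℕ} {c : S'.C k}, c ∈ S'.In A k → g k c ∈ S.In (ψ '' A) k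
  gf : ∀ {k : ℕ} {c : S.C k}, c ∈ S.In V k → g k (f k c) = c
  fg : ∀ {k : ℕ} {c : S'.C k}, c ∈ S'.In W k → f k (g k c) = c

section tr

variable {X Y : Type*} [TopologicalSpace X] [TopologicalSpace Y] {S : ChTh X} {S' : ChTh Y}
  {V : Set X} {W : Set Y} {φ : X → Y} {ψ : Y → X}

/-- the inverse transfer -/
def Tr.symm (F : Tr S S' V W φ ψ) : Tr S' S W V ψ φ where
  f := F.g
  g := F.f
  f_d := F.g_d
  g_d := F.f_d
  f_In := F.g_In
  g_In := F.f_In
  gf := F.fg
  fg := F.gf

lemma Tr.null (F : Tr S S' V W φ ψ) (hV : IsOpen V) (hinj : InjOn φ V) {A : Set X}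
    (hA : IsClosed A) (hAV : A ⊆ V) {k : ℕ} {w : S.C (k + 1)} (hw : w ∈ S.In V (k + 1))
    (h : S.Null A (k + 1) w) : S'.Null (φ '' A) (k + 1) (F.f (k + 1) w) := by
  obtain ⟨u, v, hu, hv, e⟩ := exc2 hV hA hAV hw h
  refine ⟨F.f (k + 2) u, F.f (k + 1) v, ?_, ?_⟩
  · refine S'.In_mono _ ?_ (F.f_In inter_subset_left hv)
    rintro _ ⟨y, hy, rfl⟩ ⟨z, hz, hzy⟩
    have := hinj (hAV hz) hy.1 hzy
    rw [this] at hz
    exact hy.2 hz
  · rw [e, map_add, F.f_d hu]

/-- data of a chart for chain theories -/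
structure ChartTr (S : ChTh X) (S' : ChTh Y) (V : Set X) (W : Set Y) (φ : X → Y)
    (ψ : Y → X) extends Tr S S' V W φ ψ where
  hV : IsOpen V
  hW : IsOpen W
  φV : ∀ x ∈ V, φ x ∈ W
  ψW : ∀ y ∈ W, ψ y ∈ V
  ψφ : ∀ x ∈ V, ψ (φ x) = x
  φψ : ∀ y ∈ W, φ (ψ y) = y
  φc : ContinuousOn φ V
  ψc : ContinuousOn ψ W

lemma ChartTr.injφ (F : ChartTr S S' V W φ ψ) : InjOn φ V := by
  intro x hx y hy h
  rw [← F.ψφ x hx, ← F.ψφ y hy, h]

lemma ChartTr.injψ (F : ChartTr S S' V W φ ψ) : InjOn ψ W := by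
  intro x hx y hy h
  rw [← F.φψ x hx, ← F.φψ y hy, h]

/-- the main transfer statement: a relative class `w` over a compact `K ⊆ V` has a copy in the
chart, null over a compact subset iff `w` is. -/
lemma ChartTr.copy [T2Space X] [T2Space Y] (F : ChartTr S S' V W φ ψ) {K : Set X}
    (hK : IsCompact K) (hKV : K ⊆ V) {k : ℕ} {w : S.C (k + 1)} (hw : S.d k w ∈ S.In Kᶜ k) :
    ∃ w' : S'.C (k + 1), S'.d k w' ∈ S'.In (φ '' K)ᶜ k ∧ w' ∈ S'.In W (k + 1) ∧
      S.Null K (k + 1) (w + F.g (k + 1) w') ∧ F.g (k + 1) w' ∈ S.In V (k + 1) := by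
  obtain ⟨a, ha, hda, hn⟩ := exc1 F.hV hK.isClosed hKV hw
  have hW : φ '' V ⊆ W := by rintro _ ⟨x, hx, rfl⟩; exact F.φV x hx
  refine ⟨F.f (k + 1) a, ?_, S'.In_mono _ hW (F.f_In (Subset.refl V) ha), ?_, ?_⟩
  · rw [← F.f_d ha]
    refine S'.In_mono _ ?_ (F.f_In inter_subset_left hda)
    rintro _ ⟨y, hy, rfl⟩ ⟨z, hz, hzy⟩
    have := F.injφ (hKV hz) hy.1 hzy
    rw [this] at hz
    exact hy.2 hz
  · rw [F.gf ha]; exact hn
  · rw [F.gf ha]; exact ha

lemma ChartTr.null_iff [T2Space X] [T2Space Y] (F : ChartTr S S' V W φ ψ) {A : Set X}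
    (hA : IsCompact A) (hAV : A ⊆ V) {k : ℕ} {w' : S'.C (k + 1)} (hw : w' ∈ S'.In W (k + 1)) :
    S'.Null (φ '' A) (k + 1) w' ↔ S.Null A (k + 1) (F.g (k + 1) w') := by
  have hA' : IsCompact (φ '' A) := hA.image_of_continuousOn (F.φc.mono hAV)
  have hAW : φ '' A ⊆ W := by rintro _ ⟨x, hx, rfl⟩; exact F.φV x (hAV hx)
  have hgV : F.g (k + 1) w' ∈ S.In V (k + 1) := by
    refine S.In_mono _ ?_ (F.g_In (Subset.refl W) hw)
    rintro _ ⟨x, hx, rfl⟩; exact F.ψW x hx
  constructor
  · intro h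
    have := F.toTr.symm.null F.hW F.injψ hA'.isClosed hAW hw h
    have e : ψ '' (φ '' A) = A := by
      ext x
      constructor
      · rintro ⟨_, ⟨y, hy, rfl⟩, rfl⟩; rw [F.ψφ y (hAV hy)]; exact hy
      · intro hx; exact ⟨φ x, ⟨x, hx, rfl⟩, F.ψφ x (hAV hx)⟩
    rw [e] at this
    exact this
  · intro h
    have := F.toTr.null F.hV F.injφ hA.isClosed hAV hgV h
    rw [F.fg hw] at this
    exact this

/-- M5 transferred to a chart domain -/
theorem ChartTr.null_compact [T2Space X] [T2Space Y] (F : ChartTr S S' V W φ ψ) {k : ℕ}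
    (h5 : ∀ K : Set Y, IsCompact K → ∀ w : S'.C (k + 1), S'.d k w ∈ S'.In Kᶜ k →
      (∀ y ∈ K, S'.Null {y} (k + 1) w) → S'.Null K (k + 1) w)
    {K : Set X} (hK : IsCompact K) (hKV : K ⊆ V) {w : S.C (k + 1)}
    (hw : S.d k w ∈ S.In Kᶜ k) (h : ∀ y ∈ K, S.Null {y} (k + 1) w) :
    S.Null K (k + 1) w := by
  obtain ⟨w', hd, hwW, hn, -⟩ := F.copy hK hKV hw
  have hK' : IsCompact (φ '' K) := hK.image_of_continuousOn (F.φc.mono hKV)
  have h1 : S'.Null (φ '' K) (k + 1) w' := by
    refine h5 _ hK' w' hd ?_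
    rintro _ ⟨y, hy, rfl⟩
    have h2 : S.Null {y} (k + 1) (F.g (k + 1) w') := by
      have := (h y hy).add (hn.mono (singleton_subset_iff.2 hy))
      rwa [← add_assoc, S.two, zero_add] at this
    have h3 := (F.null_iff isCompact_singleton (singleton_subset_iff.2 (hKV hy)) hwW).2 h2
    rwa [image_singleton] at h3
  have h4 := (F.null_iff hK hKV hwW).1 h1
  have := h4.add hn
  have e : F.g (k + 1) w' + (w + F.g (k + 1) w') = w := by
    calc _ = w + (F.g (k + 1) w' + F.g (k + 1) w') := by abel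
      _ = w := by rw [S.two, add_zero]
  rwa [e] at this

/-- two non-null classes at a point add up to a null class -/
theorem ChartTr.L1 [T2Space X] [T2Space Y] (F : ChartTr S S' V W φ ψ) {k : ℕ}
    (h : ∀ (y : Y) (w w' : S'.C (k + 1)), S'.d k w ∈ S'.In {y}ᶜ k → S'.d k w' ∈ S'.In {y}ᶜ k →
      ¬ S'.Null {y} (k + 1) w → ¬ S'.Null {y} (k + 1) w' → S'.Null {y} (k + 1) (w + w'))
    {x : X} (hx : x ∈ V) (w w' : S.C (k + 1)) (hw : S.d k w ∈ S.In {x}ᶜ k)
    (hw' : S.d k w' ∈ S.In {x}ᶜ k) (h1 : ¬ S.Null {x} (k + 1) w)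
    (h2 : ¬ S.Null {x} (k + 1) w') : S.Null {x} (k + 1) (w + w') := by
  have hxV : {x} ⊆ V := singleton_subset_iff.2 hx
  obtain ⟨a, hda, haW, hna, -⟩ := F.copy isCompact_singleton hxV hw
  obtain ⟨a', hda', haW', hna', -⟩ := F.copy isCompact_singleton hxV hw'
  rw [image_singleton] at hda hda'
  have n1 : ¬ S'.Null {φ x} (k + 1) a := by
    intro hh
    rw [← image_singleton, F.null_iff isCompact_singleton hxV haW] at hh
    apply h1
    have := hh.add hna
    have e : F.g (k + 1) a + (w + F.g (k + 1) a) = w := by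
      calc _ = w + (F.g (k + 1) a + F.g (k + 1) a) := by abel
        _ = w := by rw [S.two, add_zero]
    rwa [e] at this
  have n2 : ¬ S'.Null {φ x} (k + 1) a' := by
    intro hh
    rw [← image_singleton, F.null_iff isCompact_singleton hxV haW'] at hh
    apply h2
    have := hh.add hna'
    have e : F.g (k + 1) a' + (w' + F.g (k + 1) a') = w' := by
      calc _ = w' + (F.g (k + 1) a' + F.g (k + 1) a') := by abel
        _ = w' := by rw [S.two, add_zero]
    rwa [e] at this
  have n3 := h (φ x) a a' hda hda' n1 n2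
  rw [← image_singleton, F.null_iff isCompact_singleton hxV (AddSubgroup.add_mem _ haW haW')]
    at n3
  rw [map_add] at n3
  have := (n3.add hna).add hna'
  have e : F.g (k + 1) a + F.g (k + 1) a' + (w + F.g (k + 1) a) + (w' + F.g (k + 1) a')
      = w + w' := by
    calc _ = w + w' + (F.g (k + 1) a + F.g (k + 1) a) + (F.g (k + 1) a' + F.g (k + 1) a') := by
          abel
      _ = w + w' := by rw [S.two, S.two, add_zero, add_zero]
  rwa [e] at this

/-- transfer of a fundamental chain from the chart to the space -/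
theorem ChartTr.fund [T2Space X] [T2Space Y] (F : ChartTr S S' V W φ ψ) {k : ℕ}
    {B : Set Y} (_hB : IsCompact B) (hBW : B ⊆ W) {w : S'.C (k + 1)} (hw : w ∈ S'.In W (k + 1))
    (h : Fund S' B k w) : Fund S (ψ '' B) k (F.g (k + 1) w) := by
  constructor
  · rw [← F.g_d hw]
    have hd : S'.d k w ∈ S'.In (W ∩ Bᶜ) k := S'.In_inter (S'.In_d hw) h.1
    refine S.In_mono _ ?_ (F.g_In inter_subset_left hd)
    rintro _ ⟨y, hy, rfl⟩ ⟨z, hz, hzy⟩
    have := F.injψ (hBW hz) hy.1 hzy
    rw [this] at hz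
    exact hy.2 hz
  · rintro _ ⟨y, hy, rfl⟩ hn
    apply h.2 y hy
    have hyV : {ψ y} ⊆ V := singleton_subset_iff.2 (F.ψW y (hBW hy))
    have := (F.null_iff isCompact_singleton hyV hw).2 hn
    rwa [image_singleton, F.φψ y (hBW hy)] at this

end tr

end Crest.Agent.R224.TM
end

-- ▼ part R224/MVMain
section

set_option autoImplicit false

namespace Crest.Agent.R224.TM

open Set ChTh

variable {M : Type*} [TopologicalSpace M] {E : Type*} [NormedAddCommGroup E] [NormedSpace ℝ E]

/-- Local input on the model space `E` (of dimension `k + 1`). -/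
structure Model (S' : ChTh E) (k : ℕ) : Prop where
  exp : HasExp S'
  van : ∀ j, k + 1 ≤ j → ∀ x : E, S'.Van {x} j
  two : ∀ (y : E) (w w' : S'.C (k + 1)), S'.d k w ∈ S'.In {y}ᶜ k → S'.d k w' ∈ S'.In {y}ᶜ k →
      ¬ S'.Null {y} (k + 1) w → ¬ S'.Null {y} (k + 1) w' → S'.Null {y} (k + 1) (w + w')
  simp : ∀ (y : E) (r : ℝ), 0 < r → ∃ w : S'.C (k + 1), w ∈ S'.In (Metric.ball y r) (k + 1) ∧
      S'.d k w ∈ S'.In {y}ᶜ k ∧ ¬ S'.Null {y} (k + 1) w

lemma Model.fund {S' : ChTh E} {k : ℕ} (H : Model S' k)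
    (hp : ∀ (x : E) (r : ℝ), IsCompact (Metric.closedBall x r)) (y : E) (r : ℝ) (hr : 0 < r) :
    ∃ ρ : ℝ, 0 < ρ ∧ ρ < r ∧ ∃ w : S'.C (k + 1), w ∈ S'.In (Metric.ball y r) (k + 1) ∧
      Fund S' (Metric.closedBall y ρ) k w := by
  obtain ⟨w, hw, hd, hn⟩ := H.simp y r hr
  obtain ⟨L, hL, hLc, hdL⟩ := S'.cpt hd
  have hy : y ∈ Lᶜ := fun h => hL h rfl
  obtain ⟨ε, hε, hball⟩ := Metric.isOpen_iff.1 hLc.isClosed.isOpen_compl y hy
  refine ⟨min (ε / 2) (r / 2), lt_min (by linarith) (by linarith),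
    lt_of_le_of_lt (min_le_right _ _) (by linarith), w, hw, ?_, ?_⟩
  · refine S'.In_mono _ ?_ hdL
    intro z hz hzb
    refine hball ?_ hz
    rw [Metric.mem_ball]
    exact lt_of_le_of_lt (Metric.mem_closedBall.1 hzb)
      (lt_of_le_of_lt (min_le_left _ _) (by linarith))
  · intro z hz hnz
    apply hn
    have hdB : S'.d k w ∈ S'.In (Metric.closedBall y (min (ε / 2) (r / 2)))ᶜ k := by
      refine S'.In_mono _ ?_ hdL
      intro z hz hzb
      refine hball ?_ hz
      rw [Metric.mem_ball]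
      exact lt_of_le_of_lt (Metric.mem_closedBall.1 hzb)
        (lt_of_le_of_lt (min_le_left _ _) (by linarith))
    have := null_convex H.exp (convex_closedBall y _) (hp y _) hz hdB hnz
    refine this.mono (singleton_subset_iff.2 (Metric.mem_closedBall_self ?_))
    exact le_min (by linarith) (by linarith)




end Crest.Agent.R224.TM
end

-- ▼ part R224/T/ChInst
section

set_option autoImplicit false

noncomputable section

open Topology Set Filter

namespace Crest.Agent.R224.T

section basic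
variable {X : Type} [TopologicalSpace X] {Y : Type} [TopologicalSpace Y]

lemma ch_two {n : ℕ} (c : Ch n X) : c + c = 0 := by
  ext σ
  have : ∀ a : ZMod 2, a + a = 0 := by decide
  simp [this]

lemma in_zero (A : Set X) (n : ℕ) : In A (0 : Ch n X) := by
  intro σ hσ; simp at hσ

lemma in_add {A : Set X} {n : ℕ} {c c' : Ch n X} (h : In A c) (h' : In A c') :
    In A (c + c') := by
  classical
  intro σ hσ
  have := Finsupp.support_add hσ
  rcases Finset.mem_union.1 this with h1 | h1
  · exact h σ h1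
  · exact h' σ h1

lemma in_sum {ι : Type*} {A : Set X} {n : ℕ} (s : Finset ι) (f : ι → Ch n X)
    (h : ∀ i ∈ s, In A (f i)) : In A (∑ i ∈ s, f i) := by
  classical
  induction s using Finset.induction_on with
  | empty => simpa using in_zero A n
  | insert a s ha ih =>
    rw [Finset.sum_insert ha]
    exact in_add (h a (Finset.mem_insert_self a s))
      (ih fun i hi => h i (Finset.mem_insert_of_mem hi))

lemma in_smul {A : Set X} {n : ℕ} (a : ZMod 2) {c : Ch n X} (h : In A c) : In A (a • c) := by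
  intro σ hσ
  exact h σ (Finsupp.support_smul hσ)

lemma in_single {A : Set X} {n : ℕ} {σ : C(Dl n, X)} (h : range σ ⊆ A) (a : ZMod 2) :
    In A (Finsupp.single σ a : Ch n X) := by
  classical
  intro τ hτ
  have := Finsupp.support_single_subset hτ
  rw [Finset.mem_singleton] at this
  rw [this]; exact h

/-- a linear map respecting supports on simplices respects supports -/
lemma in_map {A : Set X} {B : Set Y} {n m : ℕ} (F : Ch n X →ₗ[ZMod 2] Ch m Y)
    (hF : ∀ σ : C(Dl n, X), range σ ⊆ A → In B (F (Finsupp.single σ 1))) {c : Ch n X}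
    (hc : In A c) : In B (F c) := by
  have : F c = ∑ σ ∈ c.support, c σ • F (Finsupp.single σ 1) := by
    conv_lhs => rw [← Finsupp.sum_single c]
    rw [Finsupp.sum, map_sum]
    refine Finset.sum_congr rfl fun σ _ => ?_
    rw [← map_smul, Finsupp.smul_single, smul_eq_mul, mul_one]
  rw [this]
  exact in_sum _ _ fun σ hσ => in_smul _ (hF σ (hc σ hσ))

lemma in_mono {A B : Set X} (h : A ⊆ B) {n : ℕ} {c : Ch n X} (hc : In A c) : In B c :=
  fun σ hσ => (hc σ hσ).trans h

lemma in_bd {A : Set X} {n : ℕ} {c : Ch (n + 1) X} (hc : In A c) : In A (bd n c) := by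
  refine in_map (bd n) (fun σ hσ => ?_) hc
  unfold bd
  rw [Finsupp.linearCombination_single, one_smul]
  refine in_sum _ _ fun i _ => in_single ?_ 1
  rintro _ ⟨y, rfl⟩
  exact hσ ⟨_, rfl⟩

lemma in_empty {n : ℕ} {c : Ch n X} (hc : In ∅ c) : c = 0 := by
  rw [← Finsupp.support_eq_empty, Finset.eq_empty_iff_forall_notMem]
  intro σ hσ
  have h := hc σ hσ
  have : Nonempty (Dl n) := inferInstance
  obtain ⟨y⟩ := this
  exact h ⟨y, rfl⟩

lemma in_compact {A : Set X} {n : ℕ} {c : Ch n X} (hc : In A c) :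
    ∃ L : Set X, L ⊆ A ∧ IsCompact L ∧ In L c := by
  classical
  refine ⟨⋃ σ ∈ c.support, range σ, ?_, ?_, ?_⟩
  · exact iUnion₂_subset fun σ hσ => hc σ hσ
  · exact c.support.isCompact_biUnion fun σ _ => isCompact_range σ.continuous
  · intro σ hσ
    exact subset_biUnion_of_mem (u := fun σ : C(Dl n, X) => range σ) hσ

lemma in_push {A : Set X} {n : ℕ} {c : Ch n X} (f : C(X, Y)) (hc : In A c) :
    In (f '' A) (push f n c) := by
  refine in_map (push f n) (fun σ hσ => ?_) hc
  unfold push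
  rw [Finsupp.lmapDomain_apply, Finsupp.mapDomain_single]
  refine in_single ?_ 1
  rintro _ ⟨y, rfl⟩
  exact ⟨σ y, hσ ⟨y, rfl⟩, rfl⟩

/-- the subgroup of chains in `A` -/
def InG (A : Set X) (n : ℕ) : AddSubgroup (Ch n X) where
  carrier := {c | In A c}
  add_mem' := in_add
  zero_mem' := in_zero A n
  neg_mem' := by
    intro c hc
    have : -c = c := by
      rw [neg_eq_iff_add_eq_zero]; exact ch_two c
    show In A (-c)
    rw [this]; exact hc

lemma SubOp.in_s (O : SubOp X) {A : Set X} {n : ℕ} {c : Ch n X} (hc : In A c) :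
    In A (O.s n c) :=
  in_map (O.s n) (fun σ hσ τ hτ => (O.supp_s n σ τ hτ).trans hσ) hc

lemma SubOp.in_h (O : SubOp X) {A : Set X} {n : ℕ} {c : Ch n X} (hc : In A c) :
    In A (O.h n c) :=
  in_map (O.h n) (fun σ hσ τ hτ => (O.supp_h n σ τ hτ).trans hσ) hc

/-- splitting of a small chain -/
lemma split_small {U V A : Set X} {n : ℕ} {c : Ch n X} (hc : Small {U, V} c) (hA : In A c) :
    ∃ a b : Ch n X, In (U ∩ A) a ∧ In (V ∩ A) b ∧ c = a + b := by
  classical
  refine ⟨c.filter fun σ => range σ ⊆ U, c.filter fun σ => ¬ range σ ⊆ U, ?_, ?_, ?_⟩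
  · intro σ hσ
    rw [Finsupp.support_filter, Finset.mem_filter] at hσ
    exact subset_inter hσ.2 (hA σ hσ.1)
  · intro σ hσ
    rw [Finsupp.support_filter, Finset.mem_filter] at hσ
    obtain ⟨W, hW, hσW⟩ := hc σ hσ.1
    rcases hW with rfl | hW
    · exact absurd hσW hσ.2
    · rw [mem_singleton_iff] at hW
      subst hW
      exact subset_inter hσW (hA σ hσ.1)
  · exact (Finsupp.filter_add_filter_not c _).symm

end basic

/-- `d ∘ d = 0` -/
def NDD : Prop := ∀ (X : Type) [TopologicalSpace X] (n : ℕ) (c : Ch (n + 2) X),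
    bd n (bd (n + 1) c) = 0

open TM in
/-- the abstract chain theory given by singular chains -/
def chTh (hdd : NDD) (hS : NSub) (X : Type) [TopologicalSpace X] : ChTh X where
  C n := Ch n X
  grp n := inferInstance
  two n c := ch_two c
  d n := (bd n).toAddMonoidHom
  dd n c := hdd X n c
  In A n := InG A n
  In_mono n h := fun c hc => in_mono h hc
  In_inter h1 h2 := fun σ hσ => subset_inter (h1 σ hσ) (h2 σ hσ)
  In_univ c := fun σ _ => subset_univ _
  In_d h := in_bd h
  cpt h := in_compact h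
  sd m n := ((Classical.choose (hS X) m).s n).toAddMonoidHom
  T m n := ((Classical.choose (hS X) m).h n).toAddMonoidHom
  sd_eq m n c := by
    have h := (Classical.choose (hS X) m).bd_h n c
    have h2 := ch_two c
    show (Classical.choose (hS X) m).s (n + 1) c + c
      = bd (n + 1) ((Classical.choose (hS X) m).h (n + 1) c)
        + (Classical.choose (hS X) m).h n (bd n c)
    rw [h]
    have h3 := ch_two ((Classical.choose (hS X) m).h n (bd n c))
    calc (Classical.choose (hS X) m).s (n + 1) c + c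
        = c + (Classical.choose (hS X) m).s (n + 1) c + 0 := by abel
      _ = _ := by rw [← h3]; abel
  sd_In m n c h := SubOp.in_s _ h
  T_In m n c h := SubOp.in_h _ h
  small := by
    intro U V A hU hV n c hc
    have h := Classical.choose_spec (hS X) {U, V} (by
      rintro W (rfl | hW)
      · exact hU
      · rw [mem_singleton_iff] at hW; subst hW; exact hV) n c (by
      rw [sUnion_pair]; exact in_mono inter_subset_left hc)
    obtain ⟨m, hm⟩ := h.exists
    obtain ⟨a, b, ha, hb, e⟩ := split_small (A := A) hm (SubOp.in_s _ (in_mono inter_subset_right hc))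
    exact ⟨m, a, b, ha, hb, e⟩

section
variable (hdd : NDD) (hS : NSub) {X : Type} [TopologicalSpace X]

lemma null_iff_nul (A : Set X) {n : ℕ} (c : Ch n X) :
    (chTh hdd hS X).Null A n c ↔ Nul Aᶜ c := by
  constructor
  · rintro ⟨u, v, hv, e⟩; exact ⟨u, v, hv, e⟩
  · rintro ⟨u, v, hv, e⟩; exact ⟨u, v, hv, e⟩


end

end Crest.Agent.R224.T
end
end

-- ▼ part R224/T/Uniq
section

set_option autoImplicit false

noncomputable section

open Topology Set Filter

namespace Crest.Agent.R224.T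

open TM

lemma push_id' {X : Type} [TopologicalSpace X] {n : ℕ} (f : C(X, X)) (hf : ∀ x, f x = x)
    (c : Ch n X) : push f n c = c := by
  have : (fun σ : C(Dl n, X) => f.comp σ) = id := by
    funext σ
    ext y
    exact hf _
  unfold push
  rw [this]
  simp

lemma bd_push' {X Y : Type} [TopologicalSpace X] [TopologicalSpace Y] (f : C(X, Y)) (n : ℕ)
    (c : Ch (n + 1) X) : bd n (push f (n + 1) c) = push f n (bd n c) := by
  have : (bd n) ∘ₗ (push f (n + 1)) = (push f n) ∘ₗ (bd n) := by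
    apply Finsupp.lhom_ext'
    intro σ
    apply LinearMap.ext_ring
    simp only [LinearMap.comp_apply, Finsupp.lsingle_apply]
    unfold push bd
    rw [Finsupp.lmapDomain_apply, Finsupp.mapDomain_single, Finsupp.linearCombination_single,
      Finsupp.linearCombination_single, one_smul, one_smul, map_sum]
    refine Finset.sum_congr rfl fun i _ => ?_
    rw [Finsupp.lmapDomain_apply, Finsupp.mapDomain_single]
    rfl
  exact congrArg (fun F => F c) this

lemma push_comp' {X Y Z : Type} [TopologicalSpace X] [TopologicalSpace Y] [TopologicalSpace Z]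
    (f : C(X, Y)) (g : C(Y, Z)) (n : ℕ) (c : Ch n X) :
    push g n (push f n c) = push (g.comp f) n c := by
  unfold push
  rw [Finsupp.lmapDomain_apply, Finsupp.lmapDomain_apply, Finsupp.lmapDomain_apply,
    ← Finsupp.mapDomain_comp]
  rfl

lemma hasExp (hdd : NDD) (hS : NSub) (hP : NPrism) (m : ℕ) : HasExp (chTh hdd hS (EE m)) := by
  intro x R hR
  let H : C(EE m × unitInterval, EE m) :=
    ⟨fun p => x + (1 + (p.2 : ℝ) * (R - 1)) • (p.1 - x), by fun_prop⟩
  obtain ⟨P, -, hP1, hP2⟩ := hP (EE m) (EE m) H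
  refine ⟨fun k => (push (H.comp ⟨fun x => (x, 1), by fun_prop⟩) k).toAddMonoidHom,
    fun k => (P k).toAddMonoidHom, ?_, ?_, ?_⟩
  · intro k (c : Ch (k + 1) (EE m))
    have h := hP1 k c
    have h0 : push (H.comp ⟨fun x => (x, 0), by fun_prop⟩) (k + 1) c = c := by
      apply push_id'
      intro y
      simp [H]
    rw [h0] at h
    show push (H.comp ⟨fun x => (x, 1), by fun_prop⟩) (k + 1) c + c
      = bd (k + 1) (P (k + 1) c) + P k (bd k c)
    rw [h]
    have h3 := ch_two (P k (bd k c))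
    calc push (H.comp ⟨fun x => (x, 1), by fun_prop⟩) (k + 1) c + c
        = push (H.comp ⟨fun x => (x, 1), by fun_prop⟩) (k + 1) c + c + 0 := by rw [add_zero]
      _ = _ := by rw [← h3]; abel
  · intro A k c hc
    refine in_mono ?_ (in_push _ hc)
    rintro _ ⟨y, hy, rfl⟩
    refine ⟨y, hy, ?_⟩
    simp [H]
  · intro A k c hc
    refine in_map (P k) (fun σ hσ τ hτ => ?_) hc
    refine (hP2 k σ τ hτ).trans ?_
    rintro _ ⟨⟨y, t⟩, ⟨hy, -⟩, rfl⟩
    refine ⟨1 + (t : ℝ) * (R - 1), ⟨?_, ?_⟩, y, hσ hy, rfl⟩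
    · have := t.2.1
      nlinarith
    · have h1 := t.2.2
      have h0 := t.2.1
      nlinarith

theorem nStar (hdd : NDD) (hS : NSub) (hP : NPrism) : NStar := by
  intro m q K p hK hp hst c hc hn
  have h := null_star (S := chTh hdd hS (EE m)) (hasExp hdd hS hP m) hst hK (k := q) (w := c) hc
    ((null_iff_nul hdd hS {p} c).2 hn)
  exact (null_iff_nul hdd hS K c).1 h

/-- translations -/
def trans {m : ℕ} (v : EE m) : C(EE m, EE m) := ⟨fun x => x + v, by fun_prop⟩

lemma trans_trans {m : ℕ} (v : EE m) {n : ℕ} (c : Ch n (EE m)) :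
    push (trans (-v)) n (push (trans v) n c) = c := by
  rw [push_comp']
  apply push_id'
  intro x
  simp [trans]

lemma rc_push {X Y : Type} [TopologicalSpace X] [TopologicalSpace Y] {f : C(X, Y)}
    {A : Set X} {B : Set Y} (h : f '' A ⊆ B) {n : ℕ} {c : Ch (n + 1) X} (hc : RC A c) :
    RC B (push f (n + 1) c) := by
  unfold RC
  rw [bd_push']
  exact in_mono h (in_push f hc)

lemma nul_push {X Y : Type} [TopologicalSpace X] [TopologicalSpace Y] {f : C(X, Y)}
    {A : Set X} {B : Set Y} (h : f '' A ⊆ B) {n : ℕ} {c : Ch n X} (hc : Nul A c) :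
    Nul B (push f n c) := by
  obtain ⟨b, e, he, rfl⟩ := hc
  refine ⟨push f (n + 1) b, push f n e, in_mono h (in_push f he), ?_⟩
  rw [map_add, bd_push']

lemma trans_image {m : ℕ} (v p q : EE m) (h : p + v = q) : trans v '' {p}ᶜ ⊆ {q}ᶜ := by
  rintro _ ⟨y, hy, rfl⟩ hyq
  apply hy
  have : y + v = p + v := by rw [h]; exact hyq
  exact add_right_cancel this

lemma nul_trans_iff {m : ℕ} (p : EE m) {n : ℕ} (c : Ch n (EE m)) :
    Nul {0}ᶜ (push (trans (-p)) n c) ↔ Nul {p}ᶜ c := by
  constructor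
  · intro h
    have := nul_push (trans_image p 0 p (by simp)) h
    have e := trans_trans (-p) c
    rw [neg_neg] at e
    rwa [e] at this
  · intro h
    exact nul_push (trans_image (-p) p 0 (by simp)) h

lemma van_point (hdd : NDD) (hS : NSub) (hL : NLocAll) (d : ℕ) (j : ℕ) (hj : d + 1 ≤ j)
    (x : EE (d + 1)) : (chTh hdd hS (EE (d + 1))).Van {x} j := by
  intro (w : Ch (j + 1) (EE (d + 1))) hw
  refine (null_iff_nul hdd hS {x} w).2 ((nul_trans_iff x w).1 ?_)
  refine (hL d).1 j _ (by omega) ?_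
  exact rc_push (trans_image (-x) x 0 (by simp)) hw


theorem nUniq (hdd : NDD) (hS : NSub) (hP : NPrism) (hL : NLocAll) : NUniq := by
  intro d K hK c hc h
  have := null_compact (S := chTh hdd hS (EE (d + 1))) (fun x r => isCompact_closedBall x r)
    (hasExp hdd hS hP _) (k := d) (fun j hj x => van_point hdd hS hL d j hj x) hK (w := c) hc
    (fun x hx => (null_iff_nul hdd hS {x} c).2 (h x hx))
  exact (null_iff_nul hdd hS K c).1 this


end Crest.Agent.R224.T
end
end

-- ▼ part R224/T/UniqM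
section

set_option autoImplicit false

noncomputable section

open Topology Set Filter

namespace Crest.Agent.R224.T

open TM

lemma nul_mono {X : Type} [TopologicalSpace X] {A B : Set X} (h : A ⊆ B) {n : ℕ} {c : Ch n X}
    (hc : Nul A c) : Nul B c := by
  obtain ⟨b, e, he, rfl⟩ := hc
  exact ⟨b, e, in_mono h he, rfl⟩

lemma nul_add {X : Type} [TopologicalSpace X] {A : Set X} {n : ℕ} {c c' : Ch n X}
    (hc : Nul A c) (hc' : Nul A c') : Nul A (c + c') := by
  obtain ⟨b, e, he, rfl⟩ := hc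
  obtain ⟨b', e', he', rfl⟩ := hc'
  refine ⟨b + b', e + e', in_add he he', ?_⟩
  rw [map_add]; abel

lemma nul_cancel {X : Type} [TopologicalSpace X] {A : Set X} {n : ℕ} {c c' : Ch n X}
    (hc : Nul A (c + c')) (hc' : Nul A c') : Nul A c := by
  have := nul_add hc hc'
  rwa [add_assoc, ch_two, add_zero] at this

lemma nul_cancel' {X : Type} [TopologicalSpace X] {A : Set X} {n : ℕ} {c c' : Ch n X}
    (hc : Nul A (c + c')) (hc' : Nul A c) : Nul A c' := by
  rw [add_comm] at hc
  exact nul_cancel hc hc'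

theorem nUniqM (hE : NExc) (hU : NUniq) : NUniqM := by
  intro d Y _ _ _ y K hK hKs c hc hn
  set φ := chartAt (EE (d + 1)) y with hφ
  let f1 : C(φ.source, Y) := ⟨Subtype.val, continuous_subtype_val⟩
  have h1 : IsOpenEmbedding f1 := φ.open_source.isOpenEmbedding_subtypeVal
  have h2' : IsOpenEmbedding (φ.source.domRestrict φ) := φ.isOpenEmbedding_restrict
  let f2 : C(φ.source, EE (d + 1)) := ⟨φ.source.domRestrict φ, h2'.continuous⟩
  have h2 : IsOpenEmbedding f2 := h2'
  set L : Set φ.source := Subtype.val ⁻¹' K with hL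
  have e1 : f1 '' L = K := by
    ext z
    constructor
    · rintro ⟨w, hw, rfl⟩; exact hw
    · intro hz; exact ⟨⟨z, hKs hz⟩, hz, rfl⟩
  have hLc : IsCompact L := by
    rw [hL]
    exact h1.isInducing.isCompact_preimage' hK (by
      intro z hz; exact ⟨⟨z, hKs hz⟩, rfl⟩)
  have hK2 : IsCompact (f2 '' L) := hLc.image f2.continuous
  have cl1 : IsClosed (f1 '' L) := by rw [e1]; exact hK.isClosed
  obtain ⟨c', hc', hcc⟩ := (hE _ _ f1 h1 L cl1 d).1 c (by rw [e1]; exact hc)
  have hc'' : RC (f2 '' L)ᶜ (push f2 (d + 1) c') := by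
    refine rc_push ?_ hc'
    rintro _ ⟨z, hz, rfl⟩ ⟨w, hw, hwz⟩
    have := h2.injective hwz
    subst this
    exact hz hw
  have h3 : Nul (f2 '' L)ᶜ (push f2 (d + 1) c') := by
    refine hU d _ hK2 _ hc'' ?_
    rintro _ ⟨z, hz, rfl⟩
    have hcz : IsClosed (f2 '' {z}) := by rw [image_singleton]; exact isClosed_singleton
    have hcz1 : IsClosed (f1 '' {z}) := by rw [image_singleton]; exact isClosed_singleton
    have hrz : RC {z}ᶜ c' := in_mono (compl_subset_compl.2 (singleton_subset_iff.2 hz)) hc'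
    have h4 : Nul {z}ᶜ c' := by
      rw [← (hE _ _ f1 h1 {z} hcz1 d).2 c' hrz, image_singleton]
      have hfz : f1 z ∈ f1 '' L := ⟨z, hz, rfl⟩
      have h5 : Nul {f1 z}ᶜ (c + push f1 (d + 1) c') :=
        nul_mono (compl_subset_compl.2 (singleton_subset_iff.2 hfz)) hcc
      exact nul_cancel' h5 (hn _ hz)
    have h6 := (hE _ _ f2 h2 {z} hcz d).2 c' hrz
    rw [image_singleton] at h6
    exact h6.2 h4
  have h7 : Nul Lᶜ c' := ((hE _ _ f2 h2 L hK2.isClosed d).2 c' hc').1 h3
  have h8 : Nul (f1 '' L)ᶜ (push f1 (d + 1) c') := ((hE _ _ f1 h1 L cl1 d).2 c' hc').2 h7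
  rw [e1] at h8 hcc
  exact nul_cancel hcc h8

theorem nFund (hdd : NDD) (hS : NSub) (hM : NMan) (hC : NClass) (hUM : NUniqM) : NFund := by
  intro d M _ _ _ _ 𝒰 h𝒰 hcov
  let S := chTh hdd hS M
  have key := exists_fund (S := S) (k := d) ?_ ?_
  · obtain ⟨μ', h1, h2⟩ := key
    let μ : Ch (d + 1) M := μ'
    have h1' : bd d μ = 0 := in_empty (by rw [compl_univ] at h1; exact h1)
    have hev := Classical.choose_spec (hS M) 𝒰 h𝒰 (d + 1) μ (by
      rw [hcov]; exact fun σ _ => subset_univ _)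
    obtain ⟨k, hk⟩ := hev.exists
    have hbs : bd d ((Classical.choose (hS M) k).s (d + 1) μ) = 0 := by
      have h := (Classical.choose (hS M) k).bd_s d μ
      rw [h1', map_zero] at h
      exact h
    refine ⟨(Classical.choose (hS M) k).s (d + 1) μ, hbs, hk, ?_⟩
    intro p hp
    refine h2 p (mem_univ p) ?_
    have h3 : S.d d μ ∈ S.In {p}ᶜ d := by
      show In {p}ᶜ (bd d μ)
      rw [h1']; exact in_zero _ _
    refine (ChTh.null_sd_iff (S := S) k h3).1 ?_
    exact (null_iff_nul hdd hS {p} _).2 hp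
  · intro x w w' hw hw' h1 h2
    refine (null_iff_nul hdd hS {x} _).2 ?_
    refine (hM d M).2.1 x w w' hw hw' ?_ ?_
    · exact fun h => h1 ((null_iff_nul hdd hS {x} _).2 h)
    · exact fun h => h2 ((null_iff_nul hdd hS {x} _).2 h)
  · intro x
    obtain ⟨K, hKn, hKc, ⟨y, hy⟩, c, hc, hcn⟩ := hC d M x
    refine ⟨K, hKc, hKn, ⟨c, hc, ?_⟩, ?_⟩
    · intro q hq hn
      exact hcn q hq ((null_iff_nul hdd hS {q} c).1 hn)
    · intro L hL hLK w hw hn
      refine (null_iff_nul hdd hS L w).2 ?_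
      refine hUM d M y L hL (hLK.trans hy) w hw ?_
      intro p hp
      exact (null_iff_nul hdd hS {p} w).1 (hn p hp)

end Crest.Agent.R224.T
end
end

-- ▼ part R224/T/Class

set_option autoImplicit false

noncomputable section

open Topology Set Filter

namespace Crest.Agent.R224.T

namespace Cls

theorem mapsTo_compl_image {A B : Type} {f : A → B} (hf : Function.Injective f) (L : Set A) :
    MapsTo f Lᶜ (f '' L)ᶜ := by
  rintro x hx ⟨y, hy, hyx⟩
  exact hx (hf hyx ▸ hy)

theorem mapsTo_compl_singleton {A B : Type} {f : A → B} (hf : Function.Injective f) (v : A) :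
    MapsTo f {v}ᶜ {f v}ᶜ := by
  rintro x hx h
  exact hx (hf h)

/-- a class over a small ball in Euclidean space -/
theorem ballClass (hLoc : NLocAll) (hStar : NStar) (d : ℕ) :
    ∃ r : ℝ, 0 < r ∧ ∃ c : Ch (d + 1) (EE (d + 1)), RC (Metric.closedBall 0 r)ᶜ c ∧
      ∀ q ∈ Metric.closedBall (0 : EE (d + 1)) r, ¬ Nul {q}ᶜ c := by
  obtain ⟨c0, h1, h2⟩ := (hLoc d).2.1
  obtain ⟨N, hN, hNc⟩ := In.exists_nhds h1
  obtain ⟨r, hr, hrN⟩ := Metric.nhds_basis_closedBall.mem_iff.1 hN
  have hRC : RC (Metric.closedBall 0 r)ᶜ c0 := hNc.mono (compl_subset_compl.2 hrN)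
  refine ⟨r, hr, c0, hRC, fun q hq hnul => h2 ?_⟩
  have h3 := hStar (d + 1) d (Metric.closedBall 0 r) q (isCompact_closedBall _ _) hq
    ((convex_closedBall (0 : EE (d + 1)) r).starConvex hq) c0 hRC hnul
  refine h3.mono (compl_subset_compl.2 (singleton_subset_iff.2 ?_))
  exact Metric.mem_closedBall_self hr.le

/-- a class over a small ball about a given point inside a given open set -/
theorem openClass (hLoc : NLocAll) (hStar : NStar) (d : ℕ) (V : Set (EE (d + 1))) (hV : IsOpen V)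
    (a : EE (d + 1)) (ha : a ∈ V) :
    ∃ K ∈ 𝓝 a, IsCompact K ∧ K ⊆ V ∧ ∃ c : Ch (d + 1) (EE (d + 1)), RC Kᶜ c ∧
      ∀ q ∈ K, ¬ Nul {q}ᶜ c := by
  obtain ⟨r, hr, c0, h1, h2⟩ := ballClass hLoc hStar d
  obtain ⟨ρ, hρ, hρV⟩ := Metric.nhds_basis_closedBall.mem_iff.1 (hV.mem_nhds ha)
  set s : ℝ := ρ / r with hs
  have hs0 : 0 < s := div_pos hρ hr
  let A : EE (d + 1) ≃ₜ EE (d + 1) :=
    (Homeomorph.smulOfNeZero s hs0.ne').trans (Homeomorph.addLeft a)
  have hA : ∀ x, A x = a + s • x := fun x => rfl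
  have hKA : Metric.closedBall a ρ = A '' Metric.closedBall 0 r := by
    ext y
    constructor
    · intro hy
      refine ⟨s⁻¹ • (y - a), ?_, ?_⟩
      · rw [mem_closedBall_zero_iff, norm_smul, Real.norm_of_nonneg (inv_nonneg.2 hs0.le)]
        rw [Metric.mem_closedBall, dist_eq_norm] at hy
        rw [inv_mul_le_iff₀ hs0, hs, div_mul_cancel₀ _ hr.ne']
        exact hy
      · rw [hA, smul_smul, mul_inv_cancel₀ hs0.ne', one_smul]; abel
    · rintro ⟨x, hx, rfl⟩
      rw [mem_closedBall_zero_iff] at hx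
      rw [Metric.mem_closedBall, dist_eq_norm, hA, add_sub_cancel_left, norm_smul,
        Real.norm_of_nonneg hs0.le, hs]
      calc ρ / r * ‖x‖ ≤ ρ / r * r := by gcongr
        _ = ρ := div_mul_cancel₀ _ hr.ne'
  let Ac : C(EE (d + 1), EE (d + 1)) := ⟨A, A.continuous⟩
  let Bc : C(EE (d + 1), EE (d + 1)) := ⟨A.symm, A.symm.continuous⟩
  have hBA : Bc.comp Ac = ContinuousMap.id _ := by
    ext1 x; exact A.symm_apply_apply x
  refine ⟨Metric.closedBall a ρ, Metric.closedBall_mem_nhds a hρ, isCompact_closedBall _ _, hρV,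
    push Ac (d + 1) c0, ?_, ?_⟩
  · rw [hKA]
    exact h1.push (mapsTo_compl_image A.injective _)
  · intro q hq hnul
    rw [hKA] at hq
    obtain ⟨x, hx, rfl⟩ := hq
    refine h2 x hx ?_
    have h3 : Nul {x}ᶜ (push Bc (d + 1) (push Ac (d + 1) c0)) := by
      refine hnul.push ?_
      have := mapsTo_compl_singleton A.symm.injective (A x)
      rw [A.symm_apply_apply] at this
      exact this
    rwa [push_push, hBA, push_id] at h3

end Cls

open Cls in
/-- node C2 -/
theorem nClass (hExc : NExc) (hLoc : NLocAll) (hStar : NStar) : NClass := by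
  intro d Y _ _ _ p
  set φ := chartAt (EE (d + 1)) p with hφ
  have hp : p ∈ φ.source := mem_chart_source (EE (d + 1)) p
  obtain ⟨K1, hK1, hK1c, hK1V, c1, hc1, hc1n⟩ := openClass hLoc hStar d φ.target φ.open_target
    (φ p) (φ.map_source hp)
  let V : Set (EE (d + 1)) := φ.target
  let f : C(V, EE (d + 1)) := incl V
  have hf : IsOpenEmbedding f := φ.open_target.isOpenEmbedding_subtypeVal
  let g : C(V, Y) := (incl φ.source).comp
    ⟨φ.toHomeomorphSourceTarget.symm, φ.toHomeomorphSourceTarget.symm.continuous⟩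
  have hg : IsOpenEmbedding g :=
    φ.open_source.isOpenEmbedding_subtypeVal.comp φ.toHomeomorphSourceTarget.symm.isOpenEmbedding
  have hgs : ∀ v, g v ∈ φ.source := fun v => (φ.toHomeomorphSourceTarget.symm v).2
  let L : Set V := f ⁻¹' K1
  have hfL : f '' L = K1 := by
    refine image_preimage_eq_of_subset ?_
    intro x hx
    exact ⟨⟨x, hK1V hx⟩, rfl⟩
  have hLc : IsCompact L := by
    rw [hf.isEmbedding.isCompact_iff, hfL]; exact hK1c
  obtain ⟨c', hc', hnc'⟩ := (hExc V (EE (d + 1)) f hf L (by rw [hfL]; exact hK1c.isClosed) d).1 c1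
    (by rw [hfL]; exact hc1)
  rw [hfL] at hnc'
  have hne : ∀ v ∈ L, ¬ Nul {v}ᶜ c' := by
    intro v hv hnul
    have e1 := (hExc V (EE (d + 1)) f hf {v} (by rw [image_singleton]; exact isClosed_singleton) d).2
      c' (hc'.mono (compl_subset_compl.2 (singleton_subset_iff.2 hv)))
    rw [image_singleton] at e1
    have e2 : Nul {f v}ᶜ (c1 + push f (d + 1) c') :=
      hnc'.mono (compl_subset_compl.2 (singleton_subset_iff.2 (show f v ∈ K1 from hv)))
    exact hc1n (f v) hv ((Nul_congr e2).2 (e1.2 hnul))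
  refine ⟨g '' L, ?_, hLc.image g.continuous, ⟨p, ?_⟩, push g (d + 1) c', ?_, ?_⟩
  · have h0 : g ⟨φ p, φ.map_source hp⟩ = p := φ.left_inv hp
    have h1 : L ∈ 𝓝 (⟨φ p, φ.map_source hp⟩ : V) := f.continuous.continuousAt.preimage_mem_nhds hK1
    have := hg.isOpenMap.image_mem_nhds h1
    rwa [h0] at this
  · rintro _ ⟨v, _, rfl⟩
    exact hgs v
  · exact hc'.push (mapsTo_compl_image hg.injective _)
  · rintro _ ⟨v, hv, rfl⟩ hnul
    have e1 := (hExc V Y g hg {v} (by rw [image_singleton]; exact isClosed_singleton) d).2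
      c' (hc'.mono (compl_subset_compl.2 (singleton_subset_iff.2 hv)))
    rw [image_singleton] at e1
    exact hne v hv (e1.1 hnul)

end Crest.Agent.R224.T
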