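import Crest.Agent.R224.T.Iface
import Crest.Agent.R224.T.Basic
import Crest.Agent.R224.T.Prism_Mg

-- ▼ part R224/T/LocBase
section

set_option autoImplicit false

noncomputable section

open Topology Set Filter

namespace Crest.Agent.R224.T
namespace LB

section gen
variable {X : Type} [TopologicalSpace X]

/-- cycles in a contractible subset bound in that subset -/
theorem fill_in (hF : NFill) (A : Set X) [ContractibleSpace A] {n : ℕ} {c : Ch (n + 1) X}
    (hc : In A c) (h0 : bd n c = 0) : ∃ b, In A b ∧ bd (n + 1) b = c := by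
  obtain ⟨c', rfl⟩ := exists_incl_eq hc
  rw [bd_push] at h0
  have h1 : bd n c' = 0 := push_injective (f := incl A) Subtype.val_injective n (by simpa using h0)
  obtain ⟨b', hb'⟩ := hF A n c' h1
  exact ⟨push (incl A) (n + 2) b', In_push_incl b', by rw [bd_push, hb']⟩

theorem eq_zero_of_In_disjoint {A B : Set X} (hAB : Disjoint A B) {n : ℕ} {c : Ch n X}
    (hA : In A c) (hB : In B c) : c = 0 := by
  apply eq_zero_of_In_empty
  rw [← hAB.inter_eq]
  exact In_inter.2 ⟨hA, hB⟩

instance (n : ℕ) : PreconnectedSpace (Dl n) :=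
  isPreconnected_iff_preconnectedSpace.1 (convex_stdSimplex ℝ (Fin (n + 1))).isPreconnected

/-- splitting of a chain in a union of two disjoint open sets -/
theorem split_disjoint {A B : Set X} (hA : IsOpen A) (hB : IsOpen B) (hAB : Disjoint A B) {n : ℕ}
    {c : Ch n X} (hc : In (A ∪ B) c) : ∃ a b : Ch n X, In A a ∧ In B b ∧ c = a + b := by
  refine Small.split fun σ hσ => ?_
  rcases (isPreconnected_range σ.continuous).subset_or_subset hA hB hAB (hc σ hσ) with h | h
  · exact ⟨A, by simp, h⟩
  · exact ⟨B, by simp, h⟩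

/-- in a contractible space a chain is null modulo `A` if its boundary bounds in `A` -/
theorem nul_of_fill (hF : NFill) [ContractibleSpace X] {A : Set X} {n : ℕ} {c w : Ch (n + 1) X}
    (hw : In A w) (h : bd n w = bd n c) : Nul A c := by
  have h0 : bd n (c + w) = 0 := by rw [map_add, h, add_self]
  obtain ⟨b, hb⟩ := hF X n (c + w) h0
  exact ⟨b, w, hw, by rw [hb, add_add_cancel']⟩

/-! ### zero chains -/

/-- the vertex of `Dl 0` -/
def pt0 : Dl 0 := ⟨Pi.single 0 1, single_mem_stdSimplex ℝ (0 : Fin 1)⟩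

theorem dl0_eq (x : Dl 0) : x = pt0 := Subsingleton.elim _ _

/-- constant simplex -/
def cst (n : ℕ) (p : X) : C(Dl n, X) := ContinuousMap.const _ p

theorem eq_cst (σ : C(Dl 0, X)) : σ = cst 0 (σ pt0) := by
  ext x
  rw [dl0_eq x]; rfl

/-- weighted count of points -/
def cnt (f : X → ZMod 2) : Ch 0 X →ₗ[ZMod 2] ZMod 2 :=
  Finsupp.linearCombination (ZMod 2) fun σ : C(Dl 0, X) => f (σ pt0)

theorem cnt_single (f : X → ZMod 2) (σ : C(Dl 0, X)) :
    cnt f (Finsupp.single σ 1) = f (σ pt0) := by
  simp [cnt, Finsupp.linearCombination_single]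

/-- the vertices of `Dl 1` -/
def v1 (i : Fin 2) : Dl 1 := ⟨Pi.single i 1, single_mem_stdSimplex ℝ i⟩

theorem bd0_single (σ : C(Dl 1, X)) :
    bd 0 (Finsupp.single σ 1) = Finsupp.single (cst 0 (σ (v1 1))) 1 +
      Finsupp.single (cst 0 (σ (v1 0))) (1 : ZMod 2) := by
  rw [bd_single, Fin.sum_univ_two]
  have h0 : face 0 0 pt0 = v1 1 := by
    apply Subtype.ext
    ext i
    fin_cases i <;> simp [face, pt0, v1, stdSimplex.map, FunOnFinite.linearMap]
  have h1 : face 0 1 pt0 = v1 0 := by
    apply Subtype.ext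
    ext i
    fin_cases i <;> simp [face, pt0, v1, stdSimplex.map]
  rw [eq_cst (σ.comp (face 0 0)), eq_cst (σ.comp (face 0 1)), ContinuousMap.comp_apply,
    ContinuousMap.comp_apply, h0, h1]

theorem cnt_bd0_single (f : X → ZMod 2) (σ : C(Dl 1, X)) :
    cnt f (bd 0 (Finsupp.single σ 1)) = f (σ (v1 1)) + f (σ (v1 0)) := by
  rw [bd0_single, map_add, cnt_single, cnt_single]; rfl

/-- the augmentation -/
def aug : Ch 0 X →ₗ[ZMod 2] ZMod 2 := cnt fun _ => 1

theorem aug_bd (c : Ch 1 X) : aug (bd 0 c) = 0 := by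
  refine chain_ind (P := fun c => aug (bd 0 c) = 0) c (by simp) ?_ ?_
  · intro a b ha hb
    rw [map_add, map_add, ha, hb, add_zero]
  · intro σ
    unfold aug
    rw [cnt_bd0_single]
    decide

/-- one-simplex of a path -/
def pathSx {p q : X} (γ : Path p q) : C(Dl 1, X) :=
  ⟨fun x => γ ⟨x.1 1, x.2.1 1, by
      have h := x.2.2
      rw [Fin.sum_univ_two] at h
      have := x.2.1 0
      linarith⟩, by
      refine γ.continuous.comp (Continuous.subtype_mk ?_ _)
      exact (continuous_apply 1).comp continuous_subtype_val⟩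

theorem pathSx_v1_one {p q : X} (γ : Path p q) : pathSx γ (v1 1) = q := by
  have : (⟨(v1 1).1 1, (v1 1).2.1 1, by simp [v1]⟩ : unitInterval) = 1 := by
    apply Subtype.ext; simp [v1]
  unfold pathSx
  simp only [ContinuousMap.coe_mk]
  rw [this]; exact γ.target

theorem pathSx_v1_zero {p q : X} (γ : Path p q) : pathSx γ (v1 0) = p := by
  have : (⟨(v1 0).1 1, (v1 0).2.1 1, by simp [v1]⟩ : unitInterval) = 0 := by
    apply Subtype.ext; simp [v1]
  unfold pathSx
  simp only [ContinuousMap.coe_mk]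
  rw [this]; exact γ.source

theorem range_pathSx {p q : X} (γ : Path p q) : range (pathSx γ) ⊆ range γ := by
  rintro _ ⟨x, rfl⟩
  exact ⟨_, rfl⟩

/-- zero chains with augmentation zero bound in a path connected set -/
theorem fill0 {A : Set X} (hA : IsPathConnected A) {c : Ch 0 X} (hc : In A c) (h0 : aug c = 0) :
    ∃ b : Ch 1 X, In A b ∧ bd 0 b = c := by
  obtain ⟨p, hp, hj⟩ := hA
  have key : ∃ b : Ch 1 X, In A b ∧ bd 0 b = c + aug c • Finsupp.single (cst 0 p) 1 := by
    refine hc.ind (P := fun c => ∃ b : Ch 1 X, In A b ∧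
      bd 0 b = c + aug c • Finsupp.single (cst 0 p) 1) ⟨0, In_zero A 1, by simp⟩ ?_ ?_
    · rintro a b ⟨u, hu, hu'⟩ ⟨v, hv, hv'⟩
      refine ⟨u + v, hu.add hv, ?_⟩
      rw [map_add, hu', hv', map_add, add_smul]
      abel
    · intro σ hσ
      have hq : σ pt0 ∈ A := hσ ⟨_, rfl⟩
      obtain ⟨γ, hγ⟩ := hj hq
      refine ⟨Finsupp.single (pathSx γ) 1, ?_, ?_⟩
      · rw [In_single]
        refine (range_pathSx γ).trans ?_
        rintro _ ⟨t, rfl⟩
        exact hγ t
      · rw [bd0_single, pathSx_v1_one, pathSx_v1_zero, ← eq_cst]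
        have : aug (Finsupp.single σ (1 : ZMod 2)) = 1 := cnt_single _ σ
        rw [this, one_smul]
  obtain ⟨b, hb, hb'⟩ := key
  exact ⟨b, hb, by rw [hb', h0, zero_smul, add_zero]⟩

end gen

/-- degree one, dimension at least two -/
theorem loc_one (hF : NFill) (d : ℕ) (c : Ch 1 (EE (d + 2))) (hc : RC {0}ᶜ c) : Nul {0}ᶜ c := by
  have hpc : IsPathConnected ({0}ᶜ : Set (EE (d + 2))) := by
    refine isPathConnected_compl_singleton_of_one_lt_rank ?_ 0
    rw [← Module.finrank_eq_rank, finrank_euclideanSpace_fin]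
    exact_mod_cast Nat.lt_of_lt_of_le (by norm_num) (Nat.le_add_left 2 d)
  obtain ⟨b, hb, hb'⟩ := fill0 hpc hc (aug_bd c)
  exact nul_of_fill hF hb hb'

/-! ### dimension one -/

/-- positive and negative half lines -/
def Pos : Set (EE 1) := {x | 0 < x 0}
def Neg : Set (EE 1) := {x | x 0 < 0}

theorem isOpen_Pos : IsOpen Pos := isOpen_lt continuous_const (by fun_prop)
theorem isOpen_Neg : IsOpen Neg := isOpen_lt (by fun_prop) continuous_const

theorem convex_Pos : Convex ℝ Pos := by
  intro x hx y hy a b ha hb hab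
  simp only [Pos, mem_ofPred_eq, PiLp.add_apply, PiLp.smul_apply, smul_eq_mul] at *
  rcases ha.eq_or_lt with h | h
  · subst h; have : b = 1 := by linarith
    subst this; simpa using hy
  · nlinarith [mul_pos h hx, mul_nonneg hb hy.le]

theorem convex_Neg : Convex ℝ Neg := by
  intro x hx y hy a b ha hb hab
  simp only [Neg, mem_ofPred_eq, PiLp.add_apply, PiLp.smul_apply, smul_eq_mul] at *
  rcases ha.eq_or_lt with h | h
  · subst h; have : b = 1 := by linarith
    subst this; simpa using hy
  · nlinarith [mul_pos h (neg_pos.2 hx), mul_nonneg hb (neg_pos.2 hy).le]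

theorem disj : Disjoint Pos Neg := by
  rw [Set.disjoint_left]
  intro x hx hy
  simp only [Pos, Neg, mem_ofPred_eq] at *
  linarith

theorem compl_eq : ({0}ᶜ : Set (EE 1)) = Pos ∪ Neg := by
  ext x
  simp only [mem_compl_iff, mem_singleton_iff, Pos, Neg, mem_union, mem_ofPred_eq]
  constructor
  · intro h
    rcases lt_trichotomy (x 0) 0 with h1 | h1 | h1
    · exact Or.inr h1
    · exfalso; apply h; ext i; fin_cases i; simpa using h1
    · exact Or.inl h1
  · rintro (h | h) rfl <;> simp at h

/-- the point with coordinate `t` -/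
def pnt (t : ℝ) : EE 1 := EuclideanSpace.single 0 t

theorem pnt_mem_Pos : pnt 1 ∈ Pos := by simp [pnt, Pos]
theorem pnt_mem_Neg : pnt (-1) ∈ Neg := by simp [pnt, Neg]

instance : ContractibleSpace Pos := convex_Pos.contractibleSpace ⟨_, pnt_mem_Pos⟩
instance : ContractibleSpace Neg := convex_Neg.contractibleSpace ⟨_, pnt_mem_Neg⟩

theorem pc_Pos : IsPathConnected Pos := convex_Pos.isPathConnected ⟨_, pnt_mem_Pos⟩
theorem pc_Neg : IsPathConnected Neg := convex_Neg.isPathConnected ⟨_, pnt_mem_Neg⟩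

open Classical in
/-- number of positive points -/
def np : Ch 0 (EE 1) →ₗ[ZMod 2] ZMod 2 := cnt fun x => if x ∈ Pos then 1 else 0

theorem np_of_Pos {c : Ch 0 (EE 1)} (h : In Pos c) : np c = aug c := by
  refine h.ind (P := fun c => np c = aug c) (by simp) ?_ ?_
  · intro a b ha hb; rw [map_add, map_add, ha, hb]
  · intro σ hσ
    unfold np aug
    rw [cnt_single, cnt_single, if_pos (hσ ⟨_, rfl⟩)]

theorem np_of_Neg {c : Ch 0 (EE 1)} (h : In Neg c) : np c = 0 := by
  refine h.ind (P := fun c => np c = 0) (by simp) ?_ ?_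
  · intro a b ha hb; rw [map_add, ha, hb, add_zero]
  · intro σ hσ
    unfold np
    rw [cnt_single, if_neg]
    exact fun hh => Set.disjoint_left.1 disj hh (hσ ⟨_, rfl⟩)

/-- the parity of the number of positive boundary points decides -/
theorem nul_of_np (hF : NFill) {c : Ch 1 (EE 1)} (hc : RC {0}ᶜ c) (h : np (bd 0 c) = 0) :
    Nul {0}ᶜ c := by
  have hc' : In (Pos ∪ Neg) (bd 0 c) := by rw [← compl_eq]; exact hc
  obtain ⟨a, b, ha, hb, hab⟩ := split_disjoint isOpen_Pos isOpen_Neg disj hc'
  have h1 : aug a = 0 := by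
    have := h
    rw [hab, map_add, np_of_Neg hb, add_zero, np_of_Pos ha] at this
    exact this
  have h2 : aug b = 0 := by
    have := aug_bd c
    rw [hab, map_add, h1, zero_add] at this
    exact this
  obtain ⟨u, hu, hu'⟩ := fill0 pc_Pos ha h1
  obtain ⟨v, hv, hv'⟩ := fill0 pc_Neg hb h2
  refine nul_of_fill hF (w := u + v) ?_ ?_
  · rw [compl_eq]
    exact (hu.mono subset_union_left).add (hv.mono subset_union_right)
  · rw [map_add, hu', hv', hab]

theorem np_of_nul {c : Ch 1 (EE 1)} (h : Nul {0}ᶜ c) : np (bd 0 c) = 0 := by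
  obtain ⟨b, e, he, rfl⟩ := h
  rw [map_add, bd_bd]
  simp only [zero_add]
  have he' : In (Pos ∪ Neg) e := by rw [← compl_eq]; exact he
  obtain ⟨u, v, hu, hv, rfl⟩ := split_disjoint isOpen_Pos isOpen_Neg disj he'
  rw [map_add, map_add, np_of_Neg hv.bd, np_of_Pos hu.bd, aug_bd, add_zero]

/-- **B1, dimension one** -/
theorem nLoc_zero (hF : NFill) : NLoc 0 := by
  refine ⟨?_, ?_, ?_⟩
  · intro q c hq hc
    obtain ⟨n, rfl⟩ : ∃ n, q = n + 1 := ⟨q - 1, by omega⟩
    have hc' : In (Pos ∪ Neg) (bd (n + 1) c) := by rw [← compl_eq]; exact hc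
    obtain ⟨a, b, ha, hb, hab⟩ := split_disjoint isOpen_Pos isOpen_Neg disj hc'
    have h0 : bd n a + bd n b = 0 := by rw [← map_add, ← hab, bd_bd]
    have h1 : bd n a = bd n b := (add_eq_zero_iff _ _).1 h0
    have h2 : bd n a = 0 := eq_zero_of_In_disjoint disj ha.bd (by rw [h1]; exact hb.bd)
    have h3 : bd n b = 0 := by rw [← h1, h2]
    obtain ⟨u, hu, hu'⟩ := fill_in hF Pos ha h2
    obtain ⟨v, hv, hv'⟩ := fill_in hF Neg hb h3
    refine nul_of_fill hF (w := u + v) ?_ ?_
    · rw [compl_eq]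
      exact (hu.mono subset_union_left).add (hv.mono subset_union_right)
    · rw [map_add, hu', hv', hab]
  · have hj : JoinedIn univ (pnt (-1)) (pnt 1) :=
      (convex_univ.isPathConnected ⟨_, mem_univ (pnt 0)⟩).joinedIn _ (mem_univ _) _ (mem_univ _)
    obtain ⟨γ, -⟩ := hj
    refine ⟨Finsupp.single (pathSx γ) 1, ?_, ?_⟩
    · unfold RC
      rw [bd0_single, pathSx_v1_one, pathSx_v1_zero, compl_eq]
      refine In.add (In_single.2 ?_) (In_single.2 ?_)
      · rintro _ ⟨x, rfl⟩; exact Or.inl pnt_mem_Pos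
      · rintro _ ⟨x, rfl⟩; exact Or.inr pnt_mem_Neg
    · intro h
      have := np_of_nul h
      unfold np at this
      rw [cnt_bd0_single, pathSx_v1_one, pathSx_v1_zero, if_pos pnt_mem_Pos,
        if_neg (fun hh => Set.disjoint_left.1 disj hh pnt_mem_Neg)] at this
      revert this; decide
  · intro c c' hc hc' hn hn'
    have h1 : ∀ a : ZMod 2, a ≠ 0 → a = 1 := by decide
    have h2 := h1 _ fun h => hn (nul_of_np hF hc h)
    have h3 := h1 _ fun h => hn' (nul_of_np hF hc' h)
    refine nul_of_np hF (hc.add hc') ?_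
    rw [map_add, map_add, h2, h3]
    decide

end LB
end Crest.Agent.R224.T
end
end

-- ▼ part R224/T/LocAll
section

set_option autoImplicit false

namespace Crest.Agent.R224.T

/-- B1: local homology of Euclidean space at the origin, in every dimension -/
theorem nLocAll (hP : NPrism) (hS : NSub) (hF : NFill) : NLocAll := by
  intro d
  induction d with
  | zero => exact LB.nLoc_zero hF
  | succ d ih => exact Loc.nLoc_succ hP hS hF d ih (LB.loc_one hF d)

end Crest.Agent.R224.T
end

-- ▼ part R224/T/Fill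

/-!
# R224 topological half, node A3 (NFill): cycles in a contractible space bound (helper543)
-/

set_option autoImplicit false

noncomputable section

open Topology Set Filter

namespace Crest.Agent.R224.T

namespace Fill

variable {X : Type} [TopologicalSpace X]

/-- constant simplex -/
def k (y : X) (m : ℕ) : C(Dl m, X) := ContinuousMap.const _ y

lemma push_const (y : X) (m : ℕ) (c : Ch m X) :
    push (ContinuousMap.const X y) m c =
      (Finsupp.linearCombination (ZMod 2) (fun _ : C(Dl m, X) => (1 : ZMod 2)) c) •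
        (Finsupp.single (k y m) (1 : ZMod 2) : Ch m X) := by
  refine chain_ind (P := fun c => push (ContinuousMap.const X y) m c =
      (Finsupp.linearCombination (ZMod 2) (fun _ : C(Dl m, X) => (1 : ZMod 2)) c) •
        (Finsupp.single (k y m) (1 : ZMod 2) : Ch m X)) c (by simp) ?_ ?_
  · intro a b ha hb
    simp only [map_add, ha, hb, add_smul]
  · intro σ
    rw [push_single]
    simp only [Finsupp.linearCombination_single, smul_eq_mul, mul_one, one_smul]
    rfl

lemma bd_k (y : X) (m : ℕ) : bd m (Finsupp.single (k y (m + 1)) (1 : ZMod 2)) =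
    ((m + 2 : ℕ) : ZMod 2) • (Finsupp.single (k y m) (1 : ZMod 2) : Ch m X) := by
  rw [bd_single]
  have h : ∀ i : Fin (m + 2), (k y (m + 1)).comp (face m i) = k y m := fun i => rfl
  simp only [h, Finset.sum_const, Finset.card_univ, Fintype.card_fin]
  rw [Nat.cast_smul_eq_nsmul]

end Fill

open Fill in
/-- Node A3. -/
theorem nFill (hP : NPrism) : NFill := by
  intro X _ _ n c hc
  obtain ⟨y, ⟨F⟩⟩ := id_nullhomotopic X
  let H : C(X × unitInterval, X) := F.toContinuousMap.comp ⟨fun p => (p.2, p.1), by fun_prop⟩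
  obtain ⟨P, -, hP1, -⟩ := hP X X H
  have h0 : (H.comp ⟨fun x => (x, 0), by fun_prop⟩ : C(X, X)) = ContinuousMap.id X := by
    ext x
    exact F.apply_zero x
  have h1 : (H.comp ⟨fun x => (x, 1), by fun_prop⟩ : C(X, X)) = ContinuousMap.const X y := by
    ext x
    exact F.apply_one x
  have h2 := hP1 n c
  rw [h0, h1, hc, map_zero, add_zero, push_id] at h2
  -- `h2 : bd (P c) = push const c + c`
  have h3 : ∃ b, bd (n + 1) b = push (ContinuousMap.const X y) (n + 1) c := by
    rcases Nat.even_or_odd n with he | ho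
    · refine ⟨(Finsupp.linearCombination (ZMod 2) (fun _ : C(Dl (n + 1), X) => (1 : ZMod 2)) c) •
        (Finsupp.single (k y (n + 2)) (1 : ZMod 2) : Ch (n + 2) X), ?_⟩
      rw [map_smul, bd_k, push_const]
      have : ((n + 1 + 2 : ℕ) : ZMod 2) = 1 := by
        rw [ZMod.natCast_eq_one_iff_odd]
        exact (he.add_one).add_even (by norm_num)
      rw [this, one_smul]
    · refine ⟨0, ?_⟩
      rw [map_zero, push_const]
      have h4 : bd n (push (ContinuousMap.const X y) (n + 1) c) = 0 := by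
        rw [bd_push, hc, map_zero]
      rw [push_const, map_smul, bd_k] at h4
      have : ((n + 2 : ℕ) : ZMod 2) = 1 := by
        rw [ZMod.natCast_eq_one_iff_odd]
        exact ho.add_even (by norm_num)
      rw [this, one_smul] at h4
      have h5 := DFunLike.congr_fun h4 (k y n)
      simp only [Finsupp.smul_apply, Finsupp.single_eq_same, smul_eq_mul, mul_one,
        Finsupp.coe_zero, Pi.zero_apply] at h5
      rw [h5, zero_smul]
  obtain ⟨b, hb⟩ := h3
  refine ⟨b + P (n + 1) c, ?_⟩
  rw [map_add, hb, h2, add_add_cancel]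

end Crest.Agent.R224.T
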