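import Crest.Agent.R224.BDefs
import Crest.Agent.R224.DBas
import Crest.Agent.R224.PotNodes
import Mathlib
import Crest.Agent.R224.Iface
import Crest.Agent.R224.NodeNull_Mg
import Crest.Agent.R224.Bdry_Mg
import Crest.Agent.R224.CutFam2_Mg
import Crest.Agent.R224.Block
import Crest.Agent.R224.DirB
import Crest.Agent.R224.NodeDyn
import Crest.Agent.R224.NodePart_Mg
import Crest.Agent.R224.Side
import Crest.Agent.R224.T.Class_Mg
import Crest.Agent.R224.T.Fill_Mg
import Crest.Agent.R224.T.GeoAct_Mg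
import Crest.Agent.R224.T.Prism_Mg

-- ▼ part R224/NodeThmB
section

set_option autoImplicit false

noncomputable section

open MeasureTheory Set Filter Topology

namespace Crest.Agent.R224

theorem cutLt.trans {Z : Type} {c d e : Z × Set Z} (h1 : cutLt c d) (h2 : cutLt d e) :
    cutLt c e := by
  unfold cutLt at *
  exact h1.trans ((subset_insert d.1 d.2).trans h2)

theorem cutLt.sub {Z : Type} {c d : Z × Set Z} (h : cutLt c d) : c.2 ⊆ d.2 :=
  (subset_insert _ _).trans h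

namespace ThmB

variable (s : Sys)

theorem cutD_mono {c d : s.Z × Set s.Z} (h : cutLt c d) : cutD s.ν c ⊆ cutD s.ν d := by
  intro x hx
  exact lt_of_lt_of_le hx (s.hh_mono h.sub x)

theorem hh_union_inter {U V : Set s.Z} (hV : MeasurableSet V) (x : s.G) :
    hh s.ν (U ∪ V) x + hh s.ν (U ∩ V) x = hh s.ν U x + hh s.ν V x := by
  unfold hh
  exact measureReal_union_add_inter hV

theorem hh_T (x : s.G) : hh s.ν (T s.ι) x = 1 := by
  have h1 : s.ν x (T s.ι)ᶜ = 0 := s.harm.supp x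
  have h2 : (s.ν x).real (T s.ι)ᶜ = 0 := by simp [Measure.real, h1]
  have hm : MeasurableSet (T s.ι) := s.isClosed_T.measurableSet
  have h3 := measureReal_add_measureReal_compl (μ := s.ν x) hm
  rw [h2, probReal_univ, add_zero] at h3
  exact h3

/-- (L1) of note 9910 -/
theorem compare (hC : PConn s) (hH : PHalf s) (hP : PAlg s) {c d : s.Z × Set s.Z}
    (hc : Clp s.ι c.1 c.2) (hd : Clp s.ι d.1 d.2) (hne : c.1 ≠ d.1) {x y : s.G}
    (hxc : 1 / 2 < hh s.ν c.2 x) (hxd : 1 / 2 < hh s.ν d.2 x)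
    (hyc : hh s.ν c.2 y ≤ 1 / 2) (hyd : hh s.ν d.2 y ≤ 1 / 2) : cutLt c d ∨ cutLt d c := by
  obtain ⟨η, U⟩ := c
  obtain ⟨ξ, W⟩ := d
  simp only at *
  have hdisj : ¬ Disjoint U W := by
    intro h
    have h1 := hh_union_inter s (U := U) (V := W) hd.meas x
    rw [h.inter_eq] at h1
    have h2 : hh s.ν (∅ : Set s.Z) x = 0 := by simp [hh]
    have h3 := s.hh_le_one (U ∪ W) x
    linarith
  by_cases h1 : ξ ∈ U
  · by_cases h2 : η ∈ W
    · exfalso
      -- both : cover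
      have hU' := (hP η U U hc hc).1
      have hξ : ξ ∉ cmp s.ι η U := fun h => h.2.2 h1
      rcases hH η (cmp s.ι η U) ξ W hU' hd hne hξ with h | h
      · -- T = U ∪ W
        have hcov : T s.ι ⊆ U ∪ W := by
          intro z hz
          by_cases hzη : z = η
          · right; rw [hzη]; exact h2
          · by_cases hzU : z ∈ U
            · left; exact hzU
            · right; exact h (Or.inl ⟨hz, hzη, hzU⟩)
        have hne' : (U ∩ W).Nonempty := by
          by_contra hcon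
          rw [not_nonempty_iff_eq_empty] at hcon
          refine hC W hd.ro ?_ ⟨η, h2⟩ ⟨ξ, hc.sub h1, hd.notMem⟩
          have : T s.ι \ W = U := by
            ext z
            constructor
            · rintro ⟨hz, hzW⟩
              exact (hcov hz).resolve_right hzW
            · intro hz
              refine ⟨hc.sub hz, fun hzW => ?_⟩
              have : z ∈ U ∩ W := ⟨hz, hzW⟩
              rw [hcon] at this; exact this
          rw [this]; exact hc.ro
        obtain ⟨O, hO, hOU⟩ := hc.ro.inter hd.ro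
        have hpos : 0 < hh s.ν (U ∩ W) y := by
          have h3 := s.harm.full y O hO (by rw [hOU]; exact hne')
          have h4 : hh s.ν O y ≤ hh s.ν (U ∩ W) y := by
            have h5 : hh s.ν O y ≤ hh s.ν (O ∩ T s.ι) y + hh s.ν (T s.ι)ᶜ y := by
              unfold hh
              refine (measureReal_mono (μ := s.ν y) (?_ : O ⊆ (O ∩ T s.ι) ∪ (T s.ι)ᶜ)).trans
                (measureReal_union_le _ _)
              intro z hz
              by_cases hzT : z ∈ T s.ι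
              · left; exact ⟨hz, hzT⟩
              · right; exact hzT
            have h6 : hh s.ν (T s.ι)ᶜ y = 0 := by
              unfold hh; simp [Measure.real, s.harm.supp y]
            rw [h6, hOU] at h5
            linarith
          exact lt_of_lt_of_le h3 h4
        have h5 := hh_union_inter s (U := U) (V := W) hd.meas y
        have h6 : 1 ≤ hh s.ν (U ∪ W) y := by
          rw [← hh_T s y]; exact s.hh_mono hcov y
        linarith
      · exact Set.disjoint_left.1 h (Or.inr rfl) h2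
    · right
      rcases hH ξ W η U hd hc hne.symm h2 with h | h
      · intro z hz
        rcases hz with rfl | hz
        · exact h (Or.inr rfl)
        · exact h (Or.inl hz)
      · exact absurd h1 (Set.disjoint_left.1 h (Or.inr rfl))
  · left
    rcases hH η U ξ W hc hd hne h1 with h | h
    · intro z hz
      rcases hz with rfl | hz
      · exact h (Or.inr rfl)
      · exact h (Or.inl hz)
    · exact absurd (h.mono_left subset_union_left) hdisj

/-- union of a strictly increasing sequence of cuts is in the family -/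
theorem mem_limFam {c : ℕ → s.Z × Set s.Z} (hc : ∀ n, Clp s.ι (c n).1 (c n).2)
    (hlt : ∀ n, cutLt (c n) (c (n+1))) {y : s.G} (hy : ∀ n, hh s.ν (c n).2 y ≤ 1 / 2) :
    (⋃ n, cutD s.ν (c n)) ∈ LimFam s.ι s.ν := by
  refine ⟨?_, ?_⟩
  · intro h
    have : y ∈ ⋃ n, cutD s.ν (c n) := by rw [h]; trivial
    obtain ⟨n, hn⟩ := mem_iUnion.1 this
    exact absurd hn (not_lt.2 (hy n))
  · intro K hK
    have hmono : Monotone fun n => cutD s.ν (c n) :=
      monotone_nat_of_le_succ fun n => cutD_mono s (hlt n)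
    obtain ⟨n, hn⟩ : ∃ n, (K : Set s.G) ⊆ cutD s.ν (c n) :=
      (hmono.directed_le).exists_mem_subset_of_finset_subset_biUnion hK
    refine ⟨c n, c (n+1), c (n+2), c (n+3), hc _, hc _, hc _, hc _, hlt _, hlt _, hlt _, hn, ?_⟩
    exact subset_iUnion (fun n => cutD s.ν (c n)) (n+3)

theorem thmB_of_empty (hC : PConn s) (hH : PHalf s) (hP : PAlg s)
    (h : LimFam s.ι s.ν = ∅) : NThmB s := by
  intro x y _
  by_contra hinf
  have hinf : {η | Cross s.ι s.ν x y η}.Infinite := hinf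
  choose! U hU1 hU2 hU3 using fun (η : s.Z) (h : Cross s.ι s.ν x y η) => h
  have em := hinf.natEmbedding
  let f : ℕ → s.Z := fun n => (em n : s.Z)
  have hf : ∀ n, Cross s.ι s.ν x y (f n) := fun n => (em n).2
  have hfi : Function.Injective f := fun a b hab =>
    em.injective (Subtype.ext hab)
  let c : ℕ → s.Z × Set s.Z := fun n => (f n, U (f n))
  have hcl : ∀ n, Clp s.ι (c n).1 (c n).2 := fun n => hU1 _ (hf n)
  haveI : IsTrans (s.Z × Set s.Z) cutLt := ⟨fun _ _ _ h1 h2 => h1.trans h2⟩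
  obtain ⟨g, hg⟩ := exists_increasing_or_nonincreasing_subseq cutLt c
  rcases hg with hg | hg
  · have hm := mem_limFam s (c := fun n => c (g n)) (fun n => hcl _)
      (fun n => hg n (n+1) (Nat.lt_succ_self n)) (y := y) (fun n => hU3 _ (hf _))
    rw [h] at hm; exact hm
  · have hg' : ∀ n, cutLt (c (g (n+1))) (c (g n)) := by
      intro n
      have h1 := hg n (n+1) (Nat.lt_succ_self n)
      have hne : (c (g n)).1 ≠ (c (g (n+1))).1 := by
        intro heq
        have := g.injective (hfi heq)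
        omega
      exact (compare s hC hH hP (hcl _) (hcl _) hne (hU2 _ (hf _)) (hU2 _ (hf _)) (hU3 _ (hf _))
        (hU3 _ (hf _))).resolve_left h1
    let d : ℕ → s.Z × Set s.Z := fun n => (f (g n), cmp s.ι (f (g n)) (U (f (g n))))
    have hm := mem_limFam s (c := d) (fun n => (hP _ _ _ (hcl (g n)) (hcl (g n))).1) ?_ (y := x) ?_
    · rw [h] at hm; exact hm
    · intro n z hz
      have h1 := hg' n
      have hη' : f (g (n+1)) ∈ U (f (g n)) := h1 (mem_insert _ _)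
      rcases hz with rfl | hz
      · refine ⟨(hcl (g n)).mem, ?_, fun hz => (hcl (g n)).notMem (h1.sub hz)⟩
        intro heq
        have := g.injective (hfi heq)
        omega
      · refine ⟨hz.1, ?_, fun hz' => hz.2.2 (h1.sub hz')⟩
        rintro rfl
        exact hz.2.2 hη'
    · intro n
      have h1 := (hcl (g n)).hh_add x
      have h2 := hU2 _ (hf (g n))
      simp only [d]
      simp only [c] at h1
      linarith

end ThmB

/-- node NThmB, from the nodes NPrinM, NCore, NFam -/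
theorem nThmB (s : Sys) (hC : PConn s) (hH : PHalf s) (hP : PAlg s) (hPr : NPrinM) (hCo : NCore)
    (hF : NFam s) : NThmB s :=
  ThmB.thmB_of_empty s hC hH hP
    (hCo s.G s.S s.top s.inf (hPr s.G s.S s.top s.non s.inf) _ hF)

end Crest.Agent.R224
end
end

-- ▼ part R224/PrincM
section

/-!
Row 224, group half: Principle M' (node `NPrinM`), step 5 of note 9910.
-/

set_option autoImplicit false
set_option linter.unusedSectionVars false

noncomputable section

open Set Filter Topology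

namespace Crest.Agent.R224

open Pot

variable {G : Type} [Group G] {F : Finset G} {κ : ℝ}

theorem sum_gk_mu_le (hF : SymGen F) (hN : NA F κ) {w : G → ℝ} (h0 : ∀ x, 0 ≤ w x)
    (h1 : ∀ x, w x ≤ 1) (hs : ∀ x, w x ≤ avg F w x) (x : G) (V : Finset G) :
    ∑ v ∈ V, gk F x v * (avg F w v - w v) ≤ 1 := by
  classical
  have := hN.infinite
  set q : G → ℝ := fun y => if y ∈ V then (avg F w y - w y) else 0 with hq
  have hqL : L2 q := L2.of_finite_support (V.finite_toSet.subset fun y hy => by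
    by_contra h
    exact hy (if_neg h))
  have hgr : green F q x = ∑ v ∈ V, (avg F w v - w v) * gk F x v := by
    rw [← green_finset hF hN V (fun y => avg F w y - w y) x]
  have hmax := max_principle' hF (w := fun y => green F q y + (w y - 1)) (fun y => ?_)
    (fun ε hε => ?_) x
  · have e : ∑ v ∈ V, gk F x v * (avg F w v - w v) = green F q x := by
      rw [hgr]
      exact Finset.sum_congr rfl fun v _ => mul_comm _ _
    rw [e]
    have := h0 x
    linarith
  · rw [avg_add, avg_sub, avg_const hF]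
    have e1 := green_eq hF hN hqL y
    have e2 : q y ≤ avg F w y - w y := by
      simp only [hq]
      split_ifs
      · exact le_rfl
      · linarith [hs y]
    linarith
  · refine ((green_L2 (F := F) q).finite hε).subset fun y hy => ?_
    have h2 : ε ≤ green F q y + (w y - 1) := hy
    change ε ≤ green F q y
    linarith [h1 y]

theorem summable_gk_mu (hF : SymGen F) (hN : NA F κ) {w : G → ℝ} (h0 : ∀ x, 0 ≤ w x)
    (h1 : ∀ x, w x ≤ 1) (hs : ∀ x, w x ≤ avg F w x) (x : G) :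
    Summable fun v => gk F x v * (avg F w v - w v) :=
  summable_of_sum_le (fun v => mul_nonneg (gk_nonneg hF hN x v) (by linarith [hs v]))
    (fun V => sum_gk_mu_le hF hN h0 h1 hs x V)

/-- Harnack-type inequality for nonnegative subharmonic functions with explicit defect. -/
theorem subharm_word (hF : SymGen F) (g : G) : ∃ C : ℝ, 0 < C ∧ ∃ P : Finset G,
    ∀ w : G → ℝ, (∀ x, 0 ≤ w x) → (∀ x, w x ≤ avg F w x) →
    ∀ a, w a ≤ C * (w (a * g) + ∑ p ∈ P, (avg F w (a * p) - w (a * p))) := by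
  classical
  refine SymGen.conn hF (p := fun g => ∃ C : ℝ, 0 < C ∧ ∃ P : Finset G,
    ∀ w : G → ℝ, (∀ x, 0 ≤ w x) → (∀ x, w x ≤ avg F w x) →
    ∀ a, w a ≤ C * (w (a * g) + ∑ p ∈ P, (avg F w (a * p) - w (a * p)))) ?_ (x0 := 1) ?_ g
  · rintro g ⟨C, hC, P, h⟩ s hs
    have hcard : (1 : ℝ) ≤ F.card := by exact_mod_cast hF.ne.card_pos
    refine ⟨C * (2 * F.card), by positivity, insert (g * s) P, fun w h0 hw a => ?_⟩
    have e1 := h w h0 hw a
    have e2 : w (a * g) ≤ F.card * (w (a * (g * s)) + (avg F w (a * (g * s)) - w (a * (g * s)))) := by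
      have e3 : w (a * (g * s) * s⁻¹) ≤ ∑ t ∈ F, w (a * (g * s) * t) :=
        Finset.single_le_sum (f := fun t => w (a * (g * s) * t)) (fun t _ => h0 _) (hF.symm s hs)
      rw [← card_mul_avg hF] at e3
      have e4 : a * (g * s) * s⁻¹ = a * g := by group
      rw [e4] at e3
      linarith
    have hnn : ∀ p, 0 ≤ avg F w (a * p) - w (a * p) := fun p => by linarith [hw (a * p)]
    have e5 : (avg F w (a * (g * s)) - w (a * (g * s))) ≤
        ∑ p ∈ insert (g * s) P, (avg F w (a * p) - w (a * p)) :=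
      Finset.single_le_sum (f := fun p => avg F w (a * p) - w (a * p)) (fun p _ => hnn p)
        (Finset.mem_insert_self _ _)
    have e6 : ∑ p ∈ P, (avg F w (a * p) - w (a * p)) ≤
        ∑ p ∈ insert (g * s) P, (avg F w (a * p) - w (a * p)) :=
      Finset.sum_le_sum_of_subset_of_nonneg (Finset.subset_insert _ _) (fun p _ _ => hnn p)
    set T := ∑ p ∈ insert (g * s) P, (avg F w (a * p) - w (a * p)) with hT
    have hT0 : 0 ≤ T := Finset.sum_nonneg fun p _ => hnn p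
    have hw0 := h0 (a * (g * s))
    have e7 : w (a * g) ≤ F.card * (w (a * (g * s)) + T) :=
      e2.trans (mul_le_mul_of_nonneg_left (by linarith) (by linarith))
    calc w a ≤ C * (w (a * g) + ∑ p ∈ P, (avg F w (a * p) - w (a * p))) := e1
      _ ≤ C * (F.card * (w (a * (g * s)) + T) + F.card * T) := by
          refine mul_le_mul_of_nonneg_left (add_le_add e7 (e6.trans ?_)) hC.le
          nlinarith
      _ ≤ C * (2 * F.card) * (w (a * (g * s)) + T) := by
          have : F.card * (w (a * (g * s)) + T) + F.card * T ≤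
              (2 * F.card) * (w (a * (g * s)) + T) := by nlinarith
          calc C * (F.card * (w (a * (g * s)) + T) + F.card * T)
              ≤ C * ((2 * F.card) * (w (a * (g * s)) + T)) := mul_le_mul_of_nonneg_left this hC.le
            _ = _ := by ring
  · exact ⟨1, one_pos, ∅, fun w _ _ a => by simp⟩

theorem prinM_aux (hF : SymGen F) (hN : NA F κ) (D : Set G) (w : G → ℝ) (h0 : ∀ x, 0 ≤ w x)
    (h1 : ∀ x, w x ≤ 1) (hs : ∀ x, w x ≤ avg F w x) (hD : ∀ x, x ∉ D → w x = 0)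
    (x0 : G) (hx0 : 0 < w x0) (R : Finset G) (K : ℕ → Finset G)
    (hlim : ∀ x, ∀ᶠ k in atTop, (x ∈ K k ↔ x ∈ D))
    (hbad : ∀ k a b, a⁻¹ * b ∈ F → a ∈ K k → b ∉ K k → a ∈ D → b ∈ D → ∃ r ∈ R, a * r ∉ D) :
    False := by
  classical
  set μ : G → ℝ := fun v => avg F w v - w v with hμ
  have hμ0 : ∀ v, 0 ≤ μ v := fun v => by simp only [hμ]; linarith [hs v]
  set ψ : G → ℝ := fun v => gk F x0 v * μ v with hψ
  have hψ0 : ∀ v, 0 ≤ ψ v := fun v => mul_nonneg (gk_nonneg hF hN x0 v) (hμ0 v)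
  have hψs : Summable ψ := summable_gk_mu hF hN h0 h1 hs x0
  choose C hC P hP using subharm_word (G := G) hF
  choose H hH hHh using harnack_word (G := G) hF
  -- Harnack for the Green kernel in the second variable
  have hgk : ∀ a p, gk F x0 a ≤ H p⁻¹ * gk F x0 (a * p) := by
    intro a p
    have e1 := hHh p⁻¹ (fun z => gk F x0 z) (fun z => gk_nonneg hF hN x0 z) (fun z => by
      have e2 := gk_superharm hF hN z x0
      have e3 : (fun z => gk F x0 z) = fun z => gk F z x0 := by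
        funext z
        exact gk_symm hF hN x0 z
      rw [e3, gk_symm hF hN x0 z]
      exact e2) (a * p)
    simpa using e1
  set Φ : G → ℝ := fun a => ψ a + ∑ r ∈ R, C r * ∑ p ∈ P r, H p⁻¹ * ψ (a * p) with hΦ
  have hΦs : Summable Φ := by
    refine hψs.add (summable_sum fun r _ => Summable.mul_left _ (summable_sum fun p _ =>
      Summable.mul_left _ ?_))
    exact (Equiv.mulRight p).summable_iff.2 hψs
  have hΦ0 : ∀ a, 0 ≤ Φ a := fun a => add_nonneg (hψ0 a) (Finset.sum_nonneg fun r _ =>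
    mul_nonneg (hC r).le (Finset.sum_nonneg fun p _ => mul_nonneg (hH _).le (hψ0 _)))
  have hcard := hF.card_pos
  set q : ℕ → G → ℝ := fun k a => if a ∈ K k ∧ a ∈ D then
    (∑ s ∈ F, if a * s ∈ K k then 0 else w (a * s)) / F.card else 0 with hq
  have hqL : ∀ k, L2 (q k) := fun k => L2.of_finite_support ((K k).finite_toSet.subset fun y hy => by
    by_contra h
    exact hy (if_neg fun hh => h hh.1))
  have hq0 : ∀ k a, 0 ≤ q k a := by
    intro k a
    simp only [hq]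
    split_ifs with h
    · exact div_nonneg (Finset.sum_nonneg fun s _ => by split_ifs <;> simp [h0]) hcard.le
    · exact le_rfl
  -- bound of the defect of the truncation
  have hqΦ : ∀ k a, gk F x0 a * q k a ≤ Φ a := by
    intro k a
    by_cases hqa : q k a = 0
    · rw [hqa, mul_zero]; exact hΦ0 a
    have ha : a ∈ K k ∧ a ∈ D := by
      by_contra h
      exact hqa (if_neg h)
    have hex : ∃ s ∈ F, a * s ∉ K k ∧ w (a * s) ≠ 0 := by
      by_contra hcon
      push Not at hcon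
      apply hqa
      simp only [hq]
      rw [if_pos ha, Finset.sum_eq_zero, zero_div]
      intro s hsF
      split_ifs with h
      · rfl
      · exact hcon s hsF h
    obtain ⟨s, hsF, hsK, hsw⟩ := hex
    have hsD : a * s ∈ D := by
      by_contra h
      exact hsw (hD _ h)
    obtain ⟨r, hr, hrD⟩ := hbad k a (a * s) (by simpa using hsF) ha.1 hsK ha.2 hsD
    have e1 : w a ≤ C r * ∑ p ∈ P r, μ (a * p) := by
      have := hP r w h0 hs a
      rw [hD _ hrD, zero_add] at this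
      exact this
    have e2 : q k a ≤ w a + μ a := by
      have e3 : q k a ≤ avg F w a := by
        simp only [hq]
        rw [if_pos ha]
        unfold avg
        refine div_le_div_of_nonneg_right (Finset.sum_le_sum fun t _ => ?_) hcard.le
        split_ifs
        · exact h0 _
        · exact le_rfl
      simp only [hμ]
      linarith
    have hg0 := gk_nonneg hF hN x0 a
    have e4 : gk F x0 a * w a ≤ C r * ∑ p ∈ P r, H p⁻¹ * ψ (a * p) := by
      calc gk F x0 a * w a ≤ gk F x0 a * (C r * ∑ p ∈ P r, μ (a * p)) :=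
            mul_le_mul_of_nonneg_left e1 hg0
        _ = C r * ∑ p ∈ P r, gk F x0 a * μ (a * p) := by
            rw [Finset.mul_sum, Finset.mul_sum, Finset.mul_sum]
            exact Finset.sum_congr rfl fun p _ => by ring
        _ ≤ C r * ∑ p ∈ P r, H p⁻¹ * ψ (a * p) := by
            refine mul_le_mul_of_nonneg_left (Finset.sum_le_sum fun p _ => ?_) (hC r).le
            calc gk F x0 a * μ (a * p) ≤ (H p⁻¹ * gk F x0 (a * p)) * μ (a * p) :=
                  mul_le_mul_of_nonneg_right (hgk a p) (hμ0 _)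
              _ = H p⁻¹ * ψ (a * p) := by simp only [hψ]; ring
    have e5 : C r * ∑ p ∈ P r, H p⁻¹ * ψ (a * p) ≤
        ∑ r ∈ R, C r * ∑ p ∈ P r, H p⁻¹ * ψ (a * p) :=
      Finset.single_le_sum (f := fun r => C r * ∑ p ∈ P r, H p⁻¹ * ψ (a * p))
        (fun r _ => mul_nonneg (hC r).le (Finset.sum_nonneg fun p _ =>
          mul_nonneg (hH _).le (hψ0 _))) hr
    calc gk F x0 a * q k a ≤ gk F x0 a * (w a + μ a) := mul_le_mul_of_nonneg_left e2 hg0
      _ = ψ a + gk F x0 a * w a := by simp only [hψ]; ring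
      _ ≤ Φ a := by
          simp only [hΦ]
          linarith
  -- pointwise convergence to zero
  have hqz : ∀ a, ∀ᶠ k in atTop, q k a = 0 := by
    intro a
    have hall : ∀ᶠ k in atTop, ∀ s ∈ F, (a * s ∈ K k ↔ a * s ∈ D) := by
      rw [Filter.eventually_all_finset]
      intro s _
      exact hlim _
    filter_upwards [hall] with k hk
    simp only [hq]
    split_ifs with h
    · rw [Finset.sum_eq_zero, zero_div]
      intro s hsF
      split_ifs with h'
      · rfl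
      · exact hD _ (fun hh => h' ((hk s hsF).2 hh))
    · rfl
  have hlim0 : Tendsto (fun k => ∑' a, gk F x0 a * q k a) atTop (𝓝 (∑' _ : G, (0 : ℝ))) := by
    refine tendsto_tsum_of_dominated_convergence hΦs (fun a => ?_)
      (Eventually.of_forall fun k a => ?_)
    · refine tendsto_nhds_of_eventually_eq ?_
      filter_upwards [hqz a] with k hk
      rw [hk, mul_zero]
    · rw [Real.norm_of_nonneg (mul_nonneg (gk_nonneg hF hN x0 a) (hq0 k a))]
      exact hqΦ k a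
  rw [tsum_zero] at hlim0
  -- lower bound
  have hx0D : x0 ∈ D := by
    by_contra h
    rw [hD _ h] at hx0
    exact lt_irrefl _ hx0
  have hlow : ∀ᶠ k in atTop, w x0 ≤ ∑' a, gk F x0 a * q k a := by
    filter_upwards [hlim x0] with k hk
    have hxK : x0 ∈ K k := hk.2 hx0D
    set wk : G → ℝ := fun a => if a ∈ K k then w a else 0 with hwk
    have hwkL : L2 wk := L2.of_finite_support ((K k).finite_toSet.subset fun y hy => by
      by_contra h
      exact hy (if_neg h))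
    have hwk0 : ∀ a, 0 ≤ wk a := fun a => by
      simp only [hwk]
      split_ifs
      · exact h0 a
      · exact le_rfl
    have e1 := le_green hF hN hwkL (hqL k) (fun a => ?_) x0
    · rw [green_eq_tsum hF hN (hqL k)] at e1
      have e2 : wk x0 = w x0 := if_pos hxK
      rwa [e2] at e1
    · have havg0 : 0 ≤ avg F wk a := div_nonneg (Finset.sum_nonneg fun s _ => hwk0 _) hcard.le
      by_cases ha : a ∈ K k ∧ a ∈ D
      · have e3 : q k a = avg F w a - avg F wk a := by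
          simp only [hq]
          rw [if_pos ha]
          unfold avg
          rw [← sub_div, ← Finset.sum_sub_distrib]
          congr 1
          refine Finset.sum_congr rfl fun s _ => ?_
          simp only [hwk]
          split_ifs <;> simp
        have e4 : wk a = w a := if_pos ha.1
        rw [e3, e4]
        linarith [hs a]
      · have e3 : q k a = 0 := if_neg ha
        have e4 : wk a = 0 := by
          simp only [hwk]
          split_ifs with h
          · exact hD _ (fun hh => ha ⟨h, hh⟩)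
          · rfl
        rw [e3, e4]
        linarith
  have := ge_of_tendsto hlim0 hlow
  linarith

/-- node NPrinM -/
theorem nPrinM : NPrinM := by
  intro G _ S hS hNon _ D w h0 h1 hs hD ⟨x0, hx0⟩ R K hlim hbad
  obtain ⟨κ, hN⟩ := na_of_nonam hNon
  exact prinM_aux (symGen_of_std hS.toStd) hN D w h0 h1 hs hD x0 hx0 R K hlim
    (fun k a b hab => hbad k a b hab)

end Crest.Agent.R224
end
end

-- ▼ part R224/BCore1
section

set_option autoImplicit false

noncomputable section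

open MeasureTheory Set Filter Topology

namespace Crest.Agent.R224

variable {G : Type} [Group G]

/-! ### translations -/

/-- left translate -/
def tr (g : G) (A : Set G) : Set G := (fun x => g * x) '' A

theorem mem_tr {g x : G} {A : Set G} : x ∈ tr g A ↔ g⁻¹ * x ∈ A := by
  constructor
  · rintro ⟨a, ha, rfl⟩; simpa using ha
  · intro h; exact ⟨g⁻¹ * x, h, by simp⟩

@[simp] theorem mul_mem_tr {g x : G} {A : Set G} : g * x ∈ tr g A ↔ x ∈ A := by
  rw [mem_tr]; simp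

theorem tr_tr (g h : G) (A : Set G) : tr g (tr h A) = tr (g * h) A := by
  ext x; simp [mem_tr, mul_assoc]

@[simp] theorem tr_one (A : Set G) : tr 1 A = A := by
  ext x; simp [mem_tr]



theorem adj_mul {S : Finset G} (g x y : G) : Adj S (g * x) (g * y) ↔ Adj S x y := by
  unfold Adj
  simp [mul_assoc]

theorem Std.adj_symm {S : Finset G} (hS : Std S) {x y : G} (h : Adj S x y) : Adj S y x := by
  unfold Adj at *
  have := hS.inv _ h
  simpa using this

theorem adj_mul_right {S : Finset G} (x : G) {s : G} (hs : s ∈ S) : Adj S x (x * s) := by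
  unfold Adj; simpa using hs

/-- induction along the graph -/
theorem Std.induct {S : Finset G} (hS : Std S) {P : G → Prop} (x0 : G) (h0 : P x0)
    (hstep : ∀ x y, Adj S x y → P x → P y) : ∀ x, P x := by
  have key : ∀ g ∈ Subgroup.closure (S : Set G), ∀ x, P x ↔ P (x * g) := by
    intro g hg
    induction hg using Subgroup.closure_induction with
    | mem s hs =>
      intro x
      have hs' : s ∈ S := hs
      constructor
      · exact hstep _ _ (adj_mul_right x hs')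
      · intro h
        have := hstep _ _ (adj_mul_right (x * s) (hS.inv s hs')) h
        simpa using this
    | one => intro x; simp
    | mul a b _ _ iha ihb =>
      intro x
      rw [iha x, ihb (x * a), mul_assoc]
    | inv a _ iha =>
      intro x
      have := iha (x * a⁻¹)
      rw [this]; simp
  intro x
  have hx : x0⁻¹ * x ∈ Subgroup.closure (S : Set G) := by rw [hS.gen]; trivial
  have := (key _ hx x0).1 h0
  simpa using this

theorem Std.countable {S : Finset G} (hS : Std S) : Countable G := by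
  classical
  let B : ℕ → Finset G := fun n => Nat.rec {1} (fun _ A => A ∪ Finset.image₂ (fun a s => a * s) A S) n
  have hB : ∀ n, B (n + 1) = B n ∪ Finset.image₂ (fun a s => a * s) (B n) S := fun n => rfl
  have : ∀ x : G, ∃ n, x ∈ B n := by
    apply hS.induct (P := fun x => ∃ n, x ∈ B n) 1 ⟨0, by simp [B]⟩
    rintro x y hxy ⟨n, hn⟩
    refine ⟨n + 1, ?_⟩
    rw [hB, Finset.mem_union, Finset.mem_image₂]
    right
    exact ⟨x, hn, x⁻¹ * y, hxy, by simp⟩
  have hc : (⋃ n, {x : G | x ∈ B n}).Countable := by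
    apply Set.countable_iUnion
    intro n
    exact (B n).countable_toSet
  have hu : (⋃ n, {x : G | x ∈ B n}) = univ := by
    ext x; simp only [mem_iUnion, mem_univ, iff_true, mem_setOf_eq]
    exact this x
  rw [hu] at hc
  exact countable_univ_iff.1 hc

/-! ### maximum principle -/

theorem Std.card_pos {S : Finset G} (hS : Std S) : 0 < (S.card : ℝ) := by
  have : 0 < S.card := Finset.card_pos.2 ⟨1, hS.one⟩
  exact_mod_cast this

theorem harm_const {S : Finset G} (hS : Std S) {u : G → ℝ} (hu : ∀ x, Pop S u x = u x) {x0 : G}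
    (hmax : ∀ x, u x ≤ u x0) : ∀ x, u x = u x0 := by
  apply hS.induct (P := fun x => u x = u x0) x0 rfl
  intro x y hxy hx
  have h1 := hu x
  unfold Pop at h1
  rw [div_eq_iff hS.card_pos.ne'] at h1
  have h2 : ∑ s ∈ S, (u x0 - u (x * s)) = 0 := by
    rw [Finset.sum_sub_distrib, h1]; simp [hx, mul_comm]
  have h3 := (Finset.sum_eq_zero_iff_of_nonneg (fun s _ => sub_nonneg.2 (hmax (x * s)))).1 h2
    (x⁻¹ * y) hxy
  have h4 : x * (x⁻¹ * y) = y := by simp
  rw [h4] at h3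
  linarith

theorem Har.bd_infinite {S : Finset G} (hS : TopHyp S) [Infinite G] {M : Set G} (h : Har S M) :
    (bd S M).Infinite := by
  obtain ⟨u, hu, h0, h1, hM, hM', ⟨x, hx⟩, ⟨y, hy⟩⟩ := h
  intro hfin
  rcases hS.oneEnd M hfin with h | h
  · -- maximum attained
    have hne : h.toFinset.Nonempty := ⟨x, by simp; exact hM (by simp; linarith)⟩
    obtain ⟨x0, hx0, hmax⟩ := h.toFinset.exists_max_image u hne
    have hxM : x ∈ h.toFinset := by simp; exact hM (by simp; linarith)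
    have hb : 3 / 4 < u x0 := lt_of_lt_of_le hx (hmax x hxM)
    have : ∀ z, u z ≤ u x0 := by
      intro z
      by_cases hz : z ∈ M
      · exact hmax z (by simpa using hz)
      · by_contra hc
        exact hz (hM (by simp; linarith))
    have := harm_const hS.toStd hu this y
    linarith
  · have hyM : y ∈ h.toFinset := by
      simp only [Set.Finite.mem_toFinset, mem_compl_iff]
      intro hy'
      have := hM' hy'
      simp at this
      linarith
    obtain ⟨x0, hx0, hmin⟩ := h.toFinset.exists_min_image u ⟨y, hyM⟩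
    have hb : u x0 < 1 / 4 := lt_of_le_of_lt (hmin y hyM) hy
    have hneg : ∀ z, Pop S (fun z => - u z) z = - u z := by
      intro z
      unfold Pop
      rw [Finset.sum_neg_distrib, neg_div]
      have := hu z
      unfold Pop at this
      rw [this]
    have : ∀ z, - u z ≤ - u x0 := by
      intro z
      by_cases hz : z ∈ M
      · have := hM' hz
        simp at this
        linarith
      · have := hmin z (by simpa using hz)
        linarith
    have := harm_const hS.toStd (u := fun z => - u z) hneg this x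
    linarith

/-! ### maximal members avoiding a vertex -/

/-- union of the members crossing `(x,y)` and missing `v` -/
def mm (D : Set (Set G)) (x y v : G) : Set G := ⋃₀ {M | M ∈ D ∧ x ∈ M ∧ y ∉ M ∧ v ∉ M}

/-- there are members crossing `(x,y)` and missing `v` -/
def Ex (D : Set (Set G)) (x y v : G) : Prop := ∃ M ∈ D, x ∈ M ∧ y ∉ M ∧ v ∉ M

omit [Group G] in
theorem le_mm {D : Set (Set G)} {x y v : G} {M : Set G} (hM : M ∈ D) (hx : x ∈ M) (hy : y ∉ M)
    (hv : v ∉ M) : M ⊆ mm D x y v :=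
  subset_sUnion_of_mem (show M ∈ {M | M ∈ D ∧ x ∈ M ∧ y ∉ M ∧ v ∉ M} from ⟨hM, hx, hy, hv⟩)

theorem NestFam.sUnion_mem {S : Finset G} (hS : Std S) {D : Set (Set G)} (h : NestFam S D)
    {x y : G} (hxy : Adj S x y) {C : Set (Set G)} (hC : C ⊆ D) (hne : C.Nonempty)
    (hx : ∀ M ∈ C, x ∈ M) (hy : ∀ M ∈ C, y ∉ M) : ⋃₀ C ∈ D := by
  classical
  have := hS.countable
  obtain ⟨M0, hM0⟩ := hne
  obtain ⟨f, hf⟩ := exists_surjective_nat G
  have hch : ∀ n, ∃ M ∈ C, f n ∈ ⋃₀ C → f n ∈ M := by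
    intro n
    by_cases hn : f n ∈ ⋃₀ C
    · obtain ⟨M, hM, hfM⟩ := hn
      exact ⟨M, hM, fun _ => hfM⟩
    · exact ⟨M0, hM0, fun h => absurd h hn⟩
  choose M hMC hM using hch
  have hacc : ∀ n, Set.accumulate M n ∈ C := by
    intro n
    induction n with
    | zero => simpa [Set.accumulate_zero_nat] using hMC 0
    | succ n ih =>
      rw [Set.accumulate_succ]
      rcases h.chain _ (hC ih) _ (hC (hMC (n + 1))) x y hxy (hx _ ih) (hx _ (hMC _)) (hy _ ih)
        (hy _ (hMC _)) with h' | h'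
      · rw [union_eq_right.2 h']; exact hMC _
      · rw [union_eq_left.2 h']; exact ih
  have hU : ⋃ n, Set.accumulate M n = ⋃₀ C := by
    rw [Set.iUnion_accumulate]
    apply Subset.antisymm
    · exact iUnion_subset fun n => subset_sUnion_of_mem (hMC n)
    · intro z hz
      obtain ⟨n, rfl⟩ := hf z
      exact mem_iUnion.2 ⟨n, hM n hz⟩
  rw [← hU]
  apply h.union _ (fun n => hC (hacc n)) Set.monotone_accumulate
  rw [hU]
  intro hc
  have : y ∈ ⋃₀ C := by rw [hc]; trivial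
  obtain ⟨M', hM', hyM'⟩ := this
  exact hy _ hM' hyM'

theorem NestFam.mm_mem {S : Finset G} (hS : Std S) {D : Set (Set G)} (h : NestFam S D)
    {x y v : G} (hxy : Adj S x y) (hne : Ex D x y v) :
    mm D x y v ∈ D ∧ x ∈ mm D x y v ∧ y ∉ mm D x y v ∧ v ∉ mm D x y v := by
  obtain ⟨M0, hM0, hx0, hy0, hv0⟩ := hne
  refine ⟨?_, ?_, ?_, ?_⟩
  · exact h.sUnion_mem hS hxy (C := {M | M ∈ D ∧ x ∈ M ∧ y ∉ M ∧ v ∉ M}) (fun M hM => hM.1)
      ⟨M0, hM0, hx0, hy0, hv0⟩ (fun M hM => hM.2.1) (fun M hM => hM.2.2.1)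
  · exact le_mm hM0 hx0 hy0 hv0 hx0
  · rintro ⟨M, hM, hyM⟩; exact hM.2.2.1 hyM
  · rintro ⟨M, hM, hyM⟩; exact hM.2.2.2 hyM

theorem NestFam.tr_mem {S : Finset G} {D : Set (Set G)} (h : NestFam S D) (g : G) {M : Set G} :
    tr g M ∈ D ↔ M ∈ D := by
  constructor
  · intro hM
    have := h.inv g⁻¹ _ hM
    have h2 : (fun x => g⁻¹ * x) '' tr g M = M := by
      change tr g⁻¹ (tr g M) = M
      rw [tr_tr]; simp
    rwa [h2] at this
  · exact fun hM => h.inv g _ hM

theorem NestFam.Ex_tr {S : Finset G} {D : Set (Set G)} (h : NestFam S D) (g x y v : G) :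
    Ex D (g * x) (g * y) (g * v) ↔ Ex D x y v := by
  constructor
  · rintro ⟨M, hM, hx, hy, hv⟩
    refine ⟨tr g⁻¹ M, (h.tr_mem _).2 hM, ?_, ?_, ?_⟩ <;> rw [mem_tr] <;> simpa
  · rintro ⟨M, hM, hx, hy, hv⟩
    exact ⟨tr g M, (h.tr_mem _).2 hM, by simpa, by simpa, by simpa⟩

theorem NestFam.mm_tr {S : Finset G} {D : Set (Set G)} (h : NestFam S D) (g x y v : G) :
    mm D (g * x) (g * y) (g * v) = tr g (mm D x y v) := by
  ext z
  rw [mem_tr]
  constructor
  · rintro ⟨M, ⟨hM, hx, hy, hv⟩, hz⟩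
    refine ⟨tr g⁻¹ M, ⟨(h.tr_mem _).2 hM, ?_, ?_, ?_⟩, ?_⟩ <;> rw [mem_tr] <;> simpa
  · rintro ⟨M, ⟨hM, hx, hy, hv⟩, hz⟩
    exact ⟨tr g M, ⟨(h.tr_mem _).2 hM, by simpa, by simpa, by simpa⟩, by rw [mem_tr]; exact hz⟩

theorem PP_tr {S : Finset G} (g : G) (A B : Set G) :
    PP S (tr g A) (tr g B) = (fun p : G × G => (g * p.1, g * p.2)) '' PP S A B := by
  ext ⟨a, b⟩
  constructor
  · rintro ⟨h1, h2, h3⟩
    refine ⟨(g⁻¹ * a, g⁻¹ * b), ⟨?_, ?_, ?_⟩, by simp⟩
    · rw [adj_mul]; exact h1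
    · exact mem_tr.1 h2
    · intro h; exact h3 (mem_tr.2 h)
  · rintro ⟨⟨a', b'⟩, ⟨h1, h2, h3⟩, h4⟩
    simp only [Prod.mk.injEq] at h4
    obtain ⟨rfl, rfl⟩ := h4
    exact ⟨(adj_mul _ _ _).2 h1, by simpa using h2, by simpa using h3⟩

theorem PP_tr_ncard {S : Finset G} (g : G) (A B : Set G) :
    (PP S (tr g A) (tr g B)).ncard = (PP S A B).ncard := by
  rw [PP_tr]
  apply Set.ncard_image_of_injective
  rintro ⟨a, b⟩ ⟨c, d⟩ h
  simpa using h

end Crest.Agent.R224
end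
end

-- ▼ part R224/BCore2
section

set_option autoImplicit false

noncomputable section

open MeasureTheory Set Filter Topology

namespace Crest.Agent.R224

variable {G : Type} [Group G]

/-! ### flags -/

/-- `(x,y,z)` is a flag of the interval `(A,B)` -/
def fl (A B : Set G) (x y z : G) : Prop := x ∈ A ∧ y ∉ B ∧ z ∈ B ∧ z ∉ A

/-- triangle -/
def Tri (S : Finset G) (x y z : G) : Prop := Adj S x y ∧ Adj S y z ∧ Adj S x z

/-- there are members crossing `(x,y)` and containing `z` -/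
def Ey (D : Set (Set G)) (x y z : G) : Prop := ∃ M ∈ D, x ∈ M ∧ y ∉ M ∧ z ∈ M

/-- intersection of the members crossing `(x,y)` and containing `z` -/
def nn (D : Set (Set G)) (x y z : G) : Set G := ⋂₀ {M | M ∈ D ∧ x ∈ M ∧ y ∉ M ∧ z ∈ M}

omit [Group G] in
theorem nn_le {D : Set (Set G)} {x y z : G} {M : Set G} (hM : M ∈ D) (hx : x ∈ M) (hy : y ∉ M)
    (hz : z ∈ M) : nn D x y z ⊆ M :=
  sInter_subset_of_mem (show M ∈ {M | M ∈ D ∧ x ∈ M ∧ y ∉ M ∧ z ∈ M} from ⟨hM, hx, hy, hz⟩)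


omit [Group G] in
theorem mem_nn_right {D : Set (Set G)} {x y z : G} : z ∈ nn D x y z := fun _ hM => hM.2.2.2

omit [Group G] in
theorem notMem_nn {D : Set (Set G)} {x y z : G} (h : Ey D x y z) : y ∉ nn D x y z := by
  obtain ⟨M, hM, hx, hy, hz⟩ := h
  exact fun h => hy (nn_le hM hx hy hz h)

theorem NestFam.Ey_tr {S : Finset G} {D : Set (Set G)} (h : NestFam S D) (g x y v : G) :
    Ey D (g * x) (g * y) (g * v) ↔ Ey D x y v := by
  constructor
  · rintro ⟨M, hM, hx, hy, hv⟩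
    refine ⟨tr g⁻¹ M, (h.tr_mem _).2 hM, ?_, ?_, ?_⟩ <;> rw [mem_tr] <;> simpa
  · rintro ⟨M, hM, hx, hy, hv⟩
    exact ⟨tr g M, (h.tr_mem _).2 hM, by simpa, by simpa, by simpa⟩

theorem NestFam.nn_tr {S : Finset G} {D : Set (Set G)} (h : NestFam S D) (g x y v : G) :
    nn D (g * x) (g * y) (g * v) = tr g (nn D x y v) := by
  ext z
  rw [mem_tr]
  constructor
  · rintro hz M ⟨hM, hx, hy, hv⟩
    have := hz (tr g M) ⟨(h.tr_mem _).2 hM, by simpa, by simpa, by simpa⟩
    rwa [mem_tr] at this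
  · rintro hz M ⟨hM, hx, hy, hv⟩
    have := hz (tr g⁻¹ M) ⟨(h.tr_mem _).2 hM, by rw [mem_tr]; simpa, by rw [mem_tr]; simpa,
      by rw [mem_tr]; simpa⟩
    rw [mem_tr] at this
    simpa using this

/-- the lower end is inside the upper end -/
theorem NestFam.mm_le_nn {S : Finset G} (hS : Std S) {D : Set (Set G)} (h : NestFam S D)
    {x y z : G} (hxy : Adj S x y) (hex : Ex D x y z) : mm D x y z ⊆ nn D x y z := by
  obtain ⟨h1, h2, h3, h4⟩ := h.mm_mem hS hxy hex
  rintro v hv M ⟨hM, hx, hy, hz⟩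
  rcases h.chain _ h1 _ hM x y hxy h2 hx h3 hy with h' | h'
  · exact h' hv
  · exact absurd (h' hz) h4

/-- Lemma E1 -/
theorem NestFam.germ {S : Finset G} (hS : Std S) {D : Set (Set G)} (h : NestFam S D)
    {x y z x' y' z' : G} (hxy : Adj S x y) (hex : Ex D x y z) (hey : Ey D x y z)
    (hxy' : Adj S x' y') (hf : fl (mm D x y z) (nn D x y z) x' y' z') :
    Ex D x' y' z' ∧ Ey D x' y' z' ∧ mm D x' y' z' = mm D x y z ∧ nn D x' y' z' = nn D x y z := by
  obtain ⟨hN, hxN, hyN, hzN⟩ := h.mm_mem hS hxy hex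
  have hle := h.mm_le_nn hS hxy hex
  obtain ⟨hx', hy', hz', hz''⟩ := hf
  set N := mm D x y z with hNdef
  set Q := nn D x y z with hQdef
  have hy'N : y' ∉ N := fun hh => hy' (hle hh)
  -- D1
  have hD1 : ∃ D1 ∈ D, x ∈ D1 ∧ y ∉ D1 ∧ z ∈ D1 ∧ y' ∉ D1 := by
    by_contra hc
    push Not at hc
    apply hy'
    rintro M ⟨hM, hx, hy, hz⟩
    exact hc M hM hx hy hz
  obtain ⟨D1, hD1, hxD1, hyD1, hzD1, hy'D1⟩ := hD1
  have hND1 : N ⊆ D1 := hle.trans (nn_le hD1 hxD1 hyD1 hzD1)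
  have hQD1 : Q ⊆ D1 := nn_le hD1 hxD1 hyD1 hzD1
  have hx'D1 : x' ∈ D1 := hND1 hx'
  have hz'D1 : z' ∈ D1 := hQD1 hz'
  have hex' : Ex D x' y' z' := ⟨N, hN, hx', hy'N, hz''⟩
  have hey' : Ey D x' y' z' := ⟨D1, hD1, hx'D1, hy'D1, hz'D1⟩
  have hlow : ∀ M ∈ D, x' ∈ M → y' ∉ M → z' ∉ M → M ⊆ N := by
    intro M hM h1 h2 h3
    have hMD1 : M ⊆ D1 := by
      rcases h.chain _ hM _ hD1 x' y' hxy' h1 hx'D1 h2 hy'D1 with h' | h'
      · exact h'
      · exact absurd (h' hz'D1) h3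
    rcases h.chain _ hM _ hN x' y' hxy' h1 hx' h2 hy'N with h' | h'
    · exact h'
    · -- N ⊆ M, M crosses (x,y)
      have hxM : x ∈ M := h' hxN
      have hyM : y ∉ M := fun hh => hyD1 (hMD1 hh)
      by_cases hzM : z ∈ M
      · exact absurd (nn_le hM hxM hyM hzM hz') h3
      · exact le_mm hM hxM hyM hzM
  refine ⟨hex', hey', ?_, ?_⟩
  · apply Subset.antisymm
    · rintro v ⟨M, ⟨hM, h1, h2, h3⟩, hv⟩
      exact hlow M hM h1 h2 h3 hv
    · exact le_mm hN hx' hy'N hz''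
  · apply Subset.antisymm
    · rintro v hv M ⟨hM, hx, hy, hz⟩
      rcases h.chain _ hM _ hD1 x y hxy hx hxD1 hy hyD1 with h' | h'
      · have h1 : x' ∈ M := (hle.trans (nn_le hM hx hy hz)) hx'
        have h2 : y' ∉ M := fun hh => hy'D1 (h' hh)
        have h3 : z' ∈ M := nn_le hM hx hy hz hz'
        exact nn_le hM h1 h2 h3 hv
      · exact h' (nn_le hD1 hx'D1 hy'D1 hz'D1 hv)
    · rintro v hv M ⟨hM, h1, h2, h3⟩
      rcases h.chain _ hM _ hD1 x' y' hxy' h1 hx'D1 h2 hy'D1 with h' | h'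
      · -- M ⊆ D1
        have hNM : N ⊆ M := by
          rcases h.chain _ hM _ hN x' y' hxy' h1 hx' h2 hy'N with h'' | h''
          · exact absurd (h'' h3) hz''
          · exact h''
        have hxM : x ∈ M := hNM hxN
        have hyM : y ∉ M := fun hh => hyD1 (h' hh)
        have hzM : z ∈ M := by
          by_contra hzM
          exact hz'' (le_mm hM hxM hyM hzM h3)
        exact nn_le hM hxM hyM hzM hv
      · exact h' (hQD1 hv)

/-- the set of flags of the germ -/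
def TT (S : Finset G) (A B : Set G) : Set (G × G × G) :=
  {p | Tri S p.1 p.2.1 p.2.2 ∧ fl A B p.1 p.2.1 p.2.2}

/-- Lemma E2 -/
theorem NestFam.TT_finite {S : Finset G} (hS : Std S) {D : Set (Set G)} (h : NestFam S D)
    {x y z : G} (hxy : Adj S x y) (hex : Ex D x y z) (hey : Ey D x y z) :
    (TT S (mm D x y z) (nn D x y z)).Finite := by
  have hfin : ((S : Set G) ×ˢ (S : Set G)).Finite := S.finite_toSet.prod S.finite_toSet
  apply Set.Finite.of_finite_image (f := fun p : G × G × G => (p.1⁻¹ * p.2.1, p.1⁻¹ * p.2.2))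
  · apply hfin.subset
    rintro _ ⟨⟨a, b, c⟩, ⟨⟨h1, h2, h3⟩, -⟩, rfl⟩
    exact ⟨h1, h3⟩
  · rintro ⟨a, b, c⟩ ⟨⟨h1, h2, h3⟩, h4⟩ ⟨a', b', c'⟩ ⟨⟨h1', h2', h3'⟩, h4'⟩ heq
    simp only [Prod.mk.injEq] at heq
    obtain ⟨hb, hc⟩ := heq
    obtain ⟨hex1, -, hm1, -⟩ := h.germ hS hxy hex hey h1 h4
    obtain ⟨hex2, -, hm2, -⟩ := h.germ hS hxy hex hey h1' h4'
    simp only at h1 h1' h2 h2' h3 h3' hb hc hm1 hm2 hex1 hex2
    set g := a' * a⁻¹ with hg
    have ha' : a' = g * a := by simp [hg]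
    have hb' : b' = g * b := by
      have : b' = a' * (a⁻¹ * b) := by rw [hb]; simp
      rw [this, hg]; simp [mul_assoc]
    have hc' : c' = g * c := by
      have : c' = a' * (a⁻¹ * c) := by rw [hc]; simp
      rw [this, hg]; simp [mul_assoc]
    have htr : tr g (mm D a b c) = mm D a b c := by
      rw [← h.mm_tr, ← ha', ← hb', ← hc', hm2, hm1]
    have hmem := (h.mm_mem hS h1 hex1).1
    have hg1 : g = 1 := h.stab _ hmem g htr
    rw [ha', hb', hc', hg1]
    simp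

/-! ### the cochain of an interval -/

open Classical in
/-- cochain of the interval `(A,B)` -/
def psi (A B : Set G) (a b : G) : ZMod 2 :=
  if (a ∈ A ∧ b ∉ B) ∨ (b ∈ A ∧ a ∉ B) then 1 else 0

/-- some ordering of `a,b,c` is a flag -/
def sg (A B : Set G) (a b c : G) : Prop :=
  fl A B a b c ∨ fl A B a c b ∨ fl A B b a c ∨ fl A B b c a ∨ fl A B c a b ∨ fl A B c b a

omit [Group G] in
open Classical in
theorem psi_delta {A B : Set G} (hAB : A ⊆ B) (a b c : G) :
    psi A B a b + psi A B b c + psi A B a c = if sg A B a b c then 1 else 0 := by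
  have e2 : (1 : ZMod 2) + 1 = 0 := by decide
  have ha := @hAB a
  have hb := @hAB b
  have hc := @hAB c
  unfold psi sg fl
  by_cases a1 : a ∈ A <;> by_cases b1 : b ∈ A <;> by_cases c1 : c ∈ A <;>
  by_cases a2 : a ∈ B <;> by_cases b2 : b ∈ B <;> by_cases c2 : c ∈ B <;>
  simp_all

omit [Group G] in
theorem psi_delta_ne {A B : Set G} (hAB : A ⊆ B) {a b c : G}
    (h : psi A B a b + psi A B b c ≠ psi A B a c) : sg A B a b c := by
  classical
  by_contra hc
  have := psi_delta hAB a b c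
  rw [if_neg hc] at this
  apply h
  have h2 : ∀ p q : ZMod 2, p + q = 0 → p = q := by decide
  exact h2 _ _ this

theorem Tri.perm {S : Finset G} (hS : Std S) {a b c : G} (h : Tri S a b c) :
    Tri S a b c ∧ Tri S a c b ∧ Tri S b a c ∧ Tri S b c a ∧ Tri S c a b ∧ Tri S c b a := by
  obtain ⟨h1, h2, h3⟩ := h
  have h1' := hS.adj_symm h1
  have h2' := hS.adj_symm h2
  have h3' := hS.adj_symm h3
  exact ⟨⟨h1, h2, h3⟩, ⟨h3, h2', h1⟩, ⟨h1', h3, h2⟩, ⟨h2, h3', h1'⟩, ⟨h3', h1, h2'⟩,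
    ⟨h2', h1', h3'⟩⟩

theorem sg_TT {S : Finset G} (hS : Std S) {A B : Set G} {a b c : G} (ht : Tri S a b c)
    (h : sg A B a b c) : (a, b, c) ∈ TT S A B ∨ (a, c, b) ∈ TT S A B ∨ (b, a, c) ∈ TT S A B ∨
      (b, c, a) ∈ TT S A B ∨ (c, a, b) ∈ TT S A B ∨ (c, b, a) ∈ TT S A B := by
  obtain ⟨t1, t2, t3, t4, t5, t6⟩ := ht.perm hS
  rcases h with h | h | h | h | h | h
  · exact Or.inl ⟨t1, h⟩
  · exact Or.inr (Or.inl ⟨t2, h⟩)
  · exact Or.inr (Or.inr (Or.inl ⟨t3, h⟩))
  · exact Or.inr (Or.inr (Or.inr (Or.inl ⟨t4, h⟩)))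
  · exact Or.inr (Or.inr (Or.inr (Or.inr (Or.inl ⟨t5, h⟩))))
  · exact Or.inr (Or.inr (Or.inr (Or.inr (Or.inr ⟨t6, h⟩))))

/-- the bad set of `psi` is finite if there are finitely many flags -/
theorem psi_bad_finite {S : Finset G} (hS : Std S) {A B : Set G} (hAB : A ⊆ B)
    (hT : (TT S A B).Finite) :
    {p : G × G × G | Adj S p.1 p.2.1 ∧ Adj S p.2.1 p.2.2 ∧ Adj S p.1 p.2.2 ∧
      psi A B p.1 p.2.1 + psi A B p.2.1 p.2.2 ≠ psi A B p.1 p.2.2}.Finite := by
  have h1 := hT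
  have h2 := hT.image (fun p : G × G × G => (p.1, p.2.2, p.2.1))
  have h3 := hT.image (fun p : G × G × G => (p.2.1, p.1, p.2.2))
  have h4 := hT.image (fun p : G × G × G => (p.2.2, p.1, p.2.1))
  have h5 := hT.image (fun p : G × G × G => (p.2.1, p.2.2, p.1))
  have h6 := hT.image (fun p : G × G × G => (p.2.2, p.2.1, p.1))
  apply (((((h1.union h2).union h3).union h4).union h5).union h6).subset
  rintro ⟨a, b, c⟩ ⟨t1, t2, t3, hne⟩
  simp only at t1 t2 t3 hne
  rcases sg_TT hS ⟨t1, t2, t3⟩ (psi_delta_ne hAB hne) with h | h | h | h | h | h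
  · exact Or.inl (Or.inl (Or.inl (Or.inl (Or.inl h))))
  · exact Or.inl (Or.inl (Or.inl (Or.inl (Or.inr ⟨_, h, rfl⟩))))
  · exact Or.inl (Or.inl (Or.inl (Or.inr ⟨_, h, rfl⟩)))
  · exact Or.inl (Or.inl (Or.inr ⟨_, h, rfl⟩))
  · exact Or.inl (Or.inr ⟨_, h, rfl⟩)
  · exact Or.inr ⟨_, h, rfl⟩

end Crest.Agent.R224
end
end

-- ▼ part R224/BCore3
section

set_option autoImplicit false

noncomputable section

open MeasureTheory Set Filter Topology

namespace Crest.Agent.R224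

variable {G : Type} [Group G]

theorem psi_tr (g : G) (A B : Set G) (a b : G) :
    psi (tr g A) (tr g B) (g * a) (g * b) = psi A B a b := by
  classical
  unfold psi
  simp

/-- one filler -/
theorem NestFam.filler_one {S : Finset G} (hS : TopHyp S) {D : Set (Set G)} (h : NestFam S D)
    {x y z : G} (hxy : Adj S x y) (hex : Ex D x y z) (hey : Ey D x y z) :
    ∃ (E : G → ZMod 2) (R : Finset G), ∀ a b, Adj S a b →
      psi (mm D x y z) (nn D x y z) a b ≠ E a + E b → a ∈ R ∧ b ∈ R := by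
  classical
  obtain ⟨E, hE⟩ := hS.t2 _ (psi_bad_finite hS.toStd (h.mm_le_nn hS.toStd hxy hex)
    (h.TT_finite hS.toStd hxy hex hey))
  refine ⟨E, hE.toFinset.image Prod.fst ∪ hE.toFinset.image Prod.snd, ?_⟩
  intro a b hab hne
  have hmem : ((a, b) : G × G) ∈ hE.toFinset := by
    simp only [Set.Finite.mem_toFinset]
    exact ⟨hab, hne⟩
  constructor
  · exact Finset.mem_union_left _ (Finset.mem_image.2 ⟨_, hmem, rfl⟩)
  · exact Finset.mem_union_right _ (Finset.mem_image.2 ⟨_, hmem, rfl⟩)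

/-- uniform fillers (E4), and uniform bound of the germ -/
theorem NestFam.filler {S : Finset G} (hS : TopHyp S) {D : Set (Set G)} (h : NestFam S D) :
    ∃ R : Finset G, ∀ x y z, Adj S x y → Adj S x z → Ex D x y z → Ey D x y z →
      (∃ E : G → ZMod 2, ∀ a b, Adj S a b →
        psi (mm D x y z) (nn D x y z) a b ≠ E a + E b → x⁻¹ * a ∈ R ∧ x⁻¹ * b ∈ R) ∧
      (∀ p ∈ TT S (mm D x y z) (nn D x y z), x⁻¹ * p.1 ∈ R ∧ x⁻¹ * p.2.1 ∈ R) := by
  classical
  have h1 : ∀ p : G × G, ∃ R : Finset G, p.1 ∈ S → Ex D 1 p.1 p.2 → Ey D 1 p.1 p.2 →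
      (∃ E : G → ZMod 2, ∀ a b, Adj S a b →
        psi (mm D 1 p.1 p.2) (nn D 1 p.1 p.2) a b ≠ E a + E b → a ∈ R ∧ b ∈ R) ∧
      (∀ q ∈ TT S (mm D 1 p.1 p.2) (nn D 1 p.1 p.2), q.1 ∈ R ∧ q.2.1 ∈ R) := by
    rintro ⟨s, t⟩
    by_cases hc : s ∈ S ∧ Ex D 1 s t ∧ Ey D 1 s t
    · obtain ⟨hs, hex, hey⟩ := hc
      have hadj : Adj S 1 s := by unfold Adj; simpa using hs
      obtain ⟨E, R1, hE⟩ := h.filler_one hS hadj hex hey
      have hT := h.TT_finite hS.toStd hadj hex hey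
      refine ⟨R1 ∪ (hT.toFinset.image (fun q => q.1) ∪ hT.toFinset.image (fun q => q.2.1)), ?_⟩
      intro _ _ _
      refine ⟨⟨E, ?_⟩, ?_⟩
      · intro a b hab hne
        obtain ⟨h1, h2⟩ := hE a b hab hne
        exact ⟨Finset.mem_union_left _ h1, Finset.mem_union_left _ h2⟩
      · intro q hq
        have hmem : q ∈ hT.toFinset := by simpa using hq
        constructor
        · exact Finset.mem_union_right _ (Finset.mem_union_left _ (Finset.mem_image.2 ⟨q, hmem, rfl⟩))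
        · exact Finset.mem_union_right _ (Finset.mem_union_right _ (Finset.mem_image.2 ⟨q, hmem, rfl⟩))
    · refine ⟨∅, fun h1 h2 h3 => absurd ⟨h1, h2, h3⟩ hc⟩
  choose R hR using h1
  refine ⟨(S ×ˢ S).biUnion R, ?_⟩
  intro x y z hxy hxz hex hey
  obtain ⟨s, rfl⟩ : ∃ s, y = x * s := ⟨x⁻¹ * y, by simp⟩
  obtain ⟨t, rfl⟩ : ∃ t, z = x * t := ⟨x⁻¹ * z, by simp⟩
  have hs : s ∈ S := by simpa [Adj] using hxy
  have ht : t ∈ S := by simpa [Adj] using hxz
  have hex' : Ex D 1 s t := by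
    rw [← h.Ex_tr x]; simpa using hex
  have hey' : Ey D 1 s t := by
    rw [← h.Ey_tr x]; simpa using hey
  have hmm : mm D x (x * s) (x * t) = tr x (mm D 1 s t) := by
    rw [← h.mm_tr]; simp
  have hnn : nn D x (x * s) (x * t) = tr x (nn D 1 s t) := by
    rw [← h.nn_tr]; simp
  obtain ⟨⟨E, hE⟩, hT⟩ := hR (s, t) hs hex' hey'
  have hsub : R (s, t) ⊆ (S ×ˢ S).biUnion R := by
    intro r hr
    exact Finset.mem_biUnion.2 ⟨(s, t), Finset.mem_product.2 ⟨hs, ht⟩, hr⟩
  refine ⟨⟨fun a => E (x⁻¹ * a), ?_⟩, ?_⟩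
  · intro a b hab hne
    rw [hmm, hnn] at hne
    have ha : a = x * (x⁻¹ * a) := by simp
    have hb : b = x * (x⁻¹ * b) := by simp
    rw [ha, hb, psi_tr] at hne
    have hab' : Adj S (x⁻¹ * a) (x⁻¹ * b) := by rw [adj_mul]; exact hab
    obtain ⟨h1, h2⟩ := hE _ _ hab' (by simpa using hne)
    exact ⟨hsub h1, hsub h2⟩
  · rintro ⟨a, b, c⟩ ⟨⟨t1, t2, t3⟩, f1, f2, f3, f4⟩
    simp only at t1 t2 t3 f1 f2 f3 f4
    rw [hmm] at f1 f4
    rw [hnn] at f2 f3
    rw [mem_tr] at f1 f2 f3 f4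
    obtain ⟨h1, h2⟩ := hT (x⁻¹ * a, x⁻¹ * b, x⁻¹ * c)
      ⟨⟨(adj_mul _ _ _).2 t1, (adj_mul _ _ _).2 t2, (adj_mul _ _ _).2 t3⟩, f1, f2, f3, f4⟩
    exact ⟨hsub h1, hsub h2⟩

/-- uniform bound of the finite crossing numbers -/
theorem NestFam.bound {S : Finset G} {D : Set (Set G)} (h : NestFam S D)
    (R : Finset G) : ∃ K : ℕ, ∀ x y v v', Adj S x y → x⁻¹ * v ∈ R → x⁻¹ * v' ∈ R →
      (PP S (mm D x y v) (mm D x y v')).ncard ≤ K := by
  classical
  let f : G × G × G → ℕ := fun p => (PP S (mm D 1 p.1 p.2.1) (mm D 1 p.1 p.2.2)).ncard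
  refine ⟨(S ×ˢ R ×ˢ R).sup f, ?_⟩
  intro x y v v' hxy hv hv'
  obtain ⟨s, rfl⟩ : ∃ s, y = x * s := ⟨x⁻¹ * y, by simp⟩
  obtain ⟨t, rfl⟩ : ∃ t, v = x * t := ⟨x⁻¹ * v, by simp⟩
  obtain ⟨t', rfl⟩ : ∃ t, v' = x * t := ⟨x⁻¹ * v', by simp⟩
  have hs : s ∈ S := by simpa [Adj] using hxy
  have ht : t ∈ R := by simpa using hv
  have ht' : t' ∈ R := by simpa using hv'
  have h1 : mm D x (x * s) (x * t) = tr x (mm D 1 s t) := by
    rw [← h.mm_tr]; simp
  have h2 : mm D x (x * s) (x * t') = tr x (mm D 1 s t') := by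
    rw [← h.mm_tr]; simp
  rw [h1, h2, PP_tr_ncard]
  exact Finset.le_sup (f := f) (b := (s, t, t'))
    (Finset.mem_product.2 ⟨hs, Finset.mem_product.2 ⟨ht, ht'⟩⟩)

/-! ### intervals -/

/-- `(A,B)` is an interval of the family -/
structure Itv (D : Set (Set G)) (A B : Set G) : Prop where
  sub : A ⊆ B
  lo : ∀ v, v ∉ A → ∃ M ∈ D, A ⊆ M ∧ M ⊆ B ∧ v ∉ M
  hi : ∀ v, v ∈ B → ∃ M ∈ D, A ⊆ M ∧ M ⊆ B ∧ v ∈ M

theorem Itv.ex {D : Set (Set G)} {A B : Set G} (hI : Itv D A B) {x y z : G} (hf : fl A B x y z) :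
    Ex D x y z ∧ Ey D x y z := by
  obtain ⟨h1, h2, h3, h4⟩ := hf
  constructor
  · obtain ⟨M, hM, hA, hB, hz⟩ := hI.lo z h4
    exact ⟨M, hM, hA h1, fun hh => h2 (hB hh), hz⟩
  · obtain ⟨M, hM, hA, hB, hz⟩ := hI.hi z h3
    exact ⟨M, hM, hA h1, fun hh => h2 (hB hh), hz⟩

theorem Itv.le_mm {D : Set (Set G)} {A B : Set G} (hI : Itv D A B) {x y v : G} (hx : x ∈ A)
    (hy : y ∉ B) (hv : v ∉ A) : A ⊆ mm D x y v := by
  obtain ⟨M, hM, hA, hB, hz⟩ := hI.lo v hv
  exact hA.trans (Crest.Agent.R224.le_mm hM (hA hx) (fun hh => hy (hB hh)) hz)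

theorem Itv.nn_le {D : Set (Set G)} {A B : Set G} (hI : Itv D A B) {x y z : G} (hf : fl A B x y z) :
    nn D x y z ⊆ B := by
  obtain ⟨h1, h2, h3, h4⟩ := hf
  obtain ⟨M, hM, hA, hB, hz⟩ := hI.hi z h3
  exact (Crest.Agent.R224.nn_le hM (hA h1) (fun hh => h2 (hB hh)) hz).trans hB

/-- Claim F1 -/
theorem NestFam.claim {S : Finset G} (hS : Std S) {D : Set (Set G)} (h : NestFam S D)
    {R : Finset G} {K : ℕ} (hR : ∀ x y z, Adj S x y → Adj S x z → Ex D x y z → Ey D x y z →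
      ∀ p ∈ TT S (mm D x y z) (nn D x y z), x⁻¹ * p.1 ∈ R ∧ x⁻¹ * p.2.1 ∈ R)
    (hSR : S ⊆ R)
    (hK : ∀ x y v v', Adj S x y → x⁻¹ * v ∈ R → x⁻¹ * v' ∈ R →
      (PP S (mm D x y v) (mm D x y v')).ncard ≤ K)
    {A B : Set G} (hI : Itv D A B) (hbig : K < (PP S A B).ncard)
    {x y z : G} (ht : Tri S x y z) (hf : fl A B x y z) :
    TT S (mm D x y z) (nn D x y z) ⊆ TT S A B := by
  rintro ⟨x', y', z'⟩ ⟨⟨t1, t2, t3⟩, g1, g2, g3, g4⟩
  simp only at t1 t2 t3 g1 g2 g3 g4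
  obtain ⟨hex, hey⟩ := hI.ex hf
  have hxy := ht.1
  have hxz := ht.2.2
  obtain ⟨hN, hxN, hyN, hzN⟩ := h.mm_mem hS hxy hex
  have hAN : A ⊆ mm D x y z := hI.le_mm hf.1 hf.2.1 hf.2.2.2
  have hQB : nn D x y z ⊆ B := hI.nn_le hf
  have hNQ := h.mm_le_nn hS hxy hex
  have hNB := hNQ.trans hQB
  have hRR := hR x y z hxy hxz hex hey (x', y', z') ⟨⟨t1, t2, t3⟩, g1, g2, g3, g4⟩
  simp only at hRR
  have hzR : x⁻¹ * z ∈ R := hSR hxz
  refine ⟨⟨t1, t2, t3⟩, ?_, ?_, hQB g3, fun hh => g4 (hAN hh)⟩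
  · -- x' ∈ A
    show x' ∈ A
    by_contra hx'
    have hAD : A ⊆ mm D x y x' := hI.le_mm hf.1 hf.2.1 hx'
    have hexx : Ex D x y x' := by
      obtain ⟨M, hM, hA, hB, hz⟩ := hI.lo x' hx'
      exact ⟨M, hM, hA hf.1, fun hh => hf.2.1 (hB hh), hz⟩
    obtain ⟨hD1, hxD1, hyD1, hx'D1⟩ := h.mm_mem hS hxy hexx
    have hsub : mm D x y x' ⊆ mm D x y z := by
      rcases h.chain _ hD1 _ hN x y hxy hxD1 hxN hyD1 hyN with h' | h'
      · exact h'
      · exact absurd (h' g1) hx'D1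
    have hne : mm D x y x' ≠ mm D x y z := fun hh => hx'D1 (hh ▸ g1)
    have hfin := h.fin _ hD1 _ hN hsub hne x y hxy hxD1 hyN
    have hPsub : PP S A B ⊆ PP S (mm D x y x') (mm D x y z) := by
      rintro ⟨a, b⟩ ⟨p1, p2, p3⟩
      exact ⟨p1, hAD p2, fun hh => p3 (hNB hh)⟩
    have := Set.ncard_le_ncard hPsub hfin
    have := hK x y x' z hxy hRR.1 hzR
    omega
  · -- y' ∉ B
    show y' ∉ B
    intro hy'
    obtain ⟨M1, hM1, hA1, hB1, hy'1⟩ := hI.hi y' hy'
    -- D0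
    have hD0 : ∃ D0 ∈ D, x ∈ D0 ∧ y ∉ D0 ∧ z ∈ D0 ∧ y' ∉ D0 := by
      by_contra hc
      push Not at hc
      apply g2
      rintro M ⟨hM, hx, hy, hz⟩
      exact hc M hM hx hy hz
    obtain ⟨D0, hD0, hxD0, hyD0, hzD0, hy'D0⟩ := hD0
    have hexx : Ex D x y y' := ⟨D0, hD0, hxD0, hyD0, hy'D0⟩
    obtain ⟨hD2, hxD2, hyD2, hy'D2⟩ := h.mm_mem hS hxy hexx
    have h02 : D0 ⊆ mm D x y y' := Crest.Agent.R224.le_mm hD0 hxD0 hyD0 hy'D0
    have hN0 : mm D x y z ⊆ D0 := hNQ.trans (Crest.Agent.R224.nn_le hD0 hxD0 hyD0 hzD0)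
    have hsub : mm D x y z ⊆ mm D x y y' := hN0.trans h02
    have hne : mm D x y z ≠ mm D x y y' := fun hh => hzN (hh ▸ h02 hzD0)
    have hfin := h.fin _ hN _ hD2 hsub hne x y hxy hxN hyD2
    have hD2B : mm D x y y' ⊆ B := by
      rcases h.chain _ hD2 _ hM1 x y hxy hxD2 (hA1 hf.1) hyD2 (fun hh => hf.2.1 (hB1 hh)) with h' | h'
      · exact h'.trans hB1
      · exact absurd (h' hy'1) hy'D2
    have hPsub : PP S A B ⊆ PP S (mm D x y z) (mm D x y y') := by
      rintro ⟨a, b⟩ ⟨p1, p2, p3⟩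
      exact ⟨p1, hAN p2, fun hh => p3 (hD2B hh)⟩
    have := Set.ncard_le_ncard hPsub hfin
    have := hK x y z y' hxy hzR hRR.2
    omega

end Crest.Agent.R224
end
end

-- ▼ part R224/BCore4
section

set_option autoImplicit false

noncomputable section

open MeasureTheory Set Filter Topology

namespace Crest.Agent.R224

variable {G : Type} [Group G]

/-- `(x,y,z)` is a permutation of `(a,b,c)` -/
def Perm3 (a b c x y z : G) : Prop :=
  (x = a ∧ y = b ∧ z = c) ∨ (x = a ∧ y = c ∧ z = b) ∨ (x = b ∧ y = a ∧ z = c) ∨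
  (x = b ∧ y = c ∧ z = a) ∨ (x = c ∧ y = a ∧ z = b) ∨ (x = c ∧ y = b ∧ z = a)

omit [Group G] in
theorem sg_iff {A B : Set G} {a b c : G} :
    sg A B a b c ↔ ∃ x y z, Perm3 a b c x y z ∧ fl A B x y z := by
  unfold sg Perm3
  constructor
  · rintro (h | h | h | h | h | h)
    · exact ⟨a, b, c, by tauto, h⟩
    · exact ⟨a, c, b, by tauto, h⟩
    · exact ⟨b, a, c, by tauto, h⟩
    · exact ⟨b, c, a, by tauto, h⟩
    · exact ⟨c, a, b, by tauto, h⟩
    · exact ⟨c, b, a, by tauto, h⟩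
  · rintro ⟨x, y, z, (⟨rfl, rfl, rfl⟩ | ⟨rfl, rfl, rfl⟩ | ⟨rfl, rfl, rfl⟩ | ⟨rfl, rfl, rfl⟩ |
      ⟨rfl, rfl, rfl⟩ | ⟨rfl, rfl, rfl⟩), h⟩ <;> tauto

omit [Group G] in
theorem Perm3.uniq {A B : Set G} (hAB : A ⊆ B) {a b c x y z x' y' z' : G}
    (h : Perm3 a b c x y z) (h' : Perm3 a b c x' y' z') (hf : fl A B x y z)
    (hf' : fl A B x' y' z') : x' = x ∧ y' = y ∧ z' = z := by
  have ha := @hAB a
  have hb := @hAB b
  have hc := @hAB c
  unfold fl at hf hf'
  rcases h with ⟨rfl, rfl, rfl⟩ | ⟨rfl, rfl, rfl⟩ | ⟨rfl, rfl, rfl⟩ | ⟨rfl, rfl, rfl⟩ |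
      ⟨rfl, rfl, rfl⟩ | ⟨rfl, rfl, rfl⟩ <;>
  rcases h' with ⟨rfl, rfl, rfl⟩ | ⟨rfl, rfl, rfl⟩ | ⟨rfl, rfl, rfl⟩ | ⟨rfl, rfl, rfl⟩ |
      ⟨rfl, rfl, rfl⟩ | ⟨rfl, rfl, rfl⟩ <;> tauto

theorem Perm3.tri {S : Finset G} (hS : Std S) {a b c x y z : G} (h : Perm3 a b c x y z)
    (ht : Tri S a b c) : Tri S x y z := by
  obtain ⟨t1, t2, t3, t4, t5, t6⟩ := ht.perm hS
  rcases h with ⟨rfl, rfl, rfl⟩ | ⟨rfl, rfl, rfl⟩ | ⟨rfl, rfl, rfl⟩ | ⟨rfl, rfl, rfl⟩ |
      ⟨rfl, rfl, rfl⟩ | ⟨rfl, rfl, rfl⟩ <;> assumption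

theorem TT_finite_of_PP {S : Finset G} {A B : Set G} (h : (PP S A B).Finite) :
    (TT S A B).Finite := by
  apply ((h.prod S.finite_toSet).image
    (fun p : (G × G) × G => (p.1.1, p.1.2, p.1.1 * p.2))).subset
  rintro ⟨x, y, z⟩ ⟨⟨t1, t2, t3⟩, f1, f2, f3, f4⟩
  exact ⟨((x, y), x⁻¹ * z), ⟨⟨t1, f1, f2⟩, t3⟩, by simp⟩

/-- filling of an interval with many crossing edges -/
theorem NestFam.fill {S : Finset G} (hS : TopHyp S) {D : Set (Set G)} (h : NestFam S D)
    {R : Finset G} {K : ℕ} (hR : ∀ x y z, Adj S x y → Adj S x z → Ex D x y z → Ey D x y z →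
      (∃ E : G → ZMod 2, ∀ a b, Adj S a b →
        psi (mm D x y z) (nn D x y z) a b ≠ E a + E b → x⁻¹ * a ∈ R ∧ x⁻¹ * b ∈ R) ∧
      (∀ p ∈ TT S (mm D x y z) (nn D x y z), x⁻¹ * p.1 ∈ R ∧ x⁻¹ * p.2.1 ∈ R))
    (hSR : S ⊆ R)
    (hK : ∀ x y v v', Adj S x y → x⁻¹ * v ∈ R → x⁻¹ * v' ∈ R →
      (PP S (mm D x y v) (mm D x y v')).ncard ≤ K)
    {A B : Set G} (hI : Itv D A B) (hfin : (PP S A B).Finite) (hbig : K < (PP S A B).ncard) :
    ∃ F : Finset G, ∀ a b, Adj S a b → ((a ∈ F ↔ b ∈ F) ↔ psi A B a b = 0) ∨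
      ∃ p ∈ TT S A B, p.1⁻¹ * a ∈ R ∧ p.1⁻¹ * b ∈ R := by
  classical
  have hTf := TT_finite_of_PP hfin
  have hclaim : ∀ p ∈ TT S A B,
      TT S (mm D p.1 p.2.1 p.2.2) (nn D p.1 p.2.1 p.2.2) ⊆ TT S A B := by
    rintro ⟨x, y, z⟩ ⟨ht, hf⟩
    exact h.claim hS.toStd (fun x y z h1 h2 h3 h4 => (hR x y z h1 h2 h3 h4).2) hSR hK hI hbig ht hf
  let pr : G × G × G → Set G × Set G := fun p => (mm D p.1 p.2.1 p.2.2, nn D p.1 p.2.1 p.2.2)
  let II : Finset (Set G × Set G) := hTf.toFinset.image pr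
  have hII : ∀ i ∈ II, ∃ p ∈ TT S A B, pr p = i := by
    intro i hi
    obtain ⟨p, hp, rfl⟩ := Finset.mem_image.1 hi
    exact ⟨p, by simpa using hp, rfl⟩
  have hEi : ∀ i : Set G × Set G, ∃ (E : G → ZMod 2), i ∈ II → ∃ p ∈ TT S A B, ∀ a b, Adj S a b →
      psi i.1 i.2 a b ≠ E a + E b → p.1⁻¹ * a ∈ R ∧ p.1⁻¹ * b ∈ R := by
    intro i
    by_cases hi : i ∈ II
    · obtain ⟨p, hp, rfl⟩ := hII i hi
      obtain ⟨hex, hey⟩ := hI.ex hp.2
      obtain ⟨E, hE⟩ := (hR _ _ _ hp.1.1 hp.1.2.2 hex hey).1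
      exact ⟨E, fun _ => ⟨p, hp, hE⟩⟩
    · exact ⟨fun _ => 0, fun h => absurd h hi⟩
  choose E hE using hEi
  -- the cocycle
  let Th : G → G → ZMod 2 := fun a b =>
    psi A B a b + ∑ i ∈ II, (psi i.1 i.2 a b + (E i a + E i b))
  have hcoc : ∀ a b c, Adj S a b → Adj S b c → Adj S a c → Th a b + Th b c = Th a c := by
    intro a b c hab hbc hac
    have ht : Tri S a b c := ⟨hab, hbc, hac⟩
    have hz : ∀ p q : ZMod 2, p + q = 0 → p = q := by decide
    apply hz
    have e0 : ∀ p q r : ZMod 2, (p + q) + (q + r) + (p + r) = 0 := by decide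
    have e1 : Th a b + Th b c + Th a c = (psi A B a b + psi A B b c + psi A B a c) +
        ∑ i ∈ II, (psi i.1 i.2 a b + psi i.1 i.2 b c + psi i.1 i.2 a c) := by
      have e2 : ∑ i ∈ II, (psi i.1 i.2 a b + (E i a + E i b)) +
          ∑ i ∈ II, (psi i.1 i.2 b c + (E i b + E i c)) +
          ∑ i ∈ II, (psi i.1 i.2 a c + (E i a + E i c)) =
          ∑ i ∈ II, (psi i.1 i.2 a b + psi i.1 i.2 b c + psi i.1 i.2 a c) := by
        rw [← Finset.sum_add_distrib, ← Finset.sum_add_distrib]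
        apply Finset.sum_congr rfl
        intro i _
        have := e0 (E i a) (E i b) (E i c)
        linear_combination this
      simp only [Th]
      rw [← e2]; ring
    rw [e1]
    have hsub : ∀ i ∈ II, i.1 ⊆ i.2 := by
      intro i hi
      obtain ⟨p, hp, rfl⟩ := hII i hi
      exact h.mm_le_nn hS.toStd hp.1.1 (hI.ex hp.2).1
    rw [psi_delta hI.sub, Finset.sum_congr rfl (fun i hi => psi_delta (hsub i hi) a b c)]
    -- i-flags are flags of the interval
    have hfl : ∀ i ∈ II, ∀ x y z, Perm3 a b c x y z → fl i.1 i.2 x y z →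
        fl A B x y z ∧ pr (x, y, z) = i := by
      intro i hi x y z hp hf
      obtain ⟨p, hp', rfl⟩ := hII i hi
      have htri := hp.tri hS.toStd ht
      obtain ⟨hex, hey⟩ := hI.ex hp'.2
      refine ⟨(hclaim p hp' (show (x, y, z) ∈ _ from ⟨htri, hf⟩)).2, ?_⟩
      obtain ⟨-, -, h1, h2⟩ := h.germ hS.toStd hp'.1.1 hex hey htri.1 hf
      exact Prod.ext h1 h2
    by_cases hs : sg A B a b c
    · obtain ⟨x, y, z, hp, hf⟩ := sg_iff.1 hs
      have htri := hp.tri hS.toStd ht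
      have hi0 : pr (x, y, z) ∈ II :=
        Finset.mem_image.2 ⟨(x, y, z), by simpa using (show (x, y, z) ∈ TT S A B from ⟨htri, hf⟩), rfl⟩
      have hkey : ∀ i ∈ II, (sg i.1 i.2 a b c ↔ i = pr (x, y, z)) := by
        intro i hi
        constructor
        · intro hsi
          obtain ⟨x', y', z', hp', hf'⟩ := sg_iff.1 hsi
          obtain ⟨g1, g2⟩ := hfl i hi x' y' z' hp' hf'
          obtain ⟨rfl, rfl, rfl⟩ := hp.uniq hI.sub hp' hf g1
          exact g2.symm
        · rintro rfl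
          obtain ⟨hex, hey⟩ := hI.ex hf
          obtain ⟨m1, m2, m3, m4⟩ := h.mm_mem hS.toStd htri.1 hex
          exact sg_iff.2 ⟨x, y, z, hp, m2, notMem_nn hey, mem_nn_right, m4⟩
      have hsum : ∑ i ∈ II, (if sg i.1 i.2 a b c then (1 : ZMod 2) else 0) =
          ∑ i ∈ II, (if i = pr (x, y, z) then (1 : ZMod 2) else 0) := by
        apply Finset.sum_congr rfl
        intro i hi
        by_cases hc : sg i.1 i.2 a b c
        · rw [if_pos hc, if_pos ((hkey i hi).1 hc)]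
        · rw [if_neg hc, if_neg (fun hh => hc ((hkey i hi).2 hh))]
      rw [if_pos hs, hsum, Finset.sum_ite_eq', if_pos hi0]
      decide
    · have hnone : ∀ i ∈ II, ¬ sg i.1 i.2 a b c := by
        intro i hi hsi
        obtain ⟨x', y', z', hp', hf'⟩ := sg_iff.1 hsi
        exact hs (sg_iff.2 ⟨x', y', z', hp', (hfl i hi x' y' z' hp' hf').1⟩)
      rw [if_neg hs, Finset.sum_congr rfl (fun i hi => if_neg (hnone i hi))]
      simp
  obtain ⟨e, he⟩ := hS.h1 Th hcoc
  -- where all q_i vanish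
  have hkey : ∀ a b, Adj S a b → (e a + e b = psi A B a b) ∨
      ∃ p ∈ TT S A B, p.1⁻¹ * a ∈ R ∧ p.1⁻¹ * b ∈ R := by
    intro a b hab
    by_cases hall : ∀ i ∈ II, psi i.1 i.2 a b = E i a + E i b
    · left
      rw [← he a b hab]
      have e3 : ∀ p : ZMod 2, p + p = 0 := by decide
      have : ∑ i ∈ II, (psi i.1 i.2 a b + (E i a + E i b)) = 0 := by
        apply Finset.sum_eq_zero
        intro i hi
        rw [hall i hi]; exact e3 _
      simp only [Th]
      rw [this, add_zero]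
    · right
      push Not at hall
      obtain ⟨i, hi, hne⟩ := hall
      obtain ⟨p, hp, hpE⟩ := hE i hi
      exact ⟨p, hp, hpE a b hab hne⟩
  -- boundary of {e = 1} finite
  have hbd : (bd S {v | e v = 1}).Finite := by
    have hU : (⋃ p ∈ TT S A B, ((R.image fun r => p.1 * r : Finset G) : Set G) ×ˢ
        ((R.image fun r => p.1 * r : Finset G) : Set G)).Finite :=
      hTf.biUnion fun p _ => (Finset.finite_toSet _).prod (Finset.finite_toSet _)
    apply ((hfin.union (hfin.image Prod.swap)).union hU).subset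
    rintro ⟨a, b⟩ ⟨hab, ha, hb⟩
    simp only at hab ha hb
    rcases hkey a b hab with hk | ⟨p, hp, h1, h2⟩
    · left
      have ha' : e a = 1 := ha
      have hb' : e b ≠ 1 := hb
      have hb0 : e b = 0 := by
        have : ∀ q : ZMod 2, q ≠ 1 → q = 0 := by decide
        exact this _ hb'
      rw [ha', hb0, add_zero] at hk
      unfold psi at hk
      by_cases hc : (a ∈ A ∧ b ∉ B) ∨ (b ∈ A ∧ a ∉ B)
      · rcases hc with ⟨c1, c2⟩ | ⟨c1, c2⟩
        · left; exact ⟨hab, c1, c2⟩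
        · right; exact ⟨(b, a), ⟨hS.toStd.adj_symm hab, c1, c2⟩, rfl⟩
      · rw [if_neg hc] at hk
        exact absurd hk (by decide)
    · right
      refine mem_iUnion₂.2 ⟨p, hp, ?_, ?_⟩
      · exact Finset.mem_coe.2 (Finset.mem_image.2 ⟨_, h1, by simp⟩)
      · exact Finset.mem_coe.2 (Finset.mem_image.2 ⟨_, h2, by simp⟩)
  have hfinal : ∀ F : Finset G, ((∀ v, v ∈ F ↔ e v = 1) ∨ (∀ v, v ∈ F ↔ ¬ e v = 1)) →
      ∀ a b, Adj S a b → ((a ∈ F ↔ b ∈ F) ↔ psi A B a b = 0) ∨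
      ∃ p ∈ TT S A B, p.1⁻¹ * a ∈ R ∧ p.1⁻¹ * b ∈ R := by
    intro F hF a b hab
    rcases hkey a b hab with hk | hk
    · left
      rw [← hk]
      have hz : ∀ p q : ZMod 2, ((p = 1 ↔ q = 1) ↔ p + q = 0) := by decide
      rcases hF with hF | hF
      · rw [hF a, hF b]; exact hz _ _
      · rw [hF a, hF b, not_iff_not]; exact hz _ _
    · right; exact hk
  rcases hS.oneEnd _ hbd with hf | hf
  · exact ⟨hf.toFinset, hfinal _ (Or.inl (by intro v; simp))⟩
  · exact ⟨hf.toFinset, hfinal _ (Or.inr (by intro v; simp))⟩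

end Crest.Agent.R224
end
end

-- ▼ part R224/BCore
section

set_option autoImplicit false

noncomputable section

open MeasureTheory Set Filter Topology

namespace Crest.Agent.R224

variable {G : Type} [Group G]

theorem le_Pop_of_le {S : Finset G} (hS : Std S) {w : G → ℝ} {x : G} {c : G → ℝ} {d : ℝ}
    (h1 : ∀ s ∈ S, c (x * s) ≤ w (x * s)) (h2 : Pop S c x = d) : d ≤ Pop S w x := by
  rw [← h2]
  unfold Pop
  exact div_le_div_of_nonneg_right (Finset.sum_le_sum h1) hS.card_pos.le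

theorem Pop_sub_const {S : Finset G} (hS : Std S) (u : G → ℝ) (c : ℝ) (x : G) :
    Pop S (fun y => u y - c) x = Pop S u x - c := by
  unfold Pop
  rw [Finset.sum_sub_distrib, sub_div]
  simp only [Finset.sum_const, nsmul_eq_mul]
  rw [mul_div_cancel_left₀ _ hS.card_pos.ne']

theorem Pop_const_sub {S : Finset G} (hS : Std S) (u : G → ℝ) (c : ℝ) (x : G) :
    Pop S (fun y => c - u y) x = c - Pop S u x := by
  unfold Pop
  rw [Finset.sum_sub_distrib, sub_div]
  simp only [Finset.sum_const, nsmul_eq_mul]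
  rw [mul_div_cancel_left₀ _ hS.card_pos.ne']

theorem Pop_nonneg {S : Finset G} {w : G → ℝ} (h : ∀ x, 0 ≤ w x) (x : G) : 0 ≤ Pop S w x := by
  unfold Pop
  exact div_nonneg (Finset.sum_nonneg fun s _ => h _) (Nat.cast_nonneg _)

/-- witness of massivity for `M` and for its complement -/
theorem Har.massive {S : Finset G} (hS : Std S) {M : Set G} (h : Har S M) :
    (∃ w : G → ℝ, (∀ x, 0 ≤ w x) ∧ (∀ x, w x ≤ 1) ∧ (∀ x, w x ≤ Pop S w x) ∧
      (∀ x, x ∉ M → w x = 0) ∧ ∃ x, 0 < w x) ∧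
    (∃ w : G → ℝ, (∀ x, 0 ≤ w x) ∧ (∀ x, w x ≤ 1) ∧ (∀ x, w x ≤ Pop S w x) ∧
      (∀ x, x ∉ Mᶜ → w x = 0) ∧ ∃ x, 0 < w x) := by
  obtain ⟨u, hu, h0, h1, hM, hM', ⟨x, hx⟩, ⟨y, hy⟩⟩ := h
  constructor
  · refine ⟨fun z => max (u z - 1 / 2) 0, fun z => le_max_right _ _, ?_, ?_, ?_, ⟨x, ?_⟩⟩
    · intro z; have := h1 z; exact max_le (by linarith) (by norm_num)
    · intro z
      apply max_le
      · exact le_Pop_of_le hS (c := fun y => u y - 1 / 2) (fun s _ => le_max_left _ _)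
          (by rw [Pop_sub_const hS, hu])
      · exact Pop_nonneg (fun z => le_max_right _ _) z
    · intro z hz
      apply max_eq_right
      by_contra hc
      exact hz (hM (by simp only [mem_ofPred_eq]; linarith))
    · exact lt_max_of_lt_left (by linarith)
  · refine ⟨fun z => max (1 / 2 - u z) 0, fun z => le_max_right _ _, ?_, ?_, ?_, ⟨y, ?_⟩⟩
    · intro z; have := h0 z; exact max_le (by linarith) (by norm_num)
    · intro z
      apply max_le
      · exact le_Pop_of_le hS (c := fun y => 1 / 2 - u y) (fun s _ => le_max_left _ _)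
          (by rw [Pop_const_sub hS, hu])
      · exact Pop_nonneg (fun z => le_max_right _ _) z
    · intro z hz
      apply max_eq_right
      have hz' : z ∈ M := by simpa using hz
      have := hM' hz'
      simp only [mem_ofPred_eq] at this
      linarith
    · exact lt_max_of_lt_left (by linarith)

theorem psi_self {A : Set G} {a b : G} : psi A A a b = 0 ↔ (a ∈ A ↔ b ∈ A) := by
  classical
  unfold psi
  by_cases h1 : a ∈ A <;> by_cases h2 : b ∈ A <;> simp [h1, h2]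

/-- conclusion for a sequence of intervals shrinking to a wall -/
theorem NestFam.concl {S : Finset G} (hS : TopHyp S) [Infinite G] (hPM : PrinM S)
    {D : Set (Set G)} (h : NestFam S D) {M : Set G} (hM : Har S M) {A B : ℕ → Set G}
    (hI : ∀ k, Itv D (A k) (B k)) (hA : ∀ k, A k ⊆ M) (hB : ∀ k, M ⊆ B k)
    (hfin : ∀ k, (PP S (A k) (B k)).Finite)
    (hA' : ∀ v ∈ M, ∀ᶠ k in atTop, v ∈ A k) (hB' : ∀ v, v ∉ M → ∀ᶠ k in atTop, v ∉ B k) :
    False := by
  classical
  obtain ⟨R0, hR0⟩ := h.filler hS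
  set R := R0 ∪ S with hRdef
  have hR : ∀ x y z, Adj S x y → Adj S x z → Ex D x y z → Ey D x y z →
      (∃ E : G → ZMod 2, ∀ a b, Adj S a b →
        psi (mm D x y z) (nn D x y z) a b ≠ E a + E b → x⁻¹ * a ∈ R ∧ x⁻¹ * b ∈ R) ∧
      (∀ p ∈ TT S (mm D x y z) (nn D x y z), x⁻¹ * p.1 ∈ R ∧ x⁻¹ * p.2.1 ∈ R) := by
    intro x y z h1 h2 h3 h4
    obtain ⟨⟨E, hE⟩, hT⟩ := hR0 x y z h1 h2 h3 h4
    refine ⟨⟨E, ?_⟩, ?_⟩
    · intro a b hab hne
      exact ⟨Finset.mem_union_left _ (hE a b hab hne).1, Finset.mem_union_left _ (hE a b hab hne).2⟩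
    · intro p hp
      exact ⟨Finset.mem_union_left _ (hT p hp).1, Finset.mem_union_left _ (hT p hp).2⟩
  have hSR : S ⊆ R := Finset.subset_union_right
  obtain ⟨K, hK⟩ := h.bound R
  -- many crossing edges
  have hbig : ∀ᶠ k in atTop, K < (PP S (A k) (B k)).ncard := by
    obtain ⟨T, hT, hTc⟩ := (hM.bd_infinite hS).exists_subset_card_eq (K + 1)
    have : ∀ᶠ k in atTop, ∀ p ∈ T, p ∈ PP S (A k) (B k) := by
      rw [Finset.eventually_all]
      intro p hp
      obtain ⟨h1, h2, h3⟩ := hT hp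
      filter_upwards [hA' _ h2, hB' _ h3] with k h4 h5
      exact ⟨h1, h4, h5⟩
    filter_upwards [this] with k hk
    have h1 : (T : Set (G × G)) ⊆ PP S (A k) (B k) := hk
    have h2 := Set.ncard_le_ncard h1 (hfin k)
    rw [Set.ncard_coe_finset, hTc] at h2
    omega
  obtain ⟨k0, hk0⟩ := eventually_atTop.1 hbig
  have hF : ∀ k, ∃ F : Finset G, ∀ a b, Adj S a b →
      ((a ∈ F ↔ b ∈ F) ↔ psi (A (k + k0)) (B (k + k0)) a b = 0) ∨
      ∃ p ∈ TT S (A (k + k0)) (B (k + k0)), p.1⁻¹ * a ∈ R ∧ p.1⁻¹ * b ∈ R := fun k =>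
    h.fill hS hR hSR hK (hI _) (hfin _) (hk0 _ (Nat.le_add_left _ _))
  choose F hF using hF
  have hA2 : ∀ v, ∀ᶠ k in atTop, (v ∈ A (k + k0) ↔ v ∈ M) := by
    intro v
    have ht : Tendsto (fun k => k + k0) atTop atTop := tendsto_add_atTop_nat k0
    by_cases hv : v ∈ M
    · filter_upwards [ht.eventually (hA' v hv)] with k hk
      exact ⟨fun _ => hv, fun _ => hk⟩
    · exact Eventually.of_forall fun k => ⟨fun hh => hA _ hh, fun hh => absurd hh hv⟩
  have hB2 : ∀ v, ∀ᶠ k in atTop, (v ∈ B (k + k0) ↔ v ∈ M) := by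
    intro v
    have ht : Tendsto (fun k => k + k0) atTop atTop := tendsto_add_atTop_nat k0
    by_cases hv : v ∈ M
    · exact Eventually.of_forall fun k => ⟨fun _ => hv, fun hh => hB _ hh⟩
    · filter_upwards [ht.eventually (hB' v hv)] with k hk
      exact ⟨fun hh => absurd hh hk, fun hh => absurd hh hv⟩
  -- convergence along edges
  have hedge : ∀ a b, Adj S a b → ∀ᶠ k in atTop, ((a ∈ F k ↔ b ∈ F k) ↔ (a ∈ M ↔ b ∈ M)) := by
    intro a b hab
    have h1 : ∀ᶠ k in atTop, ∀ q ∈ R ×ˢ S,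
        ((a * q.1⁻¹ * q.2 ∈ A (k + k0) ↔ a * q.1⁻¹ * q.2 ∈ M) ∧
         (a * q.1⁻¹ * q.2 ∈ B (k + k0) ↔ a * q.1⁻¹ * q.2 ∈ M)) := by
      rw [Finset.eventually_all]
      intro q _
      exact (hA2 _).and (hB2 _)
    filter_upwards [h1, hA2 a, hA2 b, hB2 a, hB2 b] with k e1 e2 e3 e4 e5
    rcases hF k a b hab with hk | ⟨⟨x, y, z⟩, ⟨⟨t1, t2, t3⟩, f1, f2, f3, f4⟩, g1, g2⟩
    · rw [hk, ← psi_self]
      unfold psi
      rw [e2, e3, e4, e5]
    · exfalso
      simp only at t1 t2 t3 f1 f2 f3 f4 g1 g2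
      have hq := e1 (x⁻¹ * a, x⁻¹ * z) (Finset.mem_product.2 ⟨g1, t3⟩)
      have hz : a * (x⁻¹ * a)⁻¹ * (x⁻¹ * z) = z := by
        simp [mul_assoc]
      simp only [hz] at hq
      exact f4 (hq.1.2 (hq.2.1 f3))
  have hvert : ∀ v, ∀ᶠ k in atTop, (((1 : G) ∈ F k ↔ v ∈ F k) ↔ ((1 : G) ∈ M ↔ v ∈ M)) := by
    apply hS.toStd.induct (P := fun v => ∀ᶠ k in atTop,
      (((1 : G) ∈ F k ↔ v ∈ F k) ↔ ((1 : G) ∈ M ↔ v ∈ M))) 1
    · exact Eventually.of_forall fun k => by simp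
    · intro x y hxy hx
      filter_upwards [hx, hedge x y hxy] with k h1 h2
      tauto
  -- bad edges
  have hbad : ∀ k a b, Adj S a b → a ∈ F k → b ∉ F k → (a ∈ M ↔ b ∈ M) →
      ∃ p ∈ TT S (A (k + k0)) (B (k + k0)), p.1⁻¹ * a ∈ R ∧ p.1⁻¹ * b ∈ R := by
    intro k a b hab ha hb hM2
    rcases hF k a b hab with hk | hk
    · exfalso
      have h0 : psi (A (k + k0)) (B (k + k0)) a b = 0 := by
        unfold psi
        rw [if_neg]
        rintro (⟨c1, c2⟩ | ⟨c1, c2⟩)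
        · exact c2 (hB _ (hM2.1 (hA _ c1)))
        · exact c2 (hB _ (hM2.2 (hA _ c1)))
      exact hb ((hk.2 h0).1 ha)
    · exact hk
  obtain ⟨⟨w, w0, w1, w2, w3, w4⟩, ⟨w', w0', w1', w2', w3', w4'⟩⟩ := hM.massive hS.toStd
  by_cases hfr : ∃ᶠ k in atTop, ((1 : G) ∈ F k ↔ (1 : G) ∈ M)
  · obtain ⟨φ, hφ, hφ1⟩ := extraction_of_frequently_atTop hfr
    refine hPM M w w0 w1 w2 w3 w4 (Finset.image₂ (fun r s => r⁻¹ * s) R R) (fun k => F (φ k)) ?_ ?_
    · intro v
      filter_upwards [hφ.tendsto_atTop.eventually (hvert v)] with k hk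
      have := hφ1 k
      tauto
    · intro k a b hab ha hb haM hbM
      obtain ⟨⟨x, y, z⟩, ⟨⟨t1, t2, t3⟩, f1, f2, f3, f4⟩, g1, g2⟩ :=
        hbad (φ k) a b hab ha hb ⟨fun _ => hbM, fun _ => haM⟩
      simp only at t1 t2 t3 f1 f2 f3 f4 g1 g2
      refine ⟨(x⁻¹ * a)⁻¹ * (x⁻¹ * y), Finset.mem_image₂.2 ⟨_, g1, _, hSR t1, rfl⟩, ?_⟩
      have : a * ((x⁻¹ * a)⁻¹ * (x⁻¹ * y)) = y := by simp [mul_assoc]
      rw [this]
      exact fun hh => f2 (hB _ hh)
  · rw [not_frequently] at hfr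
    refine hPM Mᶜ w' w0' w1' w2' w3' w4' (Finset.image₂ (fun r s => r⁻¹ * s) R R) F ?_ ?_
    · intro v
      filter_upwards [hfr, hvert v] with k h1 h2
      simp only [mem_compl_iff]
      tauto
    · intro k a b hab ha hb haM hbM
      obtain ⟨⟨x, y, z⟩, ⟨⟨t1, t2, t3⟩, f1, f2, f3, f4⟩, g1, g2⟩ :=
        hbad k a b hab ha hb ⟨fun h => absurd h haM, fun h => absurd h hbM⟩
      simp only at t1 t2 t3 f1 f2 f3 f4 g1 g2
      have h1R : (1 : G) ∈ R := hSR hS.toStd.one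
      refine ⟨(x⁻¹ * a)⁻¹ * 1, Finset.mem_image₂.2 ⟨_, g1, _, h1R, rfl⟩, ?_⟩
      have : a * ((x⁻¹ * a)⁻¹ * 1) = x := by simp [mul_assoc]
      rw [this]
      exact fun hh => hh (hA _ f1)

/-- the abstract theorem -/
theorem NestFam.empty {S : Finset G} (hS : TopHyp S) [Infinite G] (hPM : PrinM S)
    {D : Set (Set G)} (h : NestFam S D) : D = ∅ := by
  classical
  by_contra hne
  obtain ⟨M0, hM0⟩ := Set.nonempty_iff_ne_empty.2 hne
  have hinf := (h.har M0 hM0).bd_infinite hS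
  -- some generator crosses infinitely often
  have hs : ∃ s ∈ S, {x : G | x ∈ M0 ∧ x * s ∉ M0}.Infinite := by
    by_contra hc
    push Not at hc
    apply hinf
    have hU : (⋃ s ∈ S, (fun x => (x, x * s)) '' {x : G | x ∈ M0 ∧ x * s ∉ M0}).Finite :=
      S.finite_toSet.biUnion fun s hs => (hc s hs).image _
    apply hU.subset
    rintro ⟨a, b⟩ ⟨h1, h2, h3⟩
    simp only at h1 h2 h3
    refine mem_iUnion₂.2 ⟨a⁻¹ * b, h1, a, ⟨h2, ?_⟩, ?_⟩
    · simpa using h3
    · simp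
  obtain ⟨s, hs, hsinf⟩ := hs
  have hadj : Adj S 1 s := by unfold Adj; simpa using hs
  set L : Set (Set G) := {M | M ∈ D ∧ (1 : G) ∈ M ∧ s ∉ M} with hL
  have hLinf : L.Infinite := by
    have himg : ((fun x => tr x⁻¹ M0) '' {x : G | x ∈ M0 ∧ x * s ∉ M0}).Infinite := by
      apply hsinf.image
      intro x _ y _ hxy
      simp only at hxy
      have h1 : tr (y * x⁻¹) M0 = M0 := by
        rw [← tr_tr, hxy, tr_tr]; simp
      have h2 := h.stab M0 hM0 _ h1
      exact (mul_inv_eq_one.1 h2).symm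
    apply himg.mono
    rintro _ ⟨x, ⟨h1, h2⟩, rfl⟩
    refine ⟨(h.tr_mem _).2 hM0, ?_, ?_⟩
    · rw [mem_tr]; simpa using h1
    · rw [mem_tr]; simpa using h2
  -- monotone sequence
  let f := hLinf.natEmbedding
  have hchain : ∀ M ∈ L, ∀ M' ∈ L, M ⊆ M' ∨ M' ⊆ M := fun M hM M' hM' =>
    h.chain M hM.1 M' hM'.1 1 s hadj hM.2.1 hM'.2.1 hM.2.2 hM'.2.2
  obtain ⟨g, hg⟩ := exists_increasing_or_nonincreasing_subseq (· ⊂ ·) (fun n => (f n : Set G))
  have hmemL : ∀ k, (f (g k) : Set G) ∈ L := fun k => (f (g k)).2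
  rcases hg with hg | hg
  · -- increasing
    have hmono : StrictMono fun k => (f (g k) : Set G) := fun m n hmn => hg m n hmn
    set N : ℕ → Set G := fun k => (f (g k) : Set G) with hN
    have hNu : (⋃ k, N k) ∈ D := by
      apply h.union N (fun k => (hmemL k).1) hmono.monotone
      intro hc
      have : s ∈ ⋃ k, N k := by rw [hc]; trivial
      obtain ⟨k, hk⟩ := mem_iUnion.1 this
      exact (hmemL k).2.2 hk
    have hsU : s ∉ ⋃ k, N k := by
      intro hc
      obtain ⟨k, hk⟩ := mem_iUnion.1 hc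
      exact (hmemL k).2.2 hk
    have hsub : ∀ k, N k ⊆ ⋃ k, N k := fun k => subset_iUnion N k
    refine h.concl hS hPM (h.har _ hNu) (A := N) (B := fun _ => ⋃ k, N k) ?_ hsub
      (fun _ => Subset.rfl) ?_ ?_ ?_
    · intro k
      refine ⟨hsub k, ?_, ?_⟩
      · intro v hv
        exact ⟨N k, (hmemL k).1, Subset.rfl, hsub k, hv⟩
      · intro v hv
        obtain ⟨j, hj⟩ := mem_iUnion.1 hv
        exact ⟨N (max j k), (hmemL _).1, hmono.monotone (le_max_right _ _), hsub _,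
          hmono.monotone (le_max_left _ _) hj⟩
    · intro k
      have hlt : N k ⊂ N (k + 1) := hmono (Nat.lt_succ_self k)
      apply (h.fin (N k) (hmemL k).1 (N (k + 1)) (hmemL _).1 hlt.subset hlt.ne 1 s hadj
        (hmemL k).2.1 (hmemL _).2.2).subset
      rintro ⟨a, b⟩ ⟨h1, h2, h3⟩
      exact ⟨h1, h2, fun hh => h3 (hsub _ hh)⟩
    · intro v hv
      obtain ⟨j, hj⟩ := mem_iUnion.1 hv
      filter_upwards [eventually_ge_atTop j] with k hk
      exact hmono.monotone hk hj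
    · intro v hv
      exact Eventually.of_forall fun _ => hv
  · -- decreasing
    have hanti : StrictAnti fun k => (f (g k) : Set G) := by
      intro m n hmn
      have h1 := hg m n hmn
      have h2 : (f (g m) : Set G) ≠ f (g n) := by
        intro hh
        have := f.injective (Subtype.ext hh)
        exact absurd (g.injective this) hmn.ne
      rcases hchain _ (hmemL m) _ (hmemL n) with h' | h'
      · exact absurd (HasSubset.Subset.ssubset_of_ne h' h2) h1
      · exact HasSubset.Subset.ssubset_of_ne h' h2.symm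
    set N : ℕ → Set G := fun k => (f (g k) : Set G) with hN
    have hhar := h.harAnti N (fun k => (hmemL k).1) hanti 1 s hadj (fun k => (hmemL k).2.1)
      (fun k => (hmemL k).2.2)
    have hsub : ∀ k, ⋂ k, N k ⊆ N k := fun k => iInter_subset N k
    have h1I : (1 : G) ∈ ⋂ k, N k := mem_iInter.2 fun k => (hmemL k).2.1
    refine h.concl hS hPM hhar (A := fun _ => ⋂ k, N k) (B := N) ?_ (fun _ => Subset.rfl) hsub
      ?_ ?_ ?_
    · intro k
      refine ⟨hsub k, ?_, ?_⟩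
      · intro v hv
        have : ∃ j, v ∉ N j := by
          by_contra hc
          push Not at hc
          exact hv (mem_iInter.2 hc)
        obtain ⟨j, hj⟩ := this
        exact ⟨N (max j k), (hmemL _).1, hsub _, hanti.antitone (le_max_right _ _),
          fun hh => hj (hanti.antitone (le_max_left _ _) hh)⟩
      · intro v hv
        exact ⟨N k, (hmemL k).1, hsub k, Subset.rfl, hv⟩
    · intro k
      have hlt : N (k + 1) ⊂ N k := hanti (Nat.lt_succ_self k)
      apply (h.fin (N (k + 1)) (hmemL _).1 (N k) (hmemL k).1 hlt.subset hlt.ne 1 s hadj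
        (hmemL _).2.1 (hmemL _).2.2).subset
      rintro ⟨a, b⟩ ⟨h1, h2, h3⟩
      exact ⟨h1, hsub _ h2, h3⟩
    · intro v hv
      exact Eventually.of_forall fun _ => hv
    · intro v hv
      have : ∃ j, v ∉ N j := by
        by_contra hc
        push Not at hc
        exact hv (mem_iInter.2 hc)
      obtain ⟨j, hj⟩ := this
      filter_upwards [eventually_ge_atTop j] with k hk
      exact fun hh => hj (hanti.antitone hk hh)

theorem nCore : NCore := by
  intro G _ S hS hinf hPM D h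
  exact h.empty hS hPM

end Crest.Agent.R224
end
end

-- ▼ part R224/SepA
section

set_option autoImplicit false

noncomputable section

open Set Relation

namespace Crest.Agent.R224.LT

variable {E : Type*} (R : E → E → Prop)

/-- reachability inside `X` -/
def Reach (X : Set E) (p q : E) : Prop := ReflTransGen (fun a b => R a b ∧ a ∈ X ∧ b ∈ X) p q

/-- `X` is an almost closed piece of `W` -/
def Alm (W X : Set E) : Prop :=
  X ⊆ W ∧ {pq : E × E | R pq.1 pq.2 ∧ pq.1 ∈ X ∧ pq.2 ∈ W ∧ pq.2 ∉ X}.Finite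

/-- finitely many components -/
def Rep (X : Set E) : Prop := ∃ F : Set E, F.Finite ∧ ∀ p ∈ X, ∃ q ∈ F, q ∈ X ∧ Reach R X q p

variable {R}

theorem Reach.mem {X : Set E} {p q : E} (h : Reach R X p q) (hp : p ∈ X) : q ∈ X := by
  induction h with
  | refl => exact hp
  | tail _ h2 _ => exact h2.2.2

theorem Reach.mono {X Y : Set E} (hXY : X ⊆ Y) {p q : E} (h : Reach R X p q) : Reach R Y p q := by
  induction h with
  | refl => exact .refl
  | tail _ h2 ih => exact ih.tail ⟨h2.1, hXY h2.2.1, hXY h2.2.2⟩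

theorem Reach.symm (hs : ∀ p q, R p q → R q p) {X : Set E} {p q : E} (h : Reach R X p q) :
    Reach R X q p := by
  induction h with
  | refl => exact .refl
  | tail _ h2 ih => exact ReflTransGen.head ⟨hs _ _ h2.1, h2.2.2, h2.2.1⟩ ih

/-- either reachable in `X` or through an entrance -/
theorem reach_or {W X : Set E} {q p : E} (h : Reach R W q p) (hp : p ∈ X) :
    (q ∈ X ∧ Reach R X q p) ∨ ∃ u v, R u v ∧ u ∈ W ∧ u ∉ X ∧ v ∈ X ∧ Reach R X v p := by
  induction h with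
  | refl => exact Or.inl ⟨hp, .refl⟩
  | @tail b c h1 h2 ih =>
    by_cases hb : b ∈ X
    · rcases ih hb with ⟨h3, h4⟩ | ⟨u, v, h3, h4, h5, h6, h7⟩
      · exact Or.inl ⟨h3, ReflTransGen.tail h4 ⟨h2.1, hb, hp⟩⟩
      · exact Or.inr ⟨u, v, h3, h4, h5, h6, ReflTransGen.tail h7 ⟨h2.1, hb, hp⟩⟩
    · exact Or.inr ⟨b, c, h2.1, h2.2.1, hb, hp, .refl⟩

theorem Alm.rep (hs : ∀ p q, R p q → R q p) {W X : Set E} (hW : Rep R W) (hX : Alm R W X) :
    Rep R X := by
  obtain ⟨F, hF, hFW⟩ := hW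
  refine ⟨F ∪ Prod.fst '' {pq : E × E | R pq.1 pq.2 ∧ pq.1 ∈ X ∧ pq.2 ∈ W ∧ pq.2 ∉ X},
    hF.union (hX.2.image _), fun p hp => ?_⟩
  obtain ⟨q, hq, -, hqp⟩ := hFW p (hX.1 hp)
  rcases reach_or hqp hp with ⟨h1, h2⟩ | ⟨u, v, h1, h2, h3, h4, h5⟩
  · exact ⟨q, Or.inl hq, h1, h2⟩
  · exact ⟨v, Or.inr ⟨(v, u), ⟨hs _ _ h1, h4, h2, h3⟩, rfl⟩, h4, h5⟩

theorem Alm.sdiff_finite (hfin : ∀ q, {p | R p q}.Finite) {W X : Set E} (hX : Alm R W X)
    {F : Set E} (hF : F.Finite) : Alm R W (X \ F) := by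
  refine ⟨Set.sdiff_subset.trans hX.1, ?_⟩
  refine (hX.2.union (hF.biUnion fun q _ => (hfin q).image fun p => (p, q))).subset ?_
  rintro ⟨p, q⟩ ⟨h1, h2, h3, h4⟩
  by_cases hq : q ∈ X
  · right
    have hqF : q ∈ F := by
      by_contra h
      exact h4 ⟨hq, h⟩
    simp only [mem_iUnion]
    exact ⟨q, hqF, p, h1, rfl⟩
  · exact Or.inl ⟨h1, h2.1, h3, hq⟩

theorem Alm.comp {W X : Set E} (hX : Alm R W X) (q : E) (hq : q ∈ X) :
    Alm R W {p | Reach R X q p} := by
  refine ⟨fun p hp => hX.1 (Reach.mem hp hq), hX.2.subset ?_⟩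
  rintro ⟨p, p'⟩ ⟨h1, h2, h3, h4⟩
  refine ⟨h1, Reach.mem h2 hq, h3, fun h5 => h4 ?_⟩
  exact ReflTransGen.tail h2 ⟨h1, Reach.mem h2 hq, h5⟩

theorem Alm.sdiff_comp (hs : ∀ p q, R p q → R q p) {W X : Set E} (hX : Alm R W X) (q : E) :
    Alm R W (X \ {p | Reach R X q p}) := by
  refine ⟨Set.sdiff_subset.trans hX.1, hX.2.subset ?_⟩
  rintro ⟨p, p'⟩ ⟨h1, h2, h3, h4⟩
  refine ⟨h1, h2.1, h3, fun h5 => h4 ⟨h5, fun h6 => h2.2 ?_⟩⟩
  exact ReflTransGen.tail h6 ⟨hs _ _ h1, h5, h2.1⟩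

theorem comp_conn (hs : ∀ p q, R p q → R q p) {X : Set E} {q : E} :
    ∀ p ∈ {p | Reach R X q p}, ∀ p' ∈ {p | Reach R X q p}, Reach R {p | Reach R X q p} p p' := by
  have key : ∀ p, Reach R X q p → Reach R {p | Reach R X q p} q p := by
    intro p hp
    induction hp with
    | refl => exact .refl
    | @tail b c h1 h2 ih => exact ReflTransGen.tail ih ⟨h2.1, h1, ReflTransGen.tail h1 h2⟩
  intro p hp p' hp'
  exact ((key p hp).symm hs).trans (key p' hp')

/-- an additive property of almost closed pieces holds for a connected one -/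
theorem exists_conn (hs : ∀ p q, R p q → R q p) {W : Set E} (P : Set E → Prop) (hP0 : ¬ P ∅)
    (hPu : ∀ X1 X2, Alm R W X1 → Alm R W X2 → Disjoint X1 X2 → P (X1 ∪ X2) → P X1 ∨ P X2)
    {X : Set E} (hX : Alm R W X) (hr : Rep R X) (hP : P X) :
    ∃ C ⊆ X, Alm R W C ∧ P C ∧ ∀ p ∈ C, ∀ q ∈ C, Reach R C p q := by
  obtain ⟨F, hF, hFX⟩ := hr
  induction F, hF using Set.Finite.induction_on generalizing X with
  | empty =>
    exfalso
    apply hP0
    have : X = ∅ := by
      ext p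
      simp only [mem_empty_iff_false, iff_false]
      intro hp
      obtain ⟨q, hq, -⟩ := hFX p hp
      exact hq
    rwa [this] at hP
  | @insert q F _ _ ih =>
    by_cases hq : q ∈ X
    · have hsub : {p | Reach R X q p} ⊆ X := fun p hp => Reach.mem hp hq
      have hunion : {p | Reach R X q p} ∪ (X \ {p | Reach R X q p}) = X :=
        Set.union_sdiff_cancel hsub
      rcases hPu _ _ (hX.comp q hq) (hX.sdiff_comp hs q) disjoint_sdiff_self_right
        (by rw [hunion]; exact hP) with h | h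
      · exact ⟨_, hsub, hX.comp q hq, h, comp_conn hs⟩
      · obtain ⟨C, h1, h2, h3, h4⟩ := ih (hX.sdiff_comp hs q) h (by
          rintro p ⟨hp, hnp⟩
          obtain ⟨q', hq', hq'X, hr⟩ := hFX p hp
          rcases hq' with rfl | hq'
          · exact absurd hr hnp
          · refine ⟨q', hq', ⟨hq'X, fun h => hnp (h.trans hr)⟩, ?_⟩
            have key : ∀ p', Reach R X q' p' → Reach R X p' p →
                Reach R (X \ {p | Reach R X q p}) q' p' := by
              intro p' h1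
              induction h1 with
              | refl => intro _; exact .refl
              | @tail b c h1 h2 ih =>
                intro h5
                have hb : Reach R X b p := ReflTransGen.head h2 h5
                refine ReflTransGen.tail (ih hb) ⟨h2.1, ⟨h2.2.1, fun h => hnp (h.trans hb)⟩,
                  ⟨h2.2.2, fun h => hnp (h.trans h5)⟩⟩
            exact key p hr .refl)
        exact ⟨C, h1.trans Set.sdiff_subset, h2, h3, h4⟩
    · refine ih hX hP fun p hp => ?_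
      obtain ⟨q', hq', hq'X, hr⟩ := hFX p hp
      rcases hq' with rfl | hq'
      · exact absurd hq'X hq
      · exact ⟨q', hq', hq'X, hr⟩

end Crest.Agent.R224.LT
end
end

-- ▼ part R224/SepB
section

set_option autoImplicit false

noncomputable section

open Set Filter Topology Relation
open scoped Classical

namespace Crest.Agent.R224.LT

variable {G : Type} [Group G] {S : Finset G}

theorem adj_symm' (hS : Std S) {x y : G} (h : Adj S x y) : Adj S y x := by
  have := hS.inv _ h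
  simpa [Adj, mul_inv_rev] using this

theorem adj_fin (x : G) : {y | Adj S y x}.Finite := by
  refine (S.finite_toSet.image fun u => x * u⁻¹).subset ?_
  intro y hy
  refine ⟨y⁻¹ * x, hy, ?_⟩
  simp [mul_inv_rev]

theorem adj_fin' (x : G) : {y | Adj S x y}.Finite := by
  refine (S.finite_toSet.image fun u => x * u).subset ?_
  intro y hy
  exact ⟨x⁻¹ * y, hy, by simp⟩

theorem tstep_symm (hS : Std S) (p q : G × G) (h : tstep S p q) : tstep S q p := by
  rcases h with ⟨h1, h2⟩ | ⟨h1, h2⟩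
  · exact Or.inl ⟨h1.symm, adj_symm' hS h2⟩
  · exact Or.inr ⟨h1.symm, adj_symm' hS h2⟩

theorem tstep_fin (q : G × G) : {p | tstep S p q}.Finite := by
  refine (((adj_fin (S := S) q.2).image fun y => (q.1, y)).union
    ((adj_fin (S := S) q.1).image fun y => (y, q.2))).subset ?_
  rintro ⟨a, b⟩ (⟨h1, h2⟩ | ⟨h1, h2⟩)
  · left
    simp only at h1 h2
    exact ⟨b, h2, by rw [h1]⟩
  · right
    simp only at h1 h2
    exact ⟨a, h2, by rw [h1]⟩

/-- the `1`-cochain of a set of oriented edges -/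
def psi (X : Set (G × G)) (x y : G) : ZMod 2 := if (x, y) ∈ X ∨ (y, x) ∈ X then 1 else 0

/-- `δ B = psi X` up to a finite set -/
def Cob (S : Finset G) (B : G → ZMod 2) (X : Set (G × G)) : Prop :=
  {p : G × G | Adj S p.1 p.2 ∧ psi X p.1 p.2 ≠ B p.1 + B p.2}.Finite

omit [Group G] in
theorem psi_symm (X : Set (G × G)) (x y : G) : psi X x y = psi X y x := by
  unfold psi; congr 1; exact propext or_comm

theorem psi_same {A : Set G} {X : Set (G × G)} (hX : X ⊆ bd S A) {x y : G}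
    (h : x ∈ A ↔ y ∈ A) : psi X x y = 0 := by
  unfold psi
  rw [if_neg]
  rintro (h1 | h1)
  · have := hX h1
    exact this.2.2 (h.1 this.2.1)
  · have := hX h1
    exact this.2.2 (h.2 this.2.1)

theorem psi_out {A : Set G} {X : Set (G × G)} (hX : X ⊆ bd S A) {x y : G} (hy : y ∉ A) :
    psi X x y = if (x, y) ∈ X then 1 else 0 := by
  unfold psi
  have : (y, x) ∉ X := fun h => hy (hX h).2.1
  simp only [this, or_false]

/-- vertices of the crossing pairs -/
def CV (S : Finset G) (W X : Set (G × G)) : Set G :=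
  {v | ∃ pq ∈ {pq : (G × G) × (G × G) | tstep S pq.1 pq.2 ∧ pq.1 ∈ X ∧ pq.2 ∈ W ∧ pq.2 ∉ X},
    v = pq.1.1 ∨ v = pq.1.2 ∨ v = pq.2.1 ∨ v = pq.2.2}

theorem CV_finite {W X : Set (G × G)} (hX : Alm (tstep S) W X) : (CV S W X).Finite := by
  refine (hX.2.biUnion fun pq _ =>
    (({pq.1.1, pq.1.2, pq.2.1, pq.2.2} : Finset G).finite_toSet)).subset ?_
  rintro v ⟨pq, hpq, h⟩
  simp only [mem_iUnion]
  refine ⟨pq, hpq, ?_⟩
  simpa using h

theorem key1 (hS : Std S) {A : Set G} {X : Set (G × G)} (hX : X ⊆ bd S A) {a b c : G}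
    (ha : a ∈ A) (hb : b ∉ A) (hc : c ∉ A) (hab : Adj S a b) (hac : Adj S a c)
    (hbc : Adj S b c) (h : psi X a b ≠ psi X a c) :
    a ∈ CV S (bd S A) X ∧ b ∈ CV S (bd S A) X ∧ c ∈ CV S (bd S A) X := by
  rw [psi_out hX hb, psi_out hX hc] at h
  by_cases h1 : (a, b) ∈ X
  · by_cases h2 : (a, c) ∈ X
    · simp [h1, h2] at h
    · have : ((a, b), (a, c)) ∈ {pq : (G × G) × (G × G) | tstep S pq.1 pq.2 ∧ pq.1 ∈ X ∧
          pq.2 ∈ bd S A ∧ pq.2 ∉ X} := ⟨Or.inl ⟨rfl, hbc⟩, h1, ⟨hac, ha, hc⟩, h2⟩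
      exact ⟨⟨_, this, by simp⟩, ⟨_, this, by simp⟩, ⟨_, this, by simp⟩⟩
  · by_cases h2 : (a, c) ∈ X
    · have : ((a, c), (a, b)) ∈ {pq : (G × G) × (G × G) | tstep S pq.1 pq.2 ∧ pq.1 ∈ X ∧
          pq.2 ∈ bd S A ∧ pq.2 ∉ X} := ⟨Or.inl ⟨rfl, adj_symm' hS hbc⟩, h2, ⟨hab, ha, hb⟩, h1⟩
      exact ⟨⟨_, this, by simp⟩, ⟨_, this, by simp⟩, ⟨_, this, by simp⟩⟩
    · simp [h1, h2] at h

theorem key2 (hS : Std S) {A : Set G} {X : Set (G × G)} (hX : X ⊆ bd S A) {a b c : G}
    (ha : a ∉ A) (hb : b ∈ A) (hc : c ∈ A) (hab : Adj S a b) (hac : Adj S a c)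
    (hbc : Adj S b c) (h : psi X a b ≠ psi X a c) :
    a ∈ CV S (bd S A) X ∧ b ∈ CV S (bd S A) X ∧ c ∈ CV S (bd S A) X := by
  rw [psi_symm X a b, psi_symm X a c, psi_out hX ha, psi_out hX ha] at h
  by_cases h1 : (b, a) ∈ X
  · by_cases h2 : (c, a) ∈ X
    · simp [h1, h2] at h
    · have : ((b, a), (c, a)) ∈ {pq : (G × G) × (G × G) | tstep S pq.1 pq.2 ∧ pq.1 ∈ X ∧
          pq.2 ∈ bd S A ∧ pq.2 ∉ X} :=
        ⟨Or.inr ⟨rfl, hbc⟩, h1, ⟨adj_symm' hS hac, hc, ha⟩, h2⟩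
      exact ⟨⟨_, this, by simp⟩, ⟨_, this, by simp⟩, ⟨_, this, by simp⟩⟩
  · by_cases h2 : (c, a) ∈ X
    · have : ((c, a), (b, a)) ∈ {pq : (G × G) × (G × G) | tstep S pq.1 pq.2 ∧ pq.1 ∈ X ∧
          pq.2 ∈ bd S A ∧ pq.2 ∉ X} :=
        ⟨Or.inr ⟨rfl, adj_symm' hS hbc⟩, h2, ⟨adj_symm' hS hab, hb, ha⟩, h1⟩
      exact ⟨⟨_, this, by simp⟩, ⟨_, this, by simp⟩, ⟨_, this, by simp⟩⟩
    · simp [h1, h2] at h

theorem key (hS : Std S) {A : Set G} {X : Set (G × G)} (hX : X ⊆ bd S A) {a b c : G}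
    (hab' : ¬ (a ∈ A ↔ b ∈ A)) (hbc' : b ∈ A ↔ c ∈ A) (hab : Adj S a b) (hac : Adj S a c)
    (hbc : Adj S b c) (h : psi X a b ≠ psi X a c) :
    a ∈ CV S (bd S A) X ∧ b ∈ CV S (bd S A) X ∧ c ∈ CV S (bd S A) X := by
  by_cases ha : a ∈ A
  · have hb : b ∉ A := fun h => hab' (iff_of_true ha h)
    exact key1 hS hX ha hb (fun h => hb (hbc'.2 h)) hab hac hbc h
  · have hb : b ∈ A := by
      by_contra h
      exact hab' (iff_of_false ha h)
    exact key2 hS hX ha hb (hbc'.1 hb) hab hac hbc h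

theorem exists_cob (hT : TopHyp S) {A : Set G} {X : Set (G × G)}
    (hX : Alm (tstep S) (bd S A) X) : ∃ B : G → ZMod 2, Cob S B X := by
  apply hT.t2 (psi X)
  have hV := CV_finite hX
  refine ((hV.prod (hV.prod hV))).subset ?_
  rintro ⟨x, y, z⟩ ⟨hxy, hyz, hxz, hne⟩
  simp only at hxy hyz hxz hne
  have hS := hT.toStd
  have hyx := adj_symm' hS hxy
  have hzy := adj_symm' hS hyz
  have hzx := adj_symm' hS hxz
  have goal : x ∈ CV S (bd S A) X ∧ y ∈ CV S (bd S A) X ∧ z ∈ CV S (bd S A) X := by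
    by_cases h1 : x ∈ A ↔ y ∈ A
    · by_cases h2 : y ∈ A ↔ z ∈ A
      · rw [psi_same hX.1 h1, psi_same hX.1 h2, psi_same hX.1 (h1.trans h2)] at hne
        simp at hne
      · rw [psi_same hX.1 h1, zero_add, psi_symm X y z, psi_symm X x z] at hne
        have := key hS hX.1 (a := z) (b := x) (c := y) (fun h => h2 ((h.trans h1).symm)) h1 hzx
          hzy hxy (fun h => hne h.symm)
        tauto
    · by_cases h2 : y ∈ A ↔ z ∈ A
      · rw [psi_same hX.1 h2, add_zero] at hne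
        have := key hS hX.1 (a := x) (b := y) (c := z) h1 h2 hxy hxz hyz hne
        tauto
      · have h3 : x ∈ A ↔ z ∈ A := by tauto
        have hne' : psi X y x ≠ psi X y z := by
          intro h
          apply hne
          rw [psi_symm X x y, h, psi_same hX.1 h3]
          exact CharTwo.add_self_eq_zero _
        have := key hS hX.1 (a := y) (b := x) (c := z) (fun h => h1 h.symm) h3 hyx hyz hxz hne'
        tauto
  exact ⟨goal.1, goal.2.1, goal.2.2⟩

theorem psi_union {A : Set G} {X1 X2 : Set (G × G)} (h1 : X1 ⊆ bd S A) (h2 : X2 ⊆ bd S A)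
    (hd : Disjoint X1 X2) (x y : G) : psi (X1 ∪ X2) x y = psi X1 x y + psi X2 x y := by
  have hd' := Set.disjoint_left.1 hd
  unfold psi
  by_cases a1 : (x, y) ∈ X1
  · have b1 : (x, y) ∉ X2 := hd' a1
    have b2 : (y, x) ∉ X2 := fun h => (h1 a1).2.2 (h2 h).2.1
    simp [a1, b1, b2]
  · by_cases a2 : (y, x) ∈ X1
    · have b1 : (y, x) ∉ X2 := hd' a2
      have b2 : (x, y) ∉ X2 := fun h => (h1 a2).2.2 (h2 h).2.1
      simp [a2, b1, b2]
    · simp [a1, a2]

theorem Cob.add {A : Set G} {X1 X2 : Set (G × G)} (h1 : X1 ⊆ bd S A) (h2 : X2 ⊆ bd S A)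
    (hd : Disjoint X1 X2) {B1 B2 : G → ZMod 2} (hB1 : Cob S B1 X1) (hB2 : Cob S B2 X2) :
    Cob S (fun x => B1 x + B2 x) (X1 ∪ X2) := by
  refine (Set.Finite.union hB1 hB2).subset ?_
  rintro ⟨x, y⟩ ⟨hxy, hne⟩
  by_contra hcon
  simp only [mem_union, mem_ofPred_eq, not_or, not_and, not_not] at hcon
  apply hne
  simp only
  rw [psi_union h1 h2 hd, hcon.1 hxy, hcon.2 hxy]
  ring

theorem Cob.of_sdiff {X X' : Set (G × G)} (hs : X' ⊆ X) (hf : (X \ X').Finite)
    {B : G → ZMod 2} (hB : Cob S B X') : Cob S B X := by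
  refine (Set.Finite.union hB (hf.union (hf.image Prod.swap))).subset ?_
  rintro ⟨x, y⟩ ⟨hxy, hne⟩
  by_contra hcon
  simp only [mem_union, mem_ofPred_eq, not_or, not_and, not_not] at hcon
  apply hne
  simp only
  rw [← hcon.1 hxy]
  unfold psi
  have e1 : (x, y) ∈ X ↔ (x, y) ∈ X' := by
    refine ⟨fun h => ?_, fun h => hs h⟩
    by_contra h'
    exact hcon.2.1 ⟨h, h'⟩
  have e2 : (y, x) ∈ X ↔ (y, x) ∈ X' := by
    refine ⟨fun h => ?_, fun h => hs h⟩
    by_contra h'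
    exact hcon.2.2 ⟨(y, x), ⟨h, h'⟩, rfl⟩
  rw [e1, e2]

/-- the piece `X` separates the "places" `la` and `lb` -/
def Sepd (S : Finset G) (la lb : Filter G) (X : Set (G × G)) : Prop :=
  ∀ B : G → ZMod 2, Cob S B X → ∀ ca cb, (∀ᶠ x in la, B x = ca) → (∀ᶠ x in lb, B x = cb) →
    ca ≠ cb

theorem not_sepd_empty {la lb : Filter G} : ¬ Sepd S la lb ∅ := by
  intro h
  refine h (fun _ => 0) ?_ 0 0 (by simp) (by simp) rfl
  unfold Cob psi
  simp

theorem sepd_union {A : Set G} {X1 X2 : Set (G × G)} (h1 : X1 ⊆ bd S A) (h2 : X2 ⊆ bd S A)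
    (hd : Disjoint X1 X2) {la lb : Filter G} (h : Sepd S la lb (X1 ∪ X2)) :
    Sepd S la lb X1 ∨ Sepd S la lb X2 := by
  by_contra hcon
  rw [not_or] at hcon
  obtain ⟨c1, c2⟩ := hcon
  unfold Sepd at c1 c2
  push Not at c1 c2
  obtain ⟨B1, hB1, a1, b1, ha1, hb1, rfl⟩ := c1
  obtain ⟨B2, hB2, a2, b2, ha2, hb2, rfl⟩ := c2
  refine h _ (hB1.add h1 h2 hd hB2) (a1 + a2) (a1 + a2) ?_ ?_ rfl
  · filter_upwards [ha1, ha2] with x h1 h2
    rw [h1, h2]
  · filter_upwards [hb1, hb2] with x h1 h2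
    rw [h1, h2]

theorem Sepd.of_sdiff {X X' : Set (G × G)} (hs : X' ⊆ X) (hf : (X \ X').Finite)
    {la lb : Filter G} (h : Sepd S la lb X) : Sepd S la lb X' :=
  fun B hB => h B (hB.of_sdiff hs hf)

theorem sepd_infinite {X : Set (G × G)} {la lb : Filter G} (h : Sepd S la lb X) :
    X.Infinite := fun hf =>
  not_sepd_empty (h.of_sdiff (empty_subset X) (hf.subset Set.sdiff_subset))

/-- the full wall separates -/
theorem sepd_bd (hT : TopHyp S) {A : Set G} {la lb : Filter G} [la.NeBot] [lb.NeBot]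
    (hla : la ≤ cofinite) (hlb : lb ≤ cofinite) (ha : ∀ᶠ x in la, x ∈ A)
    (hb : ∀ᶠ x in lb, x ∉ A) : Sepd S la lb (bd S A) := by
  intro B hB ca cb hca hcb hcc
  subst hcc
  let χ : G → ZMod 2 := fun x => if x ∈ A then 0 else 1
  have hψ : ∀ x y, Adj S x y → psi (bd S A) x y = χ x + χ y := by
    intro x y hxy
    have hyx := adj_symm' hT.toStd hxy
    by_cases hx : x ∈ A <;> by_cases hy : y ∈ A
    · rw [psi_same subset_rfl (iff_of_true hx hy)]; simp [χ, hx, hy]
    · rw [psi_out subset_rfl hy, if_pos ⟨hxy, hx, hy⟩]; simp [χ, hx, hy]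
    · rw [psi_symm, psi_out subset_rfl hx, if_pos ⟨hyx, hy, hx⟩]; simp [χ, hx, hy]
    · rw [psi_same subset_rfl (iff_of_false hx hy)]
      simp only [χ, hx, hy, if_false]
      exact (CharTwo.add_self_eq_zero _).symm
  have hfin : (bd S {x | B x + χ x = 1}).Finite := by
    refine Set.Finite.subset hB ?_
    rintro ⟨x, y⟩ ⟨hxy, hx, hy⟩
    refine ⟨hxy, fun h => hy ?_⟩
    simp only at hxy h
    rw [hψ x y hxy] at h
    have hx' : B x + χ x = 1 := hx
    show B y + χ y = 1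
    have h2 : ∀ a b c d : ZMod 2, a + b = c + d → c + a = 1 → d + b = 1 := by decide
    exact h2 _ _ _ _ h hx'
  have aux : ∀ a : ZMod 2, a ≠ 1 → a = 0 := by decide
  have aux2 : ∀ a : ZMod 2, a + 1 ≠ 1 → a = 1 := by decide
  have aux3 : ∀ a : ZMod 2, a + 1 = 1 → a = 0 := by decide
  rcases hT.oneEnd _ hfin with h | h
  · have e1 : ∀ᶠ x in la, x ∉ {x | B x + χ x = 1} := hla h.compl_mem_cofinite
    have e2 : ∀ᶠ x in lb, x ∉ {x | B x + χ x = 1} := hlb h.compl_mem_cofinite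
    obtain ⟨x, h1, h2, h3⟩ := (e1.and (ha.and hca)).exists
    obtain ⟨y, h4, h5, h6⟩ := (e2.and (hb.and hcb)).exists
    simp only [mem_ofPred_eq, χ, h2, if_true, add_zero, h3] at h1
    simp only [mem_ofPred_eq, χ, h5, if_false, h6] at h4
    rw [aux _ h1] at h4
    simp at h4
  · have e1 : ∀ᶠ x in la, x ∈ {x | B x + χ x = 1} := by
      have := hla h.compl_mem_cofinite
      rwa [compl_compl] at this
    have e2 : ∀ᶠ x in lb, x ∈ {x | B x + χ x = 1} := by
      have := hlb h.compl_mem_cofinite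
      rwa [compl_compl] at this
    obtain ⟨x, h1, h2, h3⟩ := (e1.and (ha.and hca)).exists
    obtain ⟨y, h4, h5, h6⟩ := (e2.and (hb.and hcb)).exists
    simp only [mem_ofPred_eq, χ, h2, if_true, add_zero, h3] at h1
    simp only [mem_ofPred_eq, χ, h5, if_false, h6] at h4
    rw [h1] at h4
    revert h4
    decide

end Crest.Agent.R224.LT
end
end

-- ▼ part R224/SepC
section

set_option autoImplicit false

noncomputable section

open Set Filter Topology Relation MeasureTheory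
open scoped Classical ENNReal

namespace Crest.Agent.R224.LT

variable {G : Type} [Group G] {S : Finset G}

/-- weight of an edge of the wall `bd A` -/
def wt (S : Finset G) (A : Set G) (g : G → ℝ) (e : G × G) : ℝ≥0∞ :=
  if e ∈ bd S A then ENNReal.ofReal |g e.2 - g e.1| else 0

theorem adj_tsum_ne_top {f g : G → ℝ} (hf : Dir S f) (hg : Dir S g) :
    ∑' e : G × G, (if Adj S e.1 e.2 then ENNReal.ofReal (|f e.2 - f e.1| * |g e.2 - g e.1|)
      else 0) ≠ ⊤ := by
  let i : G × S → G × G := fun p => (p.1, p.1 * (p.2 : G))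
  have hi : Function.Injective i := by
    rintro ⟨x, u⟩ ⟨y, v⟩ h
    simp only [i, Prod.mk.injEq] at h
    obtain ⟨rfl, h2⟩ := h
    have := mul_left_cancel h2
    rw [Prod.mk.injEq]
    exact ⟨rfl, Subtype.ext this⟩
  have hsupp : Function.support (fun e : G × G => if Adj S e.1 e.2 then
      ENNReal.ofReal (|f e.2 - f e.1| * |g e.2 - g e.1|) else 0) ⊆ range i := by
    rintro ⟨x, y⟩ h
    simp only [Function.mem_support, ne_eq, ite_eq_right_iff, Classical.not_imp] at h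
    exact ⟨(x, ⟨x⁻¹ * y, h.1⟩), by simp [i]⟩
  rw [← hi.tsum_eq hsupp]
  have hsum : Summable fun p : G × S => |f (p.1 * (p.2 : G)) - f p.1| *
      |g (p.1 * (p.2 : G)) - g p.1| := by
    refine Summable.of_nonneg_of_le (fun _ => by positivity) (fun p => ?_)
      (Summable.add hf hg)
    rw [← sq_abs (f (p.1 * (p.2 : G)) - f p.1), ← sq_abs (g (p.1 * (p.2 : G)) - g p.1)]
    nlinarith [sq_nonneg (|f (p.1 * (p.2 : G)) - f p.1| - |g (p.1 * (p.2 : G)) - g p.1|),
      sq_nonneg (|f (p.1 * (p.2 : G)) - f p.1|), sq_nonneg (|g (p.1 * (p.2 : G)) - g p.1|)]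
  have h2 : ∀ p : G × S, (if Adj S (i p).1 (i p).2 then
      ENNReal.ofReal (|f (i p).2 - f (i p).1| * |g (i p).2 - g (i p).1|) else 0) =
      ENNReal.ofReal (|f (p.1 * (p.2 : G)) - f p.1| * |g (p.1 * (p.2 : G)) - g p.1|) := by
    intro p
    rw [if_pos]
    simp [i, Adj]
  simp_rw [h2]
  exact hsum.tsum_ofReal_ne_top

theorem coarea [Countable G] {f g : G → ℝ} (hf : Dir S f) (hg : Dir S g) :
    ∀ᵐ t : ℝ, ∑' e : G × G, wt S {x | f x < t} g e ≠ ⊤ := by
  have hform : ∀ (e : G × G), (fun t : ℝ => wt S {x | f x < t} g e) =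
      if Adj S e.1 e.2 then (Ioc (f e.1) (f e.2)).indicator
        (fun _ => ENNReal.ofReal |g e.2 - g e.1|) else 0 := by
    intro e
    funext t
    unfold wt
    by_cases h : Adj S e.1 e.2
    · rw [if_pos h]
      by_cases ht : t ∈ Ioc (f e.1) (f e.2)
      · rw [indicator_of_mem ht, if_pos]
        exact ⟨h, ht.1, not_lt.2 ht.2⟩
      · rw [indicator_of_notMem ht, if_neg]
        rintro ⟨-, h1, h2⟩
        exact ht ⟨h1, not_lt.1 h2⟩
    · rw [if_neg h, if_neg]
      · rfl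
      · exact fun h' => h h'.1
  have hmeas : ∀ e : G × G, Measurable (fun t : ℝ => wt S {x | f x < t} g e) := by
    intro e
    rw [hform]
    by_cases h : Adj S e.1 e.2
    · rw [if_pos h]
      exact measurable_const.indicator measurableSet_Ioc
    · rw [if_neg h]
      exact measurable_const
  have hint : ∫⁻ t : ℝ, ∑' e : G × G, wt S {x | f x < t} g e ≠ ⊤ := by
    rw [lintegral_tsum fun e => (hmeas e).aemeasurable]
    refine ne_top_of_le_ne_top (adj_tsum_ne_top hf hg) (ENNReal.tsum_le_tsum fun e => ?_)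
    rw [hform]
    by_cases h : Adj S e.1 e.2
    · rw [if_pos h, if_pos h, lintegral_indicator_const measurableSet_Ioc, Real.volume_Ioc,
        mul_comm, ENNReal.ofReal_mul (abs_nonneg _)]
      gcongr
      exact le_abs_self _
    · rw [if_neg h, if_neg h]
      exact (lintegral_zero (μ := (volume : Measure ℝ))).le
  have := ae_lt_top (Measurable.tsum hmeas) hint
  filter_upwards [this] with t ht
  exact ht.ne

/-- oscillation of `g` on a connected piece -/
theorem osc_le [Countable G] {g : G → ℝ} {C : Set (G × G)}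
    (hC : ∀ p ∈ C, ∀ q ∈ C, Reach (tstep S) C p q) {p q : G × G} (hp : p ∈ C) (hq : q ∈ C) :
    ENNReal.ofReal |g p.1 - g q.1| ≤ ∑' e : C, ENNReal.ofReal |g (e : G × G).2 - g (e : G × G).1| := by
  set I : G × G → Set ℝ := fun e => uIcc (g e.1) (g e.2)
  have hpre : IsPreconnected (⋃ e ∈ C, I e) := by
    apply IsPreconnected.biUnion_of_reflTransGen
    · intro e _
      exact isPreconnected_uIcc
    · intro i hi j hj
      have h := hC i hi j hj
      induction h with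
      | refl => exact .refl
      | @tail b c h1 h2 ih =>
        refine (ih h2.2.1).tail ⟨?_, h2.2.1⟩
        rcases h2.1 with ⟨h3, -⟩ | ⟨h3, -⟩
        · exact ⟨g b.1, left_mem_uIcc, by rw [h3]; exact left_mem_uIcc⟩
        · exact ⟨g b.2, right_mem_uIcc, by rw [h3]; exact right_mem_uIcc⟩
  have hord := hpre.ordConnected
  have hpU : g p.1 ∈ ⋃ e ∈ C, I e := mem_biUnion hp left_mem_uIcc
  have hqU : g q.1 ∈ ⋃ e ∈ C, I e := mem_biUnion hq left_mem_uIcc
  have hsub : uIcc (g q.1) (g p.1) ⊆ ⋃ e ∈ C, I e := hord.uIcc_subset hqU hpU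
  calc ENNReal.ofReal |g p.1 - g q.1| = volume (uIcc (g q.1) (g p.1)) :=
        Real.volume_interval.symm
    _ ≤ volume (⋃ e ∈ C, I e) := measure_mono hsub
    _ ≤ ∑' e : C, volume (I e) := measure_biUnion_le _ (Set.to_countable C) _
    _ = _ := by
        refine tsum_congr fun e => ?_
        exact Real.volume_interval

end Crest.Agent.R224.LT
end
end

-- ▼ part R224/SepD
section

set_option autoImplicit false

noncomputable section

open Set Filter Topology Relation MeasureTheory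
open scoped Classical ENNReal

namespace Crest.Agent.R224.LT

/-- finitely many functions of `𝓕` control the distance near infinity -/
theorem control (s : Sys) {ε : ℝ} (hε : 0 < ε) : ∃ (D : Finset (s.Z → ℝ)) (δ : ℝ)
    (K : Finset s.G), 0 < δ ∧ (∀ g ∈ D, g ∈ s.𝓕) ∧ ∀ x ∉ K, ∀ y ∉ K,
      (∀ g ∈ D, |g (s.ι x) - g (s.ι y)| ≤ δ) → dist (s.ι x) (s.ι y) < ε := by
  have hcomp : IsCompact {p : s.Z × s.Z | ε ≤ dist p.1 p.2} :=
    (isClosed_le continuous_const continuous_dist).isCompact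
  have key : (fun A : Set (s.Z × s.Z) => ∃ (D : Finset (s.Z → ℝ)) (δ : ℝ)
    (K : Finset s.G), 0 < δ ∧ (∀ g ∈ D, g ∈ s.𝓕) ∧ ∀ x ∉ K, ∀ y ∉ K,
      (s.ι x, s.ι y) ∈ A → ∃ g ∈ D, δ < |g (s.ι x) - g (s.ι y)|)
      {p : s.Z × s.Z | ε ≤ dist p.1 p.2} := by
    refine hcomp.induction_on ?_ ?_ ?_ ?_
    · exact ⟨∅, 1, ∅, one_pos, by simp, by simp⟩
    · rintro A B hAB ⟨D, δ, K, h1, h2, h3⟩
      exact ⟨D, δ, K, h1, h2, fun x hx y hy hxy => h3 x hx y hy (hAB hxy)⟩
    · rintro A B ⟨D, δ, K, h1, h2, h3⟩ ⟨D', δ', K', h1', h2', h3'⟩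
      refine ⟨D ∪ D', min δ δ', K ∪ K', lt_min h1 h1', ?_, ?_⟩
      · intro g hg
        rcases Finset.mem_union.1 hg with h | h
        · exact h2 g h
        · exact h2' g h
      · intro x hx y hy hxy
        rw [Finset.mem_union, not_or] at hx hy
        rcases hxy with h | h
        · obtain ⟨g, hg, hg'⟩ := h3 x hx.1 y hy.1 h
          exact ⟨g, Finset.mem_union_left _ hg, (min_le_left _ _).trans_lt hg'⟩
        · obtain ⟨g, hg, hg'⟩ := h3' x hx.2 y hy.2 h
          exact ⟨g, Finset.mem_union_right _ hg, (min_le_right _ _).trans_lt hg'⟩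
    · rintro ⟨z, z'⟩ hzz
      simp only [mem_ofPred_eq] at hzz
      by_cases hz : z ∈ T s.ι
      · by_cases hz' : z' ∈ T s.ι
        · have hne : z ≠ z' := by
            rintro rfl
            rw [dist_self] at hzz
            linarith
          obtain ⟨g, hg, hgne⟩ := s.bdry.fsep z hz z' hz' hne
          have hgc := s.bdry.fcont g hg
          have hpos : 0 < |g z - g z'| := abs_pos.2 (sub_ne_zero.2 hgne)
          have hO : IsOpen {p : s.Z × s.Z | |g z - g z'| / 2 < |g p.1 - g p.2|} :=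
            isOpen_lt continuous_const
              ((hgc.comp continuous_fst).sub (hgc.comp continuous_snd)).abs
          refine ⟨_, mem_nhdsWithin_of_mem_nhds (hO.mem_nhds (half_lt_self hpos)),
            {g}, |g z - g z'| / 2, ∅, half_pos hpos, by simpa using hg, ?_⟩
          intro x _ y _ hxy
          exact ⟨g, by simp, hxy⟩
        · obtain ⟨y0, rfl⟩ : ∃ y0, s.ι y0 = z' := by
            by_contra h
            exact hz' (fun ⟨y, hy⟩ => h ⟨y, hy⟩)
          have hO : IsOpen {p : s.Z × s.Z | p.2 ∈ ({s.ι y0} : Set s.Z)} :=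
            (s.bdry.isol y0).preimage continuous_snd
          refine ⟨_, mem_nhdsWithin_of_mem_nhds (hO.mem_nhds rfl), ∅, 1, {y0}, one_pos,
            by simp, ?_⟩
          intro x _ y hy hxy
          exact absurd (s.bdry.inj hxy) (by simpa using hy)
      · obtain ⟨y0, rfl⟩ : ∃ y0, s.ι y0 = z := by
          by_contra h
          exact hz (fun ⟨y, hy⟩ => h ⟨y, hy⟩)
        have hO : IsOpen {p : s.Z × s.Z | p.1 ∈ ({s.ι y0} : Set s.Z)} :=
          (s.bdry.isol y0).preimage continuous_fst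
        refine ⟨_, mem_nhdsWithin_of_mem_nhds (hO.mem_nhds rfl), ∅, 1, {y0}, one_pos,
          by simp, ?_⟩
        intro x hx y _ hxy
        exact absurd (s.bdry.inj hxy) (by simpa using hx)
  obtain ⟨D, δ, K, h1, h2, h3⟩ := key
  refine ⟨D, δ, K, h1, h2, fun x hx y hy h => ?_⟩
  by_contra hcon
  obtain ⟨g, hg, hg'⟩ := h3 x hx y hy (not_lt.1 hcon)
  exact absurd (h g hg) (not_le.2 hg')

/-- a good level -/
structure Good (s : Sys) (f : s.Z → ℝ) (t : ℝ) : Prop where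
  fin : FinC s.S {x : s.G | f (s.ι x) < t}
  sum : ∀ g ∈ s.𝓕, ∑' e : s.G × s.G, wt s.S {x | f (s.ι x) < t} (fun x => g (s.ι x)) e ≠ ⊤

theorem ae_good (s : Sys) {f : s.Z → ℝ} (hf : f ∈ s.𝓕) : ∀ᵐ t : ℝ, Good s f t := by
  have : Countable s.G := s.countable_G
  have h1 := s.bdry.ffin f hf
  have h2 : ∀ᵐ t : ℝ, ∀ g ∈ s.𝓕,
      ∑' e : s.G × s.G, wt s.S {x | f (s.ι x) < t} (fun x => g (s.ι x)) e ≠ ⊤ := by
    rw [ae_ball_iff s.bdry.ctble]
    intro g hg
    exact coarea (s.bdry.fdir f hf) (s.bdry.fdir g hg)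
  filter_upwards [h1, h2] with t a b
  exact ⟨a, b⟩

theorem FinC.toRep {G : Type} [Group G] {S : Finset G} {A : Set G} (h : FinC S A) :
    Rep (tstep S) (bd S A) := by
  obtain ⟨F, hF, hFA, h⟩ := h
  refine ⟨F, hF, fun p hp => ?_⟩
  obtain ⟨q, hq, hqp⟩ := h p hp
  exact ⟨q, hq, hFA hq, hqp⟩

/-- **refinement lemma** -/
theorem refine_piece (s : Sys) {f : s.Z → ℝ} {t : ℝ} (hg : Good s f t)
    {la lb : Filter s.G} {D : Set (s.G × s.G)}
    (hD : Alm (tstep s.S) (bd s.S {x | f (s.ι x) < t}) D) (hs : Sepd s.S la lb D)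
    {ε : ℝ} (hε : 0 < ε) :
    ∃ D' ⊆ D, Alm (tstep s.S) (bd s.S {x | f (s.ι x) < t}) D' ∧ Sepd s.S la lb D' ∧
      ∀ p ∈ D', ∀ q ∈ D', dist (s.ι p.1) (s.ι q.1) < ε := by
  have : Countable s.G := s.countable_G
  have hS := s.top.toStd
  obtain ⟨Φ, δ, K, hδ, hΦ, hctl⟩ := control s hε
  -- a finite set of edges outside of which the sums are small
  have hev : ∀ᶠ F : Finset (s.G × s.G) in atTop, ∀ g ∈ Φ,
      ∑' e : {e // e ∉ F}, wt s.S {x | f (s.ι x) < t} (fun x => g (s.ι x)) e < ENNReal.ofReal δ := by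
    rw [eventually_all_finset]
    intro g hgΦ
    exact (ENNReal.tendsto_tsum_compl_atTop_zero (hg.sum g (hΦ g hgΦ))).eventually
      (gt_mem_nhds (ENNReal.ofReal_pos.2 hδ))
  obtain ⟨F, hF⟩ := hev.exists
  set F' : Set (s.G × s.G) := ↑F ∪ {e | e.1 ∈ K ∧ Adj s.S e.1 e.2} with hF'
  have hF'fin : F'.Finite := by
    refine F.finite_toSet.union ?_
    refine (K.finite_toSet.biUnion fun x _ => (adj_fin' (S := s.S) x).image
      fun y => (x, y)).subset ?_
    rintro ⟨x, y⟩ ⟨hx, hxy⟩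
    simp only [mem_iUnion]
    exact ⟨x, hx, y, hxy, rfl⟩
  have hD0 := hD.sdiff_finite (fun q => tstep_fin q) hF'fin
  have hs0 : Sepd s.S la lb (D \ F') := hs.of_sdiff Set.sdiff_subset (by
    refine hF'fin.subset ?_
    rintro e ⟨h1, h2⟩
    by_contra h3
    exact h2 ⟨h1, h3⟩)
  obtain ⟨C, hC1, hC2, hC3, hC4⟩ := exists_conn (tstep_symm hS) (Sepd s.S la lb) not_sepd_empty
    (fun X1 X2 h1 h2 hd h => sepd_union h1.1 h2.1 hd h) hD0
    (hD0.rep (tstep_symm hS) (FinC.toRep hg.fin)) hs0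
  refine ⟨C, hC1.trans Set.sdiff_subset, hC2, hC3, fun p hp q hq => ?_⟩
  have hnK : ∀ e ∈ C, e.1 ∉ K := by
    intro e he hK
    exact (hC1 he).2 (Or.inr ⟨hK, (hC2.1 he).1⟩)
  refine hctl _ (hnK p hp) _ (hnK q hq) fun g hgΦ => ?_
  have h1 := osc_le (g := fun x => g (s.ι x)) hC4 hp hq
  have h2 : ∑' e : C, ENNReal.ofReal |g (s.ι (e : s.G × s.G).2) - g (s.ι (e : s.G × s.G).1)| ≤
      ∑' e : {e // e ∉ F}, wt s.S {x | f (s.ι x) < t} (fun x => g (s.ι x)) e := by
    let j : C → {e // e ∉ F} := fun e => ⟨e.1, fun h => (hC1 e.2).2 (Or.inl h)⟩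
    have hj : Function.Injective j := by
      intro a b hab
      have : (j a).1 = (j b).1 := by rw [hab]
      exact Subtype.ext this
    refine le_trans (le_of_eq ?_) (ENNReal.tsum_comp_le_tsum_of_injective hj _)
    refine tsum_congr fun e => ?_
    simp only [j, wt]
    rw [if_pos (hC2.1 e.2)]
  have h3 := (h1.trans h2).trans_lt (hF g hgΦ)
  exact ((ENNReal.ofReal_lt_ofReal_iff hδ).1 h3).le

end Crest.Agent.R224.LT
end
end

-- ▼ part R224/NodeSep
section

set_option autoImplicit false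

noncomputable section

open Set Filter Topology Relation MeasureTheory
open scoped Classical ENNReal

namespace Crest.Agent.R224.LT

/-- vertices near `θ` -/
def Fb (s : Sys) (θ : s.Z) : Filter s.G := comap s.ι (𝓝 θ)

theorem ev_iff {s : Sys} {θ : s.Z} {P : s.G → Prop} :
    (∀ᶠ x in Fb s θ, P x) ↔ ∃ δ > 0, ∀ x, dist (s.ι x) θ < δ → P x := by
  unfold Fb
  rw [eventually_comap, Metric.eventually_nhds_iff]
  constructor
  · rintro ⟨δ, hδ, h⟩
    exact ⟨δ, hδ, fun x hx => h hx x rfl⟩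
  · rintro ⟨δ, hδ, h⟩
    refine ⟨δ, hδ, fun y hy x hxy => h x ?_⟩
    rw [hxy]; exact hy

instance fb_neBot (s : Sys) (θ : s.Z) : (Fb s θ).NeBot := by
  rw [Filter.neBot_iff]
  intro h
  have h0 : ∀ᶠ x in Fb s θ, False := by rw [h]; exact eventually_bot
  obtain ⟨δ, hδ, h1⟩ := ev_iff.1 h0
  obtain ⟨x, hx⟩ := s.exists_near θ hδ
  exact h1 x hx

theorem fb_le {s : Sys} {θ : s.Z} (hθ : θ ∈ T s.ι) : Fb s θ ≤ cofinite := by
  intro A hA
  obtain ⟨δ, hδ, h⟩ := s.exists_ball_notMem hθ (mem_cofinite.1 hA)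
  have : ∀ᶠ x in Fb s θ, x ∈ A := ev_iff.2 ⟨δ, hδ, fun x hx => by
    by_contra h'
    exact h x hx h'⟩
  exact this

/-- the neighbours of the vertices near `θ` are near `θ` -/
theorem ev_adj {s : Sys} {θ : s.Z} (hθ : θ ∈ T s.ι) {P : s.G → Prop}
    (h : ∀ᶠ x in Fb s θ, P x) : ∀ᶠ x in Fb s θ, ∀ y, Adj s.S x y → P y := by
  obtain ⟨δ, hδ, h⟩ := ev_iff.1 h
  obtain ⟨K, hK⟩ := s.near_adj (half_pos hδ)
  obtain ⟨δ', hδ', h'⟩ := s.exists_ball_notMem hθ K.finite_toSet
  refine ev_iff.2 ⟨min δ' (δ / 2), lt_min hδ' (half_pos hδ), fun x hx y hxy => h y ?_⟩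
  have h1 := hK x (fun hxK => h' x (hx.trans_le (min_le_left _ _)) (Finset.mem_coe.2 hxK)) y hxy
  have h2 := hx.trans_le (min_le_right δ' (δ / 2))
  calc dist (s.ι y) θ ≤ dist (s.ι y) (s.ι x) + dist (s.ι x) θ := dist_triangle _ _ _
    _ < δ / 2 + δ / 2 := by linarith
    _ = δ := by ring

theorem ev_lt {s : Sys} {f : s.Z → ℝ} (hf : Continuous f) {θ : s.Z} {t : ℝ} (h : f θ < t) :
    ∀ᶠ x in Fb s θ, f (s.ι x) < t :=
  (tendsto_comap.eventually (hf.continuousAt.eventually (gt_mem_nhds h)))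

theorem ev_gt {s : Sys} {f : s.Z → ℝ} (hf : Continuous f) {θ : s.Z} {t : ℝ} (h : t < f θ) :
    ∀ᶠ x in Fb s θ, t < f (s.ι x) :=
  (tendsto_comap.eventually (hf.continuousAt.eventually (lt_mem_nhds h)))

/-- no wall edges near `θ` if `f θ ≠ t` -/
theorem ev_noWall {s : Sys} {f : s.Z → ℝ} (hf : Continuous f) {θ : s.Z} (hθ : θ ∈ T s.ι) {t : ℝ}
    (h : f θ ≠ t) : ∀ᶠ x in Fb s θ, ∀ y, (x, y) ∉ bd s.S {x | f (s.ι x) < t} := by
  rcases lt_or_gt_of_ne h with h | h
  · filter_upwards [ev_adj hθ (ev_lt hf h)] with x hx y hxy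
    exact hxy.2.2 (hx y hxy.1)
  · filter_upwards [ev_gt hf h] with x hx y hxy
    exact absurd hxy.2.1 (not_lt.2 hx.le)

/-- a cochain is locally constant near a boundary point which is not in the limit set of the
piece -/
theorem ev_const {s : Sys} {θ : s.Z} (hθ : θ ∈ T s.ι) {D : Set (s.G × s.G)} {B : s.G → ZMod 2}
    (hB : Cob s.S B D) (hD : ∀ᶠ x in Fb s θ, ∀ y, (x, y) ∉ D) :
    ∃ c, ∀ᶠ x in Fb s θ, B x = c := by
  have hS := s.top.toStd
  have h1 : ∀ᶠ x in Fb s θ, ∀ y, Adj s.S x y → B x = B y := by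
    have hbad : {x | ∃ y, Adj s.S x y ∧ psi D x y ≠ B x + B y}.Finite := by
      refine (Set.Finite.image Prod.fst hB).subset ?_
      rintro x ⟨y, h1, h2⟩
      exact ⟨(x, y), ⟨h1, h2⟩, rfl⟩
    have h2 : ∀ᶠ x in Fb s θ, x ∉ {x | ∃ y, Adj s.S x y ∧ psi D x y ≠ B x + B y} :=
      fb_le hθ hbad.compl_mem_cofinite
    filter_upwards [h2, hD, ev_adj hθ hD] with x h3 h4 h5 y hxy
    by_contra hne
    apply h3
    refine ⟨y, hxy, ?_⟩
    have : psi D x y = 0 := by
      unfold psi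
      rw [if_neg]
      rintro (h | h)
      · exact h4 y h
      · exact h5 y hxy x h
    rw [this]
    intro h0
    exact hne (CharTwo.add_eq_zero.1 h0.symm)
  obtain ⟨δ, hδ, h⟩ := ev_iff.1 h1
  obtain ⟨Y, hY, hYδ, δ', hδ', hY'⟩ := s.bdry.lc θ hθ δ hδ
  obtain ⟨x0, hx0⟩ := s.exists_near θ hδ'
  refine ⟨B x0, ev_iff.2 ⟨δ', hδ', fun x hx => ?_⟩⟩
  have hp := hY x0 (hY' x0 hx0) x (hY' x hx)
  clear hx
  induction hp with
  | refl => rfl
  | @tail b c _ h2 ih =>
    rw [← ih]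
    exact (h b (hYδ b h2.2.1) c h2.1).symm

/-- limit set of a piece -/
def Lim (s : Sys) (D : Set (s.G × s.G)) : Set s.Z :=
  T s.ι ∩ closure ((fun e : s.G × s.G => s.ι e.1) '' D)

theorem isClosed_lim (s : Sys) (D : Set (s.G × s.G)) : IsClosed (Lim s D) :=
  s.isClosed_T.inter isClosed_closure

theorem ev_of_notMem_lim {s : Sys} {D : Set (s.G × s.G)} {θ : s.Z} (hθ : θ ∈ T s.ι)
    (h : θ ∉ Lim s D) : ∀ᶠ x in Fb s θ, ∀ y, (x, y) ∉ D := by
  have h1 : θ ∉ closure ((fun e : s.G × s.G => s.ι e.1) '' D) := fun h' => h ⟨hθ, h'⟩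
  rw [Metric.mem_closure_iff] at h1
  push Not at h1
  obtain ⟨δ, hδ, h2⟩ := h1
  refine ev_iff.2 ⟨δ, hδ, fun x hx y hxy => ?_⟩
  have := h2 (s.ι x) ⟨(x, y), hxy, rfl⟩
  rw [dist_comm] at this
  linarith

theorem lim_level {s : Sys} {f : s.Z → ℝ} (hf : Continuous f) {t : ℝ} {D : Set (s.G × s.G)}
    (hD : D ⊆ bd s.S {x | f (s.ι x) < t}) {θ : s.Z} (hθ : θ ∈ Lim s D) : f θ = t := by
  by_contra hne
  obtain ⟨δ, hδ, h⟩ := ev_iff.1 (ev_noWall hf hθ.1 hne)
  obtain ⟨_, ⟨e, he, rfl⟩, hd⟩ := Metric.mem_closure_iff.1 hθ.2 δ hδ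
  rw [dist_comm] at hd
  exact h e.1 hd e.2 (hD he)

theorem lim_diam {s : Sys} {D : Set (s.G × s.G)} {ε : ℝ}
    (h : ∀ p ∈ D, ∀ q ∈ D, dist (s.ι p.1) (s.ι q.1) < ε) {z z' : s.Z} (hz : z ∈ Lim s D)
    (hz' : z' ∈ Lim s D) : dist z z' ≤ ε := by
  apply le_of_forall_pos_le_add
  intro η hη
  obtain ⟨_, ⟨e, he, rfl⟩, hd⟩ := Metric.mem_closure_iff.1 hz.2 (η / 2) (half_pos hη)
  obtain ⟨_, ⟨e', he', rfl⟩, hd'⟩ := Metric.mem_closure_iff.1 hz'.2 (η / 2) (half_pos hη)
  have h1 := h e he e' he'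
  simp only at hd hd'
  calc dist z z' ≤ dist z (s.ι e.1) + dist (s.ι e.1) (s.ι e'.1) + dist (s.ι e'.1) z' :=
        dist_triangle4 _ _ _ _
    _ ≤ ε + η := by rw [dist_comm (s.ι e'.1) z']; linarith

/-- a decreasing sequence of separating pieces of diameter tending to `0` -/
theorem exists_seq (s : Sys) {f : s.Z → ℝ} {t : ℝ} (ht : Good s f t) {la lb : Filter s.G}
    (hA0 : Alm (tstep s.S) (bd s.S {x | f (s.ι x) < t}) (bd s.S {x | f (s.ι x) < t}))
    (hS0 : Sepd s.S la lb (bd s.S {x | f (s.ι x) < t})) :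
    ∃ D : ℕ → Set (s.G × s.G), (∀ n, Alm (tstep s.S) (bd s.S {x | f (s.ι x) < t}) (D n)) ∧
      (∀ n, Sepd s.S la lb (D n)) ∧ Antitone D ∧
      ∀ n : ℕ, ∀ p ∈ D (n + 1), ∀ q ∈ D (n + 1), dist (s.ι p.1) (s.ι q.1) < 1 / ((n : ℝ) + 1) := by
  set W := bd s.S {x | f (s.ι x) < t} with hW
  have step : ∀ (n : ℕ) (D : {D : Set (s.G × s.G) // Alm (tstep s.S) W D ∧ Sepd s.S la lb D}),
      ∃ D' : {D : Set (s.G × s.G) // Alm (tstep s.S) W D ∧ Sepd s.S la lb D}, D'.1 ⊆ D.1 ∧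
        ∀ p ∈ D'.1, ∀ q ∈ D'.1, dist (s.ι p.1) (s.ι q.1) < 1 / ((n : ℝ) + 1) := by
    rintro n ⟨D, hD, hs⟩
    obtain ⟨D', h1, h2, h3, h4⟩ := refine_piece s ht hD hs (ε := 1 / ((n : ℝ) + 1)) (by positivity)
    exact ⟨⟨D', h2, h3⟩, h1, h4⟩
  choose nxt hsub hdiam using step
  let D : ℕ → {D : Set (s.G × s.G) // Alm (tstep s.S) W D ∧ Sepd s.S la lb D} :=
    fun n => Nat.rec ⟨W, hA0, hS0⟩ (fun n D => nxt n D) n
  refine ⟨fun n => (D n).1, fun n => (D n).2.1, fun n => (D n).2.2, ?_, ?_⟩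
  · exact antitone_nat_of_succ_le fun n => hsub n (D n)
  · exact fun n => hdiam n (D n)

/-- the limit points of the sequence of pieces -/
theorem exists_zeta (s : Sys) {A : Set s.G} {la lb : Filter s.G} {D : ℕ → Set (s.G × s.G)}
    (hD : ∀ n, D n ⊆ bd s.S A) (hs : ∀ n, Sepd s.S la lb (D n)) (hanti : Antitone D) :
    ∃ ζ ∈ T s.ι, ∀ m, ζ ∈ Lim s (D m) := by
  have : Countable s.G := s.countable_G
  obtain ⟨enc, henc⟩ := Countable.exists_injective_nat s.G
  have hex : ∀ n, ∃ e ∈ D n, n < enc e.1 := by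
    intro n
    by_contra hcon
    push Not at hcon
    apply sepd_infinite (hs n)
    have hfin : {x | enc x ≤ n}.Finite :=
      Set.Finite.preimage (henc.injOn) (finite_le_nat n)
    refine (hfin.biUnion fun x _ => (adj_fin' (S := s.S) x).image fun y => (x, y)).subset ?_
    rintro ⟨x, y⟩ hxy
    simp only [mem_iUnion]
    exact ⟨x, hcon _ hxy, y, (hD n hxy).1, rfl⟩
  choose e he hen using hex
  obtain ⟨ζ, hζ, φ, hφ, hlim⟩ := s.subseq_T (fun n => (e n).1) (by
    intro g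
    refine (finite_lt_nat (enc g)).subset ?_
    intro n hn
    have := hen n
    rw [mem_ofPred_eq] at hn
    rwa [hn] at this)
  refine ⟨ζ, hζ, fun m => ⟨hζ, ?_⟩⟩
  refine mem_closure_of_tendsto hlim ?_
  filter_upwards [eventually_ge_atTop m] with n hn
  exact ⟨e (φ n), hanti (hn.trans (hφ.id_le n)) (he (φ n)), rfl⟩

/-- the partition defined by a cochain which is locally constant off `K` -/
theorem partition (s : Sys) {K : Set s.Z} (hKc : IsClosed K) {B : s.G → ZMod 2} {a b : s.Z}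
    (ha : a ∈ T s.ι) (hb : b ∈ T s.ι) (haK : a ∉ K) (hbK : b ∉ K)
    (hloc : ∀ θ ∈ T s.ι, θ ∉ K → ∃ c, ∀ᶠ x in Fb s θ, B x = c) {ca cb : ZMod 2}
    (hca : ∀ᶠ x in Fb s a, B x = ca) (hcb : ∀ᶠ x in Fb s b, B x = cb) (hcc : ca ≠ cb) :
    ∃ U V, RO s.ι U ∧ RO s.ι V ∧ Disjoint U V ∧ U ∪ V = T s.ι \ K ∧ a ∈ V ∧ b ∈ U := by
  have hRO : ∀ P : ZMod 2 → Prop, RO s.ι {θ | θ ∈ T s.ι ∧ θ ∉ K ∧ ∀ᶠ x in Fb s θ, P (B x)} := by
    intro P
    rw [ro_iff]
    refine ⟨fun θ h => h.1, ?_⟩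
    rintro θ ⟨hθ, hθK, hev⟩
    obtain ⟨δ, hδ, h⟩ := ev_iff.1 hev
    obtain ⟨δ', hδ', h'⟩ := Metric.isOpen_iff.1 hKc.isOpen_compl θ hθK
    refine ⟨min δ' (δ / 2), lt_min hδ' (half_pos hδ), fun z hz hd => ⟨hz, ?_, ?_⟩⟩
    · exact h' (hd.trans_le (min_le_left _ _))
    · refine ev_iff.2 ⟨δ / 2, half_pos hδ, fun x hx => h x ?_⟩
      have h2 := hd.trans_le (min_le_right δ' (δ / 2))
      calc dist (s.ι x) θ ≤ dist (s.ι x) z + dist z θ := dist_triangle _ _ _
        _ < δ / 2 + δ / 2 := by linarith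
        _ = δ := by ring
  refine ⟨{θ | θ ∈ T s.ι ∧ θ ∉ K ∧ ∀ᶠ x in Fb s θ, B x ≠ ca},
    {θ | θ ∈ T s.ι ∧ θ ∉ K ∧ ∀ᶠ x in Fb s θ, B x = ca}, hRO (fun c => c ≠ ca),
    hRO (fun c => c = ca), ?_, ?_, ⟨ha, haK, hca⟩, ⟨hb, hbK, ?_⟩⟩
  · rw [Set.disjoint_left]
    rintro θ ⟨-, -, h1⟩ ⟨-, -, h2⟩
    obtain ⟨x, h3, h4⟩ := (h1.and h2).exists
    exact h3 h4
  · ext θ
    constructor
    · rintro (⟨h1, h2, -⟩ | ⟨h1, h2, -⟩) <;> exact ⟨h1, h2⟩
    · rintro ⟨h1, h2⟩
      obtain ⟨c, hc⟩ := hloc θ h1 h2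
      by_cases h : c = ca
      · right
        refine ⟨h1, h2, ?_⟩
        filter_upwards [hc] with x hx
        rw [hx, h]
      · left
        refine ⟨h1, h2, ?_⟩
        filter_upwards [hc] with x hx
        rwa [hx]
  · filter_upwards [hcb] with x hx
    rw [hx]
    exact hcc.symm

end LT

open Crest.Agent.R224.LT in
theorem pSep (s : Sys) : PSep s := by
  intro f hf
  have hfc := s.bdry.fcont f hf
  filter_upwards [ae_good s hf] with t ht
  intro a ha b hb hat htb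
  set la := Fb s a
  set lb := Fb s b
  have hS0 : Sepd s.S la lb (bd s.S {x | f (s.ι x) < t}) :=
    sepd_bd s.top (fb_le ha) (fb_le hb) (ev_lt hfc hat) (by
      filter_upwards [ev_gt hfc htb] with x hx h
      exact absurd h (not_lt.2 hx.le))
  have hA0 : Alm (tstep s.S) (bd s.S {x | f (s.ι x) < t}) (bd s.S {x | f (s.ι x) < t}) := by
    refine ⟨subset_rfl, ?_⟩
    convert finite_empty
    ext pq
    simp only [mem_ofPred_eq, mem_empty_iff_false, iff_false]
    tauto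
  obtain ⟨D, hDa, hDs, hanti, hdiam⟩ := exists_seq s ht hA0 hS0
  obtain ⟨ζ, hζ, hζm⟩ := exists_zeta s (fun n => (hDa n).1) hDs hanti
  have hlev : ∀ m, ∀ z ∈ Lim s (D m), f z = t := fun m z hz =>
    lim_level hfc (hDa m).1 hz
  refine ⟨ζ, hζ, hlev 0 ζ (hζm 0), fun ε hε => ?_⟩
  obtain ⟨m, hm⟩ := exists_nat_one_div_lt hε
  have hdm := hdiam m
  have hKc : IsClosed (Lim s (D (m + 1))) := isClosed_lim s _
  obtain ⟨B, hB⟩ := exists_cob s.top (hDa (m + 1))
  have hloc : ∀ θ ∈ T s.ι, θ ∉ Lim s (D (m + 1)) → ∃ c, ∀ᶠ x in Fb s θ, B x = c :=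
    fun θ hθ hθK => ev_const hθ hB (ev_of_notMem_lim hθ hθK)
  have haK : a ∉ Lim s (D (m + 1)) := fun h => absurd (hlev _ a h) hat.ne
  have hbK : b ∉ Lim s (D (m + 1)) := fun h => absurd (hlev _ b h) htb.ne'
  obtain ⟨ca, hca⟩ := hloc a ha haK
  obtain ⟨cb, hcb⟩ := hloc b hb hbK
  have hcc : ca ≠ cb := hDs (m + 1) B hB ca cb hca hcb
  exact ⟨Lim s (D (m + 1)), hKc, fun z hz => hz.1, fun z hz => ⟨hlev _ z hz,
    (lim_diam hdm hz (hζm (m + 1))).trans_lt hm⟩,
    partition s hKc ha hb haK hbK hloc hca hcb hcc⟩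

end Crest.Agent.R224
end
end

-- ▼ part R224/Group
section

set_option autoImplicit false

noncomputable section

open MeasureTheory Set Filter Topology

namespace Crest.Agent.R224

/-- all nodes of a system from the two missing ones -/
theorem allNodes (s : Sys) (hB : NThmB s) (hSep : PSep s) : AllNodes s := by
  have hC : PConn s := pConn s
  have hH : PHalf s := pHalf s hC
  have hA : PAlg s := pAlg s
  have hL : PLim s := pLim s
  have hBal : PBal s := pBal s
  have hLF : NLF s := nLF s hB hH hA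
  have hCt : NCtbl s := nCtbl s hLF
  have hO : NOpen s := nOpen s hC hA hL hLF (nC1 s)
  have hN : NNull s := nNull s hA hLF hO (nNullDyn s)
  have hS : NShrink s := nShrink s hC hA hL hO hN
  have hP : NPart s := nPart s hH hA hO hS
  have hR : NRetr s := nRetr s hC hH hA hO hS
  have hBC : NBlkConn s := nBlkConn s hC hH hA hO hS
  have hCf : NCofin s := nCofin s hH hA hLF hO hP
  have hX : NXB s := nXB s hC hA hL hBal hO hN hP
  exact {
    pconn := hC
    phalf := hH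
    palg := hA
    plim := hL
    pbal := hBal
    psep := hSep
    pnull := pNullLev s
    lf := hLF
    ctbl := hCt
    nopen := hO
    nnull := hN
    nblock := nBlock s hC hH hA hO hS
    npart := hP
    nretr := hR
    nbc := hBC
    ncofin := hCf
    nequiv := nEquiv s hA hP
    nspread := nSpread s hA hP hR hBC hCf
    nxb := hX
    norder := nOrder s
    nside := nSide s hP hR hX }

theorem nFinal : NFinal := nFinal_of fun s hP _ _ hS => limitLemma s hP hS

/-- the group half, from the two missing nodes -/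
theorem groupHalf_of' (hB : ∀ s : Sys, NThmB s) (hSep : ∀ s : Sys, PSep s) : GroupHalf :=
  groupHalf_of (BdryN.nBdry (Mono.nMono nDecomp) nMax nComp nCP2) (nHarm nDecomp) nFinal
    fun s => allNodes s (hB s) (hSep s)

theorem nThmB' (s : Sys) : NThmB s := by
  have hC := pConn s
  have hH := pHalf s hC
  have hA := pAlg s
  exact nThmB s hC hH hA nPrinM nCore (nFam s hC hH hA (pLim s) (pBal s) (nTriple s))

/-- **the group half** -/
theorem groupHalf : GroupHalf := groupHalf_of' nThmB' pSep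

end Crest.Agent.R224
end
end

-- ▼ part R224/T/Asm276

set_option autoImplicit false

namespace Crest.Agent.R224.T

theorem nTop_final (hSub : NSub) (hT2 : NT2L) : NTop := by
  have hdd : NDD := fun X _ n c => bd_bd n c
  have hP : NPrism := nPrism
  have hF : NFill := nFill hP
  have hE : NExc := exc_holds hSub
  have hS : NStar := nStar hdd hSub hP
  have hL : NLocAll := nLocAll hP hSub hF
  have hM : NMan := man_holds hE hS hL
  have hC : NClass := nClass hE hL hS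
  have hU : NUniq := nUniq hdd hSub hP hL
  have hUM : NUniqM := nUniqM hE hU
  have hFu : NFund := nFund hdd hSub hM hC hUM
  exact nTop_of hF hM (nLift hFu hE) hT2

end Crest.Agent.R224.T
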