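import Crest.Agent.R224.T.Iface

-- ▼ part R224/T/T2Base
section

set_option autoImplicit false
set_option maxHeartbeats 400000

noncomputable section

open Topology Set Filter

namespace Crest.Agent.R224.T.N2

variable {X : Type} [TopologicalSpace X]

/-- all simplices of `c` satisfy `P` -/
def Sup {n : ℕ} (P : C(Dl n, X) → Prop) (c : Ch n X) : Prop := ∀ σ ∈ c.support, P σ

theorem Sup.zero {n : ℕ} (P : C(Dl n, X) → Prop) : Sup P (0 : Ch n X) := by
  intro σ hσ; simp at hσ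

theorem Sup.add {n : ℕ} {P : C(Dl n, X) → Prop} {c c' : Ch n X} (h : Sup P c) (h' : Sup P c') :
    Sup P (c + c') := by
  classical
  intro σ hσ
  rcases Finset.mem_union.mp (Finsupp.support_add hσ) with h1 | h1
  · exact h σ h1
  · exact h' σ h1

theorem Sup.sum {n : ℕ} {P : C(Dl n, X) → Prop} {ι : Type*} (s : Finset ι) (c : ι → Ch n X)
    (h : ∀ i ∈ s, Sup P (c i)) : Sup P (∑ i ∈ s, c i) := by
  classical
  induction s using Finset.induction_on with
  | empty => simpa using Sup.zero P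
  | insert i s hi ih =>
    rw [Finset.sum_insert hi]
    exact Sup.add (h i (Finset.mem_insert_self _ _))
      (ih fun j hj => h j (Finset.mem_insert_of_mem hj))

theorem Sup.smul {n : ℕ} {P : C(Dl n, X) → Prop} {c : Ch n X} (r : ZMod 2) (h : Sup P c) :
    Sup P (r • c) := fun σ hσ => h σ (Finsupp.support_smul hσ)

theorem Sup.single {n : ℕ} {P : C(Dl n, X) → Prop} {σ : C(Dl n, X)} (h : P σ) (r : ZMod 2) :
    Sup P (Finsupp.single σ r : Ch n X) := by
  classical
  intro τ hτ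
  have := Finsupp.support_single_subset hτ
  rw [Finset.mem_singleton] at this
  rw [this]; exact h

theorem Sup.mono {n : ℕ} {P Q : C(Dl n, X) → Prop} {c : Ch n X} (h : Sup P c)
    (hPQ : ∀ σ, P σ → Q σ) : Sup Q c := fun σ hσ => hPQ σ (h σ hσ)


theorem two_self {M : Type*} [AddCommGroup M] [Module (ZMod 2) M] (m : M) : m + m = 0 := by
  have : (2 : ZMod 2) • m = 0 := by
    rw [show (2 : ZMod 2) = 0 from rfl, zero_smul]
  rw [two_smul] at this
  exact this


/-- linear extension -/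
abbrev lin {n : ℕ} {M : Type*} [AddCommGroup M] [Module (ZMod 2) M] (f : C(Dl n, X) → M) :
    Ch n X →ₗ[ZMod 2] M := Finsupp.linearCombination (ZMod 2) f

@[simp] theorem lin_single {n : ℕ} {M : Type*} [AddCommGroup M] [Module (ZMod 2) M]
    (f : C(Dl n, X) → M) (σ : C(Dl n, X)) : lin f (Finsupp.single σ 1) = f σ := by
  simp [lin]

theorem lin_eq_sum {n : ℕ} {M : Type*} [AddCommGroup M] [Module (ZMod 2) M]
    (f : C(Dl n, X) → M) (c : Ch n X) : lin f c = ∑ σ ∈ c.support, c σ • f σ := rfl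

theorem Sup.lin {n m : ℕ} {P : C(Dl m, X) → Prop} (f : C(Dl n, X) → Ch m X) {c : Ch n X}
    (h : ∀ σ ∈ c.support, Sup P (f σ)) : Sup P (N2.lin f c) := by
  rw [lin_eq_sum]
  exact Sup.sum _ _ fun σ hσ => Sup.smul _ (h σ hσ)

theorem lin_congr {n : ℕ} {M : Type*} [AddCommGroup M] [Module (ZMod 2) M]
    (f g : C(Dl n, X) → M) (c : Ch n X) (h : ∀ σ ∈ c.support, f σ = g σ) : lin f c = lin g c := by
  rw [lin_eq_sum, lin_eq_sum]
  exact Finset.sum_congr rfl fun σ hσ => by rw [h σ hσ]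

theorem lin_ext_apply {n : ℕ} {M : Type*} [AddCommGroup M] [Module (ZMod 2) M]
    {f g : Ch n X →ₗ[ZMod 2] M} (h : ∀ σ, f (Finsupp.single σ 1) = g (Finsupp.single σ 1))
    (c : Ch n X) : f c = g c := by
  have : f = g := by
    apply Finsupp.lhom_ext'
    intro l
    apply LinearMap.ext_ring
    simpa using h l
  rw [this]


theorem lin_add {n : ℕ} {M : Type*} [AddCommGroup M] [Module (ZMod 2) M]
    (f g : C(Dl n, X) → M) (c : Ch n X) : lin f c + lin g c = lin (fun σ => f σ + g σ) c := by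
  rw [lin_eq_sum, lin_eq_sum, lin_eq_sum, ← Finset.sum_add_distrib]
  exact Finset.sum_congr rfl fun σ _ => by rw [smul_add]

/-- face operator with weights -/
def fac (n : ℕ) (w : C(Dl (n + 1), X) → Fin (n + 2) → ZMod 2) : Ch (n + 1) X →ₗ[ZMod 2] Ch n X :=
  lin fun σ => ∑ i : Fin (n + 2), w σ i • Finsupp.single (σ.comp (face n i)) (1 : ZMod 2)

@[simp] theorem fac_single (n : ℕ) (w : C(Dl (n + 1), X) → Fin (n + 2) → ZMod 2)
    (σ : C(Dl (n + 1), X)) : fac n w (Finsupp.single σ 1) =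
    ∑ i : Fin (n + 2), w σ i • Finsupp.single (σ.comp (face n i)) (1 : ZMod 2) := lin_single _ _

@[simp] theorem bd_single (n : ℕ) (σ : C(Dl (n + 1), X)) : bd n (Finsupp.single σ 1) =
    ∑ i : Fin (n + 2), Finsupp.single (σ.comp (face n i)) (1 : ZMod 2) := lin_single _ _

/-- multiplication by a function of simplices -/
def mul (n : ℕ) (v : C(Dl n, X) → ZMod 2) : Ch n X →ₗ[ZMod 2] Ch n X :=
  lin fun σ => v σ • Finsupp.single σ (1 : ZMod 2)

@[simp] theorem mul_single (n : ℕ) (v : C(Dl n, X) → ZMod 2) (σ : C(Dl n, X)) :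
    mul n v (Finsupp.single σ 1) = v σ • Finsupp.single σ (1 : ZMod 2) := lin_single _ _

theorem Sup.bd {n : ℕ} {P : C(Dl n, X) → Prop} {c : Ch (n + 1) X}
    (h : ∀ σ ∈ c.support, ∀ i, P (σ.comp (face n i))) : Sup P (T.bd n c) := by
  refine Sup.lin _ fun σ hσ => ?_
  exact Sup.sum _ _ fun i _ => Sup.single (h σ hσ i) _

theorem Sup.fac {n : ℕ} {P : C(Dl n, X) → Prop} {w : C(Dl (n + 1), X) → Fin (n + 2) → ZMod 2}
    {c : Ch (n + 1) X}
    (h : ∀ σ ∈ c.support, ∀ i, w σ i ≠ 0 → P (σ.comp (face n i))) : Sup P (N2.fac n w c) := by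
  refine Sup.lin _ fun σ hσ => ?_
  refine Sup.sum _ _ fun i _ => ?_
  by_cases h0 : w σ i = 0
  · rw [h0, zero_smul]; exact Sup.zero _
  · exact Sup.smul _ (Sup.single (h σ hσ i h0) _)

theorem Sup.mul {n : ℕ} {P : C(Dl n, X) → Prop} {v : C(Dl n, X) → ZMod 2} {c : Ch n X}
    (h : ∀ σ ∈ c.support, v σ ≠ 0 → P σ) : Sup P (N2.mul n v c) := by
  refine Sup.lin _ fun σ hσ => ?_
  by_cases h0 : v σ = 0
  · rw [h0, zero_smul]; exact Sup.zero _
  · exact Sup.smul _ (Sup.single (h σ hσ h0) _)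

theorem range_face {n : ℕ} (σ : C(Dl (n + 1), X)) (i : Fin (n + 2)) :
    range (σ.comp (face n i)) ⊆ range σ := by
  rintro _ ⟨x, rfl⟩
  exact ⟨_, rfl⟩

theorem face_face {n : ℕ} (i : Fin (n + 3)) (j : Fin (n + 2)) :
    (face (n + 1) (i.succAbove j)).comp (face n (j.predAbove i)) =
      (face (n + 1) i).comp (face n j) := by
  ext1 x
  show stdSimplex.map (i.succAbove j).succAbove (stdSimplex.map (j.predAbove i).succAbove x) =
    stdSimplex.map i.succAbove (stdSimplex.map j.succAbove x)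
  rw [stdSimplex.map_comp_apply, stdSimplex.map_comp_apply]
  congr 1
  funext k
  exact Fin.succAbove_succAbove_succAbove_predAbove i j k

theorem bd_bd (n : ℕ) (c : Ch (n + 2) X) : bd n (bd (n + 1) c) = 0 := by
  have h : ∀ σ : C(Dl (n + 2), X), (bd n ∘ₗ bd (n + 1)) (Finsupp.single σ 1) =
      (0 : Ch (n + 2) X →ₗ[ZMod 2] Ch n X) (Finsupp.single σ 1) := by
    intro σ
    rw [LinearMap.comp_apply, bd_single, map_sum, LinearMap.zero_apply]
    simp only [bd_single]
    rw [← Finset.sum_product']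
    refine Finset.sum_involution (fun p _ => (p.1.succAbove p.2, p.2.predAbove p.1)) ?_ ?_ ?_ ?_
    · rintro ⟨i, j⟩ _
      have : ((σ.comp (face (n + 1) (i.succAbove j))).comp (face n (j.predAbove i))) =
          (σ.comp (face (n + 1) i)).comp (face n j) := by
        rw [ContinuousMap.comp_assoc, face_face, ContinuousMap.comp_assoc]
      simp only
      rw [this]
      exact two_self _
    · rintro ⟨i, j⟩ _ _ h
      simp only [Prod.mk.injEq] at h
      exact Fin.succAbove_ne i j h.1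
    · intro p _; simp
    · rintro ⟨i, j⟩ _
      simp only [Prod.mk.injEq]
      exact ⟨Fin.succAbove_succAbove_predAbove i j, Fin.predAbove_predAbove_succAbove i j⟩
  have := lin_ext_apply h c
  simpa using this

/-! ### In, RC, Nul -/

theorem In.zero' (A : Set X) {n : ℕ} : In A (0 : Ch n X) := Sup.zero _
theorem In.add' {A : Set X} {n : ℕ} {c c' : Ch n X} (h : In A c) (h' : In A c') :
    In A (c + c') := Sup.add h h'
theorem In.mono' {A B : Set X} {n : ℕ} {c : Ch n X} (h : In A c) (hAB : A ⊆ B) : In B c :=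
  fun σ hσ => (h σ hσ).trans hAB
theorem In.bd' {A : Set X} {n : ℕ} {c : Ch (n + 1) X} (h : In A c) : In A (bd n c) :=
  Sup.bd fun σ hσ i => (range_face σ i).trans (h σ hσ)

theorem RC.add' {A : Set X} {n : ℕ} {c c' : Ch (n + 1) X} (h : RC A c) (h' : RC A c') :
    RC A (c + c') := by
  unfold RC; rw [map_add]; exact In.add' h h'

theorem RC.of_in {A : Set X} {n : ℕ} {c : Ch (n + 1) X} (h : In A c) : RC A c := In.bd' h

theorem RC.mono' {A B : Set X} {n : ℕ} {c : Ch (n + 1) X} (h : RC A c) (hAB : A ⊆ B) : RC B c :=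
  In.mono' h hAB

theorem Nul.of_in {A : Set X} {n : ℕ} {c : Ch n X} (h : In A c) : Nul A c :=
  ⟨0, c, h, by simp⟩

theorem Nul.add' {A : Set X} {n : ℕ} {c c' : Ch n X} (h : Nul A c) (h' : Nul A c') :
    Nul A (c + c') := by
  obtain ⟨b, e, he, hc⟩ := h
  obtain ⟨b', e', he', hc'⟩ := h'
  exact ⟨b + b', e + e', In.add' he he', by rw [hc, hc', map_add]; abel⟩

theorem Nul.mono' {A B : Set X} {n : ℕ} {c : Ch n X} (h : Nul A c) (hAB : A ⊆ B) : Nul B c := by
  obtain ⟨b, e, he, hc⟩ := h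
  exact ⟨b, e, In.mono' he hAB, hc⟩


open Classical in
/-- the local degree -/
def D {d : ℕ} (p : X) (w : Ch (d + 1) X) : ZMod 2 := if Nul {p}ᶜ w then 0 else 1

theorem D_eq_zero {d : ℕ} {p : X} {w : Ch (d + 1) X} : D p w = 0 ↔ Nul {p}ᶜ w := by
  unfold D; split_ifs with h <;> simp [h]

theorem D_add {d : ℕ} (hM : ManHyp d X) {p : X} {w w' : Ch (d + 1) X} (h : RC {p}ᶜ w)
    (h' : RC {p}ᶜ w') : D p (w + w') = D p w + D p w' := by
  unfold D
  by_cases h1 : Nul {p}ᶜ w <;> by_cases h2 : Nul {p}ᶜ w'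
  · rw [if_pos h1, if_pos h2, if_pos (Nul.add' h1 h2)]; rfl
  · rw [if_pos h1, if_neg h2, if_neg]
    · rfl
    · intro h3
      apply h2
      have := Nul.add' h1 h3
      rwa [← add_assoc, two_self, zero_add] at this
  · rw [if_neg h1, if_pos h2, if_neg]
    · rfl
    · intro h3
      apply h1
      have := Nul.add' h3 h2
      rwa [add_assoc, two_self, add_zero] at this
  · rw [if_neg h1, if_neg h2, if_pos (hM.two p w w' h h' h1 h2)]; rfl


/-- adding a chain missing `p` does not change the degree -/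
theorem D_congr {d : ℕ} {p : X} {w w' : Ch (d + 1) X} (h : In {p}ᶜ (w + w')) : D p w = D p w' := by
  have h1 : Nul {p}ᶜ w ↔ Nul {p}ᶜ w' := by
    constructor
    · intro h1
      have := Nul.add' h1 (Nul.of_in h)
      rwa [← add_assoc, two_self, zero_add] at this
    · intro h1
      have := Nul.add' (Nul.of_in h) h1
      rwa [add_assoc, two_self, add_zero] at this
  unfold D
  by_cases h2 : Nul {p}ᶜ w
  · rw [if_pos h2, if_pos (h1.1 h2)]
  · rw [if_neg h2, if_neg (fun h3 => h2 (h1.2 h3))]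

theorem D_loc {d : ℕ} (hM : ManHyp d X) {p : X} {w : Ch (d + 1) X} (h : RC {p}ᶜ w) :
    ∀ᶠ q in 𝓝 p, RC {q}ᶜ w ∧ D q w = D p w := by
  filter_upwards [hM.loc w p h] with q hq
  refine ⟨hq.1, ?_⟩
  unfold D
  by_cases h2 : Nul {p}ᶜ w
  · rw [if_pos h2, if_pos (hq.2.2 h2)]
  · rw [if_neg h2, if_neg (fun h3 => h2 (hq.2.1 h3))]

/-! ### supports -/

/-- union of the ranges of the simplices -/
def carr {n : ℕ} (c : Ch n X) : Set X := ⋃ σ ∈ c.support, range (σ : C(Dl n, X))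

theorem isCompact_range_sx {n : ℕ} (σ : C(Dl n, X)) : IsCompact (range σ) :=
  isCompact_range σ.continuous

theorem carr_compact {n : ℕ} (c : Ch n X) : IsCompact (carr c) :=
  c.support.isCompact_biUnion fun σ _ => isCompact_range_sx σ

theorem in_carr {n : ℕ} (c : Ch n X) : In (carr c) c := by
  intro σ hσ
  exact subset_biUnion_of_mem (u := fun σ : C(Dl n, X) => range σ) hσ

theorem in_of_disjoint {n : ℕ} {c : Ch n X} {A : Set X} (h : Disjoint (carr c) A) : In Aᶜ c :=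
  In.mono' (in_carr c) (disjoint_left.1 h)

theorem in_compl_iff {n : ℕ} {c : Ch n X} {p : X} : In {p}ᶜ c ↔ p ∉ carr c := by
  constructor
  · intro h hp
    obtain ⟨σ, hσ, hx⟩ := mem_iUnion₂.1 hp
    exact h σ hσ hx rfl
  · intro h
    exact In.mono' (in_carr c) fun x hx (hxp : x = p) => h (hxp ▸ hx)

theorem eventually_in [T2Space X] {n : ℕ} {c : Ch n X} {p : X} (h : In {p}ᶜ c) :
    ∃ N : Set X, IsOpen N ∧ p ∈ N ∧ In Nᶜ c := by
  refine ⟨(carr c)ᶜ, (carr_compact c).isClosed.isOpen_compl, in_compl_iff.1 h, ?_⟩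
  rw [compl_compl]; exact in_carr c

theorem nonempty_range_sx {n : ℕ} (σ : C(Dl n, X)) : (range σ).Nonempty := by
  have : Nonempty (Dl n) := inferInstance
  exact range_nonempty σ

/-- a chain lying in `A` and in the complement of `A` vanishes -/
theorem eq_zero_of_in {n : ℕ} {c : Ch n X} {A : Set X} (h : In A c) (h' : In Aᶜ c) : c = 0 := by
  rw [← Finsupp.support_eq_empty, Finset.eq_empty_iff_forall_notMem]
  intro σ hσ
  obtain ⟨x, hx⟩ := nonempty_range_sx σ
  exact h' σ hσ hx (h σ hσ hx)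

end Crest.Agent.R224.T.N2
end
end

-- ▼ part R224/T/T2Cut
section

set_option autoImplicit false
set_option maxHeartbeats 400000

noncomputable section

open Topology Set Filter

namespace Crest.Agent.R224.T.N2

section cutc
variable {X : Type} [TopologicalSpace X]

theorem cut_apply {n : ℕ} {m : C(Dl n, X) → ZMod 2} (hm : LF m) {K : Set X} (hK : IsCompact K)
    (σ : C(Dl n, X)) [Decidable (range σ ∩ K).Nonempty] :
    cut m K σ = if (range σ ∩ K).Nonempty then m σ else 0 := by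
  unfold cut
  rw [dif_pos (hm K hK)]
  simp only [Finsupp.onFinset_apply]
  congr

theorem mem_cut {n : ℕ} {m : C(Dl n, X) → ZMod 2} (hm : LF m) {K : Set X} (hK : IsCompact K)
    (σ : C(Dl n, X)) : σ ∈ (cut m K).support ↔ m σ ≠ 0 ∧ (range σ ∩ K).Nonempty := by
  classical
  rw [Finsupp.mem_support_iff, cut_apply hm hK]
  by_cases h : (range σ ∩ K).Nonempty
  · rw [if_pos h]; simp [h]
  · rw [if_neg h]; simp [h]

/-- a simplex of the difference of two cuts misses one of the two sets -/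
theorem cut_add_cut {n : ℕ} {m : C(Dl n, X) → ZMod 2} (hm : LF m) {K K' : Set X}
    (hK : IsCompact K) (hK' : IsCompact K') :
    Sup (fun σ => m σ ≠ 0 ∧ (range σ ⊆ Kᶜ ∨ range σ ⊆ K'ᶜ)) (cut m K + cut m K') := by
  classical
  intro σ hσ
  rw [Finsupp.mem_support_iff, Finsupp.add_apply, cut_apply hm hK, cut_apply hm hK'] at hσ
  by_cases h : (range σ ∩ K).Nonempty <;> by_cases h' : (range σ ∩ K').Nonempty
  · rw [if_pos h, if_pos h'] at hσ
    exact absurd (two_self (m σ)) hσ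
  · rw [if_pos h, if_neg h', add_zero] at hσ
    refine ⟨hσ, Or.inr ?_⟩
    intro x hx hxK
    exact h' ⟨x, hx, hxK⟩
  · rw [if_neg h, if_pos h', zero_add] at hσ
    refine ⟨hσ, Or.inl ?_⟩
    intro x hx hxK
    exact h ⟨x, hx, hxK⟩
  · rw [if_neg h, if_neg h', add_zero] at hσ
    exact absurd rfl hσ

end cutc

/-! ### labels -/

section lab
variable {G : Type} [Group G] {E : Type} [TopologicalSpace E] [MulAction G E]

open Classical in
/-- a label of a simplex -/
def lab (U : Set E) {n : ℕ} (σ : C(Dl n, E)) : G :=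
  if h : ∃ g : G, range σ ⊆ tr g U then h.choose else 1

theorem lab_spec {U : Set E} {n : ℕ} {σ : C(Dl n, E)} (h : ∃ g : G, range σ ⊆ tr g U) :
    range σ ⊆ tr (lab U σ : G) U := by
  unfold lab
  rw [dif_pos h]
  exact h.choose_spec

theorem mem_tr {U : Set E} {g : G} {p : E} : p ∈ tr g U ↔ g⁻¹ • p ∈ U := by
  constructor
  · rintro ⟨u, hu, rfl⟩
    simpa using hu
  · intro h
    exact ⟨g⁻¹ • p, h, by simp⟩

theorem adj_of_mem {S : Finset G} {U : Set E} (hG : Geo S U) {x y : G} {p : E}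
    (hx : p ∈ tr x U) (hy : p ∈ tr y U) : Adj S x y := by
  unfold Adj
  rw [hG.mem]
  obtain ⟨u, hu, rfl⟩ := hx
  obtain ⟨v, hv, hvu⟩ := hy
  refine ⟨v, hv, ?_⟩
  have hvu' : y • v = x • u := hvu
  rw [mul_smul, hvu', inv_smul_smul]
  exact hu

theorem exists_of_adj {S : Finset G} {U : Set E} (hG : Geo S U) {x y : G} (h : Adj S x y) :
    ∃ p : E, p ∈ tr x U ∧ p ∈ tr y U := by
  unfold Adj at h
  rw [hG.mem] at h
  obtain ⟨u, hu, h2⟩ := h
  refine ⟨y • u, ⟨(x⁻¹ * y) • u, h2, ?_⟩, ⟨u, hu, rfl⟩⟩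
  show x • (x⁻¹ * y) • u = y • u
  rw [smul_smul, mul_inv_cancel_left]

theorem tr_mono {U V : Set E} (h : U ⊆ V) (g : G) : tr g U ⊆ tr g V := image_mono h

theorem tr_compact {S : Finset G} {U : Set E} (hG : Geo S U) (g : G) :
    IsCompact (tr g (closure U)) := hG.cpt.image (hG.cont g)

theorem tr_open {S : Finset G} {U : Set E} (hG : Geo S U) (g : G) : IsOpen (tr g U) := by
  have : tr g U = (fun z => g⁻¹ • z) ⁻¹' U := by
    ext p; exact mem_tr
  rw [this]
  exact hG.isOpen.preimage (hG.cont g⁻¹)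

theorem tr_preconn {S : Finset G} {U : Set E} (hG : Geo S U) (g : G) : IsPreconnected (tr g U) :=
  hG.conn.isPreconnected.image _ (hG.cont g).continuousOn

end lab

end Crest.Agent.R224.T.N2
end
end

-- ▼ part R224/T/T2Main
section

set_option autoImplicit false
set_option maxHeartbeats 400000
set_option linter.unusedSectionVars false

noncomputable section

open Topology Set Filter

namespace Crest.Agent.R224.T.N2

variable {G : Type} [Group G] {E : Type} [TopologicalSpace E] [MulAction G E]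

/-- `Psi` : chains to faces, weights `ψ (lab σ) (lab d_i σ)` -/
def Psi (U : Set E) (ψ : G → G → ZMod 2) (n : ℕ) : Ch (n + 1) E →ₗ[ZMod 2] Ch n E :=
  fac n fun σ i => ψ (lab U σ) (lab U (σ.comp (face n i)))

/-- `Phi` : chains to faces, weights `ψ (lab d_i σ) (lab σ)` -/
def Phi (U : Set E) (ψ : G → G → ZMod 2) (n : ℕ) : Ch (n + 1) E →ₗ[ZMod 2] Ch n E :=
  fac n fun σ i => ψ (lab U (σ.comp (face n i))) (lab U σ)

/-- multiplication by `ψ (a, lab σ)` -/
def Tm (U : Set E) (ψ : G → G → ZMod 2) (a : G) (n : ℕ) : Ch n E →ₗ[ZMod 2] Ch n E :=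
  mul n fun σ => ψ a (lab U σ)

/-- bad triples -/
def Badt (S : Finset G) (ψ : G → G → ZMod 2) : Set (G × G × G) :=
  {p : G × G × G | Adj S p.1 p.2.1 ∧ Adj S p.2.1 p.2.2 ∧ Adj S p.1 p.2.2 ∧
      ψ p.1 p.2.1 + ψ p.2.1 p.2.2 ≠ ψ p.1 p.2.2}

/-- first vertices of bad triples -/
def BadV (S : Finset G) (ψ : G → G → ZMod 2) : Set G := (fun p : G × G × G => p.1) '' Badt S ψ

theorem good {S : Finset G} {ψ : G → G → ZMod 2} {x y z : G} (hx : x ∉ BadV S ψ)
    (h1 : Adj S x y) (h2 : Adj S y z) (h3 : Adj S x z) : ψ x y + ψ y z = ψ x z := by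
  by_contra h
  exact hx ⟨(x, y, z), ⟨h1, h2, h3, h⟩, rfl⟩

/-- a labelled simplex -/
def Lb (G : Type) [Group G] {E : Type} [TopologicalSpace E] [MulAction G E] (U : Set E)
    {n : ℕ} (σ : C(Dl n, E)) : Prop := ∃ g : G, range σ ⊆ tr g U

theorem Lb.face {U : Set E} {n : ℕ} {σ : C(Dl (n + 1), E)} (h : Lb G U σ) (i : Fin (n + 2)) :
    Lb G U (σ.comp (face n i)) := by
  obtain ⟨g, hg⟩ := h
  exact ⟨g, (range_face σ i).trans hg⟩

/-- adjacency of labels of simplices with a common point -/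
theorem adj_lab {S : Finset G} {U : Set E} (hG : Geo S U) {n m : ℕ} {σ : C(Dl n, E)}
    {τ : C(Dl m, E)} (hσ : Lb G U σ) (hτ : Lb G U τ) {p : E} (h1 : p ∈ range σ)
    (h2 : p ∈ range τ) : Adj S (lab U σ : G) (lab U τ) :=
  adj_of_mem hG (lab_spec hσ h1) (lab_spec hτ h2)

/-- the defect vanishes on good simplices -/
theorem defect_single {S : Finset G} {U : Set E} (hG : Geo S U) (ψ : G → G → ZMod 2) {n : ℕ}
    {σ : C(Dl (n + 2), E)} (hσ : Lb G U σ) (hg : (lab U σ : G) ∉ BadV S ψ) :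
    bd n (Psi U ψ (n + 1) (Finsupp.single σ 1)) + Phi U ψ n (bd (n + 1) (Finsupp.single σ 1)) = 0 := by
  have key : Tm U ψ (lab U σ) n (bd n (bd (n + 1) (Finsupp.single σ 1))) = 0 := by
    rw [bd_bd, map_zero]
  rw [← key]
  unfold Psi Phi Tm
  rw [fac_single, bd_single, map_sum, map_sum, map_sum, map_sum, ← Finset.sum_add_distrib]
  refine Finset.sum_congr rfl fun i _ => ?_
  rw [map_smul, bd_single, fac_single, map_sum, Finset.smul_sum, ← Finset.sum_add_distrib]
  refine Finset.sum_congr rfl fun j _ => ?_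
  rw [mul_single, ← add_smul]
  congr 1
  set τ := σ.comp (face (n + 1) i) with hτ
  set ρ := τ.comp (face n j) with hρ
  obtain ⟨p, hp⟩ := nonempty_range_sx ρ
  have hpτ : p ∈ range τ := range_face τ j hp
  have hpσ : p ∈ range σ := range_face σ i hpτ
  have lτ : Lb G U τ := hσ.face i
  have lρ : Lb G U ρ := lτ.face j
  have h := good (ψ := ψ) hg (adj_lab hG hσ lρ hpσ hp) (adj_lab hG lρ lτ hp hpτ)
    (adj_lab hG hσ lτ hpσ hpτ)
  rw [← h, add_assoc, two_self, add_zero]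

theorem defect_zero {S : Finset G} {U : Set E} (hG : Geo S U) (ψ : G → G → ZMod 2) {n : ℕ}
    (c : Ch (n + 2) E) (hc : Sup (fun σ => Lb G U σ ∧ (lab U σ : G) ∉ BadV S ψ) c) :
    bd n (Psi U ψ (n + 1) c) + Phi U ψ n (bd (n + 1) c) = 0 := by
  have h : ∀ c : Ch (n + 2) E, bd n (Psi U ψ (n + 1) c) + Phi U ψ n (bd (n + 1) c) =
      lin (fun σ => bd n (Psi U ψ (n + 1) (Finsupp.single σ 1)) +
        Phi U ψ n (bd (n + 1) (Finsupp.single σ 1))) c := by
    intro c
    have := lin_ext_apply (f := (bd n ∘ₗ Psi U ψ (n + 1)) + (Phi U ψ n ∘ₗ bd (n + 1)))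
      (g := lin (fun σ => bd n (Psi U ψ (n + 1) (Finsupp.single σ 1)) +
        Phi U ψ n (bd (n + 1) (Finsupp.single σ 1)))) (fun σ => by
          rw [lin_single]; rfl) c
    exact this
  rw [h, lin_congr _ (fun _ => 0) c (fun σ hσ => defect_single hG ψ (hc σ hσ).1 (hc σ hσ).2)]
  rw [lin_eq_sum]; simp

theorem Psi_in {U : Set E} (ψ : G → G → ZMod 2) {n : ℕ} {c : Ch (n + 1) E} {A : Set E}
    (h : In A c) : In A (Psi U ψ n c) :=
  Sup.fac fun σ hσ i _ => (range_face σ i).trans (h σ hσ)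

theorem Phi_in {U : Set E} (ψ : G → G → ZMod 2) {n : ℕ} {c : Ch (n + 1) E} {A : Set E}
    (h : In A c) : In A (Phi U ψ n c) :=
  Sup.fac fun σ hσ i _ => (range_face σ i).trans (h σ hσ)

theorem Tm_in {U : Set E} (ψ : G → G → ZMod 2) (a : G) {n : ℕ} {c : Ch n E} {A : Set E}
    (h : In A c) : In A (Tm U ψ a n c) :=
  Sup.mul fun σ hσ _ => h σ hσ

/-- all the data of the node -/
structure Dat (k : ℕ) (S : Finset G) (U : Set E) (μ : C(Dl (k + 3), E) → ZMod 2)
    (ψ : G → G → ZMod 2) : Prop where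
  geo : Geo S U
  man : ManHyp (k + 2) E
  fund : IsFund μ
  sm : ∀ σ, μ σ ≠ 0 → ∃ g : G, range σ ⊆ tr g U
  fin : (Badt S ψ).Finite

namespace Dat

variable {k : ℕ} {S : Finset G} {U : Set E} {μ : C(Dl (k + 3), E) → ZMod 2} {ψ : G → G → ZMod 2}

/-- compact set containing all bad translates -/
def K0 (S : Finset G) (U : Set E) (ψ : G → G → ZMod 2) : Set E := ⋃ g ∈ BadV S ψ, tr g (closure U)

theorem finV (h : Dat k S U μ ψ) : (BadV S ψ).Finite := h.fin.image _

theorem K0_compact (h : Dat k S U μ ψ) : IsCompact (K0 S U ψ) :=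
  h.finV.isCompact_biUnion fun g _ => tr_compact h.geo g

theorem lf (h : Dat k S U μ ψ) : LF μ := h.fund.lf

theorem not_bad (h : Dat k S U μ ψ) {σ : C(Dl (k + 3), E)} (hσ : μ σ ≠ 0)
    (hr : range σ ⊆ (K0 S U ψ)ᶜ) : Lb G U σ ∧ (lab U σ : G) ∉ BadV S ψ := by
  refine ⟨h.sm σ hσ, fun hb => ?_⟩
  obtain ⟨p, hp⟩ := nonempty_range_sx σ
  refine hr hp (mem_iUnion₂.2 ⟨lab U σ, hb, ?_⟩)
  exact tr_mono subset_closure _ (lab_spec (h.sm σ hσ) hp)

/-- the finite cycle `z` -/
def zz (S : Finset G) (U : Set E) (μ : C(Dl (k + 3), E) → ZMod 2) (ψ : G → G → ZMod 2) :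
    Ch (k + 1) E :=
  bd (k + 1) (Psi U ψ (k + 2) (cut μ (K0 S U ψ))) +
    Phi U ψ (k + 1) (bd (k + 2) (cut μ (K0 S U ψ)))

theorem zz_eq (h : Dat k S U μ ψ) {K : Set E} (hK : IsCompact K) (hKK : K0 S U ψ ⊆ K) :
    bd (k + 1) (Psi U ψ (k + 2) (cut μ K)) + Phi U ψ (k + 1) (bd (k + 2) (cut μ K)) =
      zz S U μ ψ := by
  have h1 := defect_zero h.geo ψ (n := k + 1) (cut μ K + cut μ (K0 S U ψ)) (by
    refine (cut_add_cut h.lf hK h.K0_compact).mono fun σ hσ => h.not_bad hσ.1 ?_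
    rcases hσ.2 with h2 | h2
    · exact h2.trans (compl_subset_compl.2 hKK)
    · exact h2)
  simp only [map_add] at h1
  unfold zz
  have h2 : ∀ a b c d : Ch (k + 1) E, a + b + (c + d) = 0 → a + c = b + d := by
    intro a b c d h
    have : a + c = b + d + (a + b + (c + d)) := by
      have e : b + d + (a + b + (c + d)) = (b + b) + (d + d) + (a + c) := by abel
      rw [e, two_self, two_self, zero_add, zero_add]
    rw [this, h, add_zero]
  exact h2 _ _ _ _ h1

theorem zz_cycle (h : Dat k S U μ ψ) : bd k (zz S U μ ψ) = 0 := by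
  set K : Set E := K0 S U ψ ∪ carr (zz S U μ ψ) with hKdef
  have hK : IsCompact K := h.K0_compact.union (carr_compact _)
  have h1 := h.zz_eq hK subset_union_left
  have h2 : bd k (zz S U μ ψ) = bd k (Phi U ψ (k + 1) (bd (k + 2) (cut μ K))) := by
    rw [← h1, map_add, bd_bd, zero_add]
  have h3 : In Kᶜ (bd k (zz S U μ ψ)) := by
    rw [h2]
    exact In.bd' (Phi_in ψ (h.fund.cyc K hK))
  have h4 : In K (bd k (zz S U μ ψ)) := In.bd' (In.mono' (in_carr _) subset_union_right)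
  exact eq_zero_of_in h4 h3

theorem exists_b (h : Dat k S U μ ψ) : ∃ b : Ch (k + 2) E, bd (k + 1) b = zz S U μ ψ :=
  h.man.fill k _ h.zz_cycle

/-- the finite part of the locally finite cycle -/
def xx (U : Set E) (μ : C(Dl (k + 3), E) → ZMod 2) (ψ : G → G → ZMod 2) (b : Ch (k + 2) E)
    (K : Set E) : Ch (k + 2) E := Psi U ψ (k + 2) (cut μ K) + b

theorem xx_rc (h : Dat k S U μ ψ) {b : Ch (k + 2) E} (hb : bd (k + 1) b = zz S U μ ψ) {K : Set E}
    (hK : IsCompact K) (hKK : K0 S U ψ ⊆ K) : RC Kᶜ (xx U μ ψ b K) := by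
  unfold RC xx
  rw [map_add, hb, ← h.zz_eq hK hKK, ← add_assoc, two_self, zero_add]
  exact Phi_in ψ (h.fund.cyc K hK)

/-- `w` is a primitive of the cycle on `N` -/
structure Prim (S : Finset G) (U : Set E) (μ : C(Dl (k + 3), E) → ZMod 2) (ψ : G → G → ZMod 2)
    (b : Ch (k + 2) E) (N : Set E) (w : Ch (k + 3) E) : Prop where
  cpt : ∃ C : Set E, IsCompact C ∧ N ⊆ C
  prim : ∀ K : Set E, IsCompact K → K0 S U ψ ⊆ K → N ⊆ K → In Nᶜ (xx U μ ψ b K + bd (k + 2) w)

/-- difference of two `xx` -/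
theorem xx_diff (h : Dat k S U μ ψ) (b : Ch (k + 2) E) {K K' N : Set E} (hK : IsCompact K)
    (hK' : IsCompact K') (hN : N ⊆ K) (hN' : N ⊆ K') :
    In Nᶜ (xx U μ ψ b K + xx U μ ψ b K') := by
  have e : xx U μ ψ b K + xx U μ ψ b K' = Psi U ψ (k + 2) (cut μ K + cut μ K') := by
    unfold xx
    rw [map_add]
    have : ∀ a c : Ch (k + 2) E, a + b + (c + b) = a + c := by
      intro a c
      have : a + b + (c + b) = (b + b) + (a + c) := by abel
      rw [this, two_self, zero_add]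
    exact this _ _
  rw [e]
  refine Psi_in ψ ?_
  intro σ hσ
  rcases (cut_add_cut h.lf hK hK' σ hσ).2 with h2 | h2
  · exact h2.trans (compl_subset_compl.2 hN)
  · exact h2.trans (compl_subset_compl.2 hN')

/-- local primitives exist -/
theorem exists_prim [T2Space E] [LocallyCompactSpace E] (h : Dat k S U μ ψ) {b : Ch (k + 2) E}
    (hb : bd (k + 1) b = zz S U μ ψ) (p : E) :
    ∃ (N : Set E) (w : Ch (k + 3) E), IsOpen N ∧ p ∈ N ∧ Prim S U μ ψ b N w := by
  obtain ⟨C, hC, hCp⟩ := exists_compact_mem_nhds p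
  set K : Set E := K0 S U ψ ∪ C with hKdef
  have hK : IsCompact K := h.K0_compact.union hC
  have h1 := h.xx_rc hb hK subset_union_left
  have hpK : p ∈ K := Or.inr (mem_of_mem_nhds hCp)
  have h2 : RC {p}ᶜ (xx U μ ψ b K) :=
    RC.mono' h1 (by rintro x hx rfl; exact hx hpK)
  obtain ⟨w, e, he, hxe⟩ := h.man.low (k + 1) (by omega) p _ h2
  obtain ⟨N1, hN1, hpN1, heN1⟩ := eventually_in he
  refine ⟨interior C ∩ N1, w, isOpen_interior.inter hN1,
    ⟨mem_interior_iff_mem_nhds.2 hCp, hpN1⟩, ⟨⟨C, hC, inter_subset_left.trans interior_subset⟩, ?_⟩⟩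
  intro K' hK' hKK' hN
  have h3 : xx U μ ψ b K + bd (k + 2) w = e := by
    rw [hxe, add_comm (bd (k + 2) w) e, add_assoc, two_self, add_zero]
  have h4 : xx U μ ψ b K' + bd (k + 2) w =
      (xx U μ ψ b K' + xx U μ ψ b K) + (xx U μ ψ b K + bd (k + 2) w) := by
    have : (xx U μ ψ b K' + xx U μ ψ b K) + (xx U μ ψ b K + bd (k + 2) w) =
      (xx U μ ψ b K + xx U μ ψ b K) + (xx U μ ψ b K' + bd (k + 2) w) := by abel
    rw [this, two_self, zero_add]
  rw [h4, h3]
  refine In.add' (h.xx_diff b hK' hK hN ?_) (In.mono' heN1 ?_)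
  · exact (inter_subset_left.trans interior_subset).trans subset_union_right
  · exact compl_subset_compl.2 inter_subset_right

theorem Prim.rc (h : Dat k S U μ ψ) {b : Ch (k + 2) E} {N N' : Set E} {w w' : Ch (k + 3) E}
    (hN : Prim S U μ ψ b N w) (hN' : Prim S U μ ψ b N' w') {q : E} (hq : q ∈ N) (hq' : q ∈ N') :
    RC {q}ᶜ (w + w') := by
  obtain ⟨C, hC, hNC⟩ := hN.cpt
  obtain ⟨C', hC', hNC'⟩ := hN'.cpt
  set K : Set E := K0 S U ψ ∪ (C ∪ C') with hKdef
  have hK : IsCompact K := h.K0_compact.union (hC.union hC')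
  have h1 := hN.prim K hK subset_union_left
    (hNC.trans (subset_union_left.trans subset_union_right))
  have h2 := hN'.prim K hK subset_union_left
    (hNC'.trans (subset_union_right.trans subset_union_right))
  unfold RC
  have e : bd (k + 2) (w + w') =
      (xx U μ ψ b K + bd (k + 2) w) + (xx U μ ψ b K + bd (k + 2) w') := by
    rw [map_add]
    have : (xx U μ ψ b K + bd (k + 2) w) + (xx U μ ψ b K + bd (k + 2) w') =
      (xx U μ ψ b K + xx U μ ψ b K) + (bd (k + 2) w + bd (k + 2) w') := by abel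
    rw [this, two_self, zero_add]
  rw [e]
  refine In.add' (In.mono' h1 ?_) (In.mono' h2 ?_)
  · rintro x hx rfl; exact hx hq
  · rintro x hx rfl; exact hx hq'

/-- the explicit primitive near `tr a U` for a good `a` -/
def wa (U : Set E) (μ : C(Dl (k + 3), E) → ZMod 2) (ψ : G → G → ZMod 2) (a : G) : Ch (k + 3) E :=
  Tm U ψ a (k + 3) (cut μ (tr a (closure U)))

theorem wa_prim (h : Dat k S U μ ψ) {b : Ch (k + 2) E} {a : G} (ha : a ∉ BadV S ψ)
    (hab : In (tr a U)ᶜ b) : Prim S U μ ψ b (tr a U) (wa U μ ψ a) := by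
  refine ⟨⟨tr a (closure U), tr_compact h.geo a, tr_mono subset_closure a⟩, ?_⟩
  intro K hK hKK hN
  set Ka := tr a (closure U) with hKa
  have hKac : IsCompact Ka := tr_compact h.geo a
  set m := cut μ Ka with hm
  -- compare with the cut at `Ka`
  have h1 : In (tr a U)ᶜ (xx U μ ψ b K + xx U μ ψ b Ka) :=
    h.xx_diff b hK hKac hN (tr_mono subset_closure a)
  -- weights
  have h2 : In (tr a U)ᶜ (Psi U ψ (k + 2) m + bd (k + 2) (Tm U ψ a (k + 3) m) +
      Tm U ψ a (k + 2) (bd (k + 2) m)) := by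
    have e : ∀ c : Ch (k + 3) E, Psi U ψ (k + 2) c + bd (k + 2) (Tm U ψ a (k + 3) c) +
        Tm U ψ a (k + 2) (bd (k + 2) c) = fac (k + 2) (fun σ i =>
          ψ (lab U σ) (lab U (σ.comp (face (k + 2) i))) + ψ a (lab U σ) +
            ψ a (lab U (σ.comp (face (k + 2) i)))) c := by
      intro c
      have := lin_ext_apply (f := Psi U ψ (k + 2) + (bd (k + 2) ∘ₗ Tm U ψ a (k + 3)) +
        (Tm U ψ a (k + 2) ∘ₗ bd (k + 2))) (g := fac (k + 2) (fun σ i =>
          ψ (lab U σ) (lab U (σ.comp (face (k + 2) i))) + ψ a (lab U σ) +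
            ψ a (lab U (σ.comp (face (k + 2) i))))) (fun σ => by
          simp only [LinearMap.add_apply, LinearMap.comp_apply]
          unfold Psi Tm
          rw [fac_single, fac_single, mul_single, map_smul, bd_single, map_sum, Finset.smul_sum,
            ← Finset.sum_add_distrib, ← Finset.sum_add_distrib]
          refine Finset.sum_congr rfl fun i _ => ?_
          rw [mul_single, add_smul, add_smul]) c
      exact this
    rw [e]
    refine Sup.fac fun σ hσ i hne => ?_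
    rintro p hp hpa
    apply hne
    have hμ := ((mem_cut h.lf hKac σ).1 hσ).1
    have lσ : Lb G U σ := h.sm σ hμ
    have lτ : Lb G U (σ.comp (face (k + 2) i)) := lσ.face i
    have hpσ : p ∈ range σ := range_face σ i hp
    have g := good (ψ := ψ) ha (adj_of_mem h.geo hpa (lab_spec lσ hpσ))
      (adj_lab h.geo lσ lτ hpσ hp) (adj_of_mem h.geo hpa (lab_spec lτ hp))
    rw [← g]
    have : ∀ u v : ZMod 2, u + v + (v + u) = 0 := by decide
    exact this _ _
  have h3 : In (tr a U)ᶜ (Tm U ψ a (k + 2) (bd (k + 2) m)) := by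
    refine Tm_in ψ a (In.mono' (h.fund.cyc Ka hKac) ?_)
    exact compl_subset_compl.2 (tr_mono subset_closure a)
  have e : xx U μ ψ b K + bd (k + 2) (wa U μ ψ a) = (xx U μ ψ b K + xx U μ ψ b Ka) +
      (Psi U ψ (k + 2) m + bd (k + 2) (Tm U ψ a (k + 3) m) + Tm U ψ a (k + 2) (bd (k + 2) m)) +
      Tm U ψ a (k + 2) (bd (k + 2) m) + b := by
    have hx : xx U μ ψ b Ka = Psi U ψ (k + 2) m + b := rfl
    have hw : wa U μ ψ a = Tm U ψ a (k + 3) m := rfl
    rw [hx, hw]
    generalize Tm U ψ a (k + 2) (bd (k + 2) m) = t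
    generalize bd (k + 2) (Tm U ψ a (k + 3) m) = s
    generalize Psi U ψ (k + 2) m = r
    generalize xx U μ ψ b K = x
    have : x + (r + b) + (r + s + t) + t + b = (r + r) + (t + t) + (b + b) + (x + s) := by abel
    rw [this, two_self r, two_self t, two_self b]
    simp only [zero_add]
  rw [e]
  exact In.add' (In.add' (In.add' h1 h2) h3) hab

/-- the degree of the sum of two explicit primitives -/
theorem wa_add (h : Dat k S U μ ψ) {a a' : G} (ha : a ∉ BadV S ψ) {p : E}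
    (hp : p ∈ tr a U) (hp' : p ∈ tr a' U) : D p (wa U μ ψ a + wa U μ ψ a') = ψ a a' := by
  have hsc : IsCompact ({p} : Set E) := isCompact_singleton
  -- replace the cuts by the cut at `p`
  have h1 : ∀ c : G, p ∈ tr c U →
      In {p}ᶜ (wa U μ ψ c + Tm U ψ c (k + 3) (cut μ {p})) := by
    intro c hc
    unfold wa
    rw [← map_add]
    refine Tm_in ψ c ?_
    intro σ hσ
    rcases (cut_add_cut h.lf (tr_compact h.geo c) hsc σ hσ).2 with h2 | h2
    · intro x hx hxp
      have hxp' : x = p := hxp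
      exact h2 hx (hxp' ▸ tr_mono subset_closure c hc)
    · exact h2
  have h2 : Tm U ψ a (k + 3) (cut μ {p}) + Tm U ψ a' (k + 3) (cut μ {p}) =
      ψ a a' • cut μ {p} := by
    have e : ∀ c : Ch (k + 3) E, Tm U ψ a (k + 3) c + Tm U ψ a' (k + 3) c =
        lin (fun σ => (ψ a (lab U σ) + ψ a' (lab U σ)) • Finsupp.single σ (1 : ZMod 2)) c := by
      intro c
      unfold Tm mul
      rw [lin_add]
      congr 2
      funext σ
      rw [add_smul]
    have e2 : ∀ c : Ch (k + 3) E, ψ a a' • c =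
        lin (fun σ => ψ a a' • Finsupp.single σ (1 : ZMod 2)) c := by
      intro c
      have := lin_ext_apply (f := ψ a a' • LinearMap.id)
        (g := lin (fun σ : C(Dl (k + 3), E) => ψ a a' • Finsupp.single σ (1 : ZMod 2)))
        (fun σ => by rw [lin_single]; rfl) c
      exact this
    rw [e, e2]
    refine lin_congr _ _ _ fun σ hσ => ?_
    obtain ⟨hμ, x, hx, hxp⟩ := (mem_cut h.lf hsc σ).1 hσ
    have hxp' : x = p := hxp
    rw [hxp'] at hx
    have lσ : Lb G U σ := h.sm σ hμ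
    have g := good (ψ := ψ) ha (adj_of_mem h.geo hp hp')
      (adj_of_mem h.geo hp' (lab_spec lσ hx)) (adj_of_mem h.geo hp (lab_spec lσ hx))
    congr 1
    rw [← g, add_assoc, two_self, add_zero]
  have h3 : D p (wa U μ ψ a + wa U μ ψ a') = D p (ψ a a' • cut μ {p}) := by
    apply D_congr
    rw [← h2]
    have : wa U μ ψ a + wa U μ ψ a' + (Tm U ψ a (k + 3) (cut μ {p}) +
        Tm U ψ a' (k + 3) (cut μ {p})) = (wa U μ ψ a + Tm U ψ a (k + 3) (cut μ {p})) +
        (wa U μ ψ a' + Tm U ψ a' (k + 3) (cut μ {p})) := by abel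
    rw [this]
    exact In.add' (h1 a hp) (h1 a' hp')
  rw [h3]
  have h4 : ∀ r : ZMod 2, r = 0 ∨ r = 1 := by decide
  rcases h4 (ψ a a') with h5 | h5
  · rw [h5, zero_smul, D_eq_zero]
    exact Nul.of_in (In.zero' _)
  · rw [h5, one_smul]
    unfold D
    rw [if_neg (h.fund.deg p)]

end Dat

end Crest.Agent.R224.T.N2
end
end

-- ▼ part R224/T/T2

set_option autoImplicit false
set_option maxHeartbeats 400000
set_option linter.unusedSectionVars false

noncomputable section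

open Topology Set Filter

namespace Crest.Agent.R224.T.N2

variable {G : Type} [Group G] {E : Type} [TopologicalSpace E] [MulAction G E]

/-- labels with finitely many values near every point -/
theorem exists_labels [T2Space E] [LocallyCompactSpace E] {S : Finset G} {U : Set E}
    (hG : Geo S U) (N : E → Set E) (hN : ∀ j, IsOpen (N j) ∧ j ∈ N j) :
    ∃ lam : E → E, ∀ p0 : E, ∃ (F : Finset E) (O : Set E), O ∈ 𝓝 p0 ∧ p0 ∈ O ∧
      (∀ p ∈ O, lam p ∈ F) ∧ ∀ j ∈ F, O ⊆ N j := by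
  classical
  -- compact neighbourhoods
  have h1 : ∀ j : E, ∃ C : Set E, IsCompact C ∧ C ∈ 𝓝 j ∧ C ⊆ N j := by
    intro j
    obtain ⟨C, hC1, hC2, hC3⟩ := local_compact_nhds ((hN j).1.mem_nhds (hN j).2)
    exact ⟨C, hC3, hC1, hC2⟩
  choose C hCc hCn hCN using h1
  -- finite subcovers
  have h2 : ∀ a : G, ∃ I : Finset E, tr a (closure U) ⊆ ⋃ j ∈ I, C j := by
    intro a
    obtain ⟨I, hI⟩ := (tr_compact hG a).elim_nhds_subcover' (fun j _ => C j)
      (fun j _ => hCn j)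
    refine ⟨I.image Subtype.val, ?_⟩
    intro x hx
    obtain ⟨j, hj, hxj⟩ := mem_iUnion₂.1 (hI hx)
    exact mem_iUnion₂.2 ⟨j, Finset.mem_image_of_mem _ hj, hxj⟩
  choose I hI using h2
  have h3 : ∀ p : E, ∃ (a : G) (j : E), p ∈ tr a U ∧ j ∈ I a ∧ p ∈ C j := by
    intro p
    obtain ⟨a, u, hu, rfl⟩ := hG.cover p
    have hp : a • u ∈ tr a U := ⟨u, hu, rfl⟩
    obtain ⟨j, hj, hxj⟩ := mem_iUnion₂.1 (hI a (tr_mono subset_closure a hp))
    exact ⟨a, j, hp, hj, hxj⟩
  choose ga lam hga hlam hC using h3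
  refine ⟨lam, fun p0 => ?_⟩
  obtain ⟨K, hK, hKp⟩ := exists_compact_mem_nhds p0
  have hfin := hG.proper K hK
  set F1 : Finset E := hfin.toFinset.biUnion I with hF1
  set F : Finset E := F1.filter fun j => p0 ∈ C j with hF
  set O : Set E := K ∩ (⋂ j ∈ F, N j) ∩ ⋂ j ∈ F1.filter (fun j => p0 ∉ C j), (C j)ᶜ with hO
  have hOn : O ∈ 𝓝 p0 := by
    refine inter_mem (inter_mem hKp ?_) ?_
    · refine (Filter.biInter_finset_mem F).2 fun j hj => ?_
      exact (hN j).1.mem_nhds (hCN j (Finset.mem_filter.1 hj).2)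
    · refine (Filter.biInter_finset_mem _).2 fun j hj => ?_
      exact (hCc j).isClosed.isOpen_compl.mem_nhds (Finset.mem_filter.1 hj).2
  refine ⟨F, O, hOn, mem_of_mem_nhds hOn, ?_, ?_⟩
  · intro p hp
    have ha : ga p ∈ hfin.toFinset := by
      rw [Set.Finite.mem_toFinset]
      obtain ⟨u, hu, hup⟩ := hga p
      refine ⟨u, hu, ?_⟩
      have : ga p • u = p := hup
      rw [this]; exact hp.1.1
    have h4 : lam p ∈ F1 := Finset.mem_biUnion.2 ⟨ga p, ha, hlam p⟩
    refine Finset.mem_filter.2 ⟨h4, ?_⟩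
    by_contra h5
    exact mem_iInter₂.1 hp.2 (lam p) (Finset.mem_filter.2 ⟨h4, h5⟩) (hC p)
  · intro j hj x hx
    exact mem_iInter₂.1 hx.1.2 j hj

theorem D_tri {X : Type} [TopologicalSpace X] {d : ℕ} (hM : ManHyp d X) {p : X}
    {u v t : Ch (d + 1) X} (h1 : RC {p}ᶜ (u + t)) (h2 : RC {p}ᶜ (v + t)) :
    D p (u + t) + D p (v + t) = D p (u + v) := by
  rw [← D_add hM h1 h2]
  congr 1
  have : u + t + (v + t) = (t + t) + (u + v) := by abel
  rw [this, two_self, zero_add]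

/-- the node D3 with a locally connected space -/
def NT2' : Prop := ∀ (d : ℕ) (G : Type) [Group G] (E : Type) [TopologicalSpace E] [T2Space E]
  [ContractibleSpace E] [LocallyCompactSpace E] [LocallyConnectedSpace E] [MulAction G E]
  (S : Finset G) (U : Set E),
  2 ≤ d → Geo S U → ManHyp d E →
  (∃ μ : C(Dl (d + 1), E) → ZMod 2, IsFund μ ∧ ∀ σ, μ σ ≠ 0 → ∃ g : G, range σ ⊆ tr g U) →
  ∀ ψ : G → G → ZMod 2,
    {p : G × G × G | Adj S p.1 p.2.1 ∧ Adj S p.2.1 p.2.2 ∧ Adj S p.1 p.2.2 ∧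
      ψ p.1 p.2.1 + ψ p.2.1 p.2.2 ≠ ψ p.1 p.2.2}.Finite →
    ∃ f : G → ZMod 2, {p : G × G | Adj S p.1 p.2 ∧ ψ p.1 p.2 ≠ f p.1 + f p.2}.Finite

theorem nT2' (hGlue : NGlue) : NT2' := by
  classical
  intro d G _ E _ _ _ _ _ _ S U hd hG hM hμ ψ hψ
  obtain ⟨k, rfl⟩ : ∃ k, d = k + 2 := ⟨d - 2, by omega⟩
  obtain ⟨μ, hfund, hsm⟩ := hμ
  have h : Dat k S U μ ψ := ⟨hG, hM, hfund, hsm, hψ⟩
  obtain ⟨b, hb⟩ := h.exists_b
  choose N w hNo hpN hprim using fun p : E => h.exists_prim hb p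
  obtain ⟨lam, hlam⟩ := exists_labels hG N (fun j => ⟨hNo j, hpN j⟩)
  -- the cover
  set W : Set (Set E) := {V | (IsOpen V ∧ IsPreconnected V) ∧ ∃ F : Finset E,
    (∀ p ∈ V, lam p ∈ F) ∧ (∀ j ∈ F, V ⊆ N j) ∧
    ∀ i ∈ F, ∀ j ∈ F, ∀ q ∈ V, ∀ q' ∈ V, D q (w i + w j) = D q' (w i + w j)} with hW
  have hWcov : ∀ p0 : E, ∃ V ∈ W, p0 ∈ V := by
    intro p0
    obtain ⟨F, O, hO, hpO, hF1, hF2⟩ := hlam p0
    have h1 : ∀ᶠ q in 𝓝 p0, ∀ i ∈ F, ∀ j ∈ F, D q (w i + w j) = D p0 (w i + w j) := by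
      rw [Finset.eventually_all]
      intro i hi
      rw [Finset.eventually_all]
      intro j hj
      have hrc := (hprim i).rc h (hprim j) (hF2 i hi hpO) (hF2 j hj hpO)
      filter_upwards [D_loc hM hrc] with q hq
      exact hq.2
    have h2 : {q | ∀ i ∈ F, ∀ j ∈ F, D q (w i + w j) = D p0 (w i + w j)} ∩ O ∈ 𝓝 p0 :=
      inter_mem h1 hO
    obtain ⟨V, hV, hVo, hpV, hVc⟩ := locallyConnectedSpace_iff_subsets_isOpen_isConnected.1
      inferInstance p0 _ h2
    refine ⟨V, ⟨⟨hVo, hVc.isPreconnected⟩, F, fun p hp => hF1 p (hV hp).2,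
      fun j hj => (hV.trans inter_subset_right).trans (hF2 j hj), ?_⟩, hpV⟩
    intro i hi j hj q hq q' hq'
    rw [(hV hq).1 i hi j hj, (hV hq').1 i hi j hj]
  -- gluing
  set e : E → E → ZMod 2 := fun p q => D p (w (lam p) + w (lam q)) with he
  obtain ⟨f, hf⟩ := hGlue E W (fun V hV => hV.1)
    (eq_univ_of_forall fun p => by
      obtain ⟨V, hV, hp⟩ := hWcov p
      exact ⟨V, hV, hp⟩) e (by
    rintro V ⟨_, F, hF1, hF2, hF3⟩ p hp q hq r hr
    simp only [he]
    have hi := hF1 p hp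
    have hj := hF1 q hq
    have hl := hF1 r hr
    rw [hF3 _ hj _ hl q hq p hp, add_comm (w (lam q)) (w (lam r))]
    exact D_tri hM ((hprim _).rc h (hprim _) (hF2 _ hi hp) (hF2 _ hj hp))
      ((hprim _).rc h (hprim _) (hF2 _ hl hp) (hF2 _ hj hp)))
  have hfe : ∀ V ∈ W, ∀ p ∈ V, ∀ q ∈ V, D p (w (lam p) + w (lam q)) = f p + f q := hf
  -- the function on the group
  set bad : Set G := BadV S ψ ∪ {a | ¬ In (tr a U)ᶜ b} with hbad
  have hbadfin : bad.Finite := by
    refine h.finV.union ?_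
    refine (hG.proper (carr b) (carr_compact b)).subset ?_
    intro a ha
    by_contra hcon
    apply ha
    refine in_of_disjoint ?_
    rw [Set.disjoint_left]
    rintro x hx ⟨u, hu, rfl⟩
    exact hcon ⟨u, hu, hx⟩
  obtain ⟨u0, hu0⟩ := hG.conn.nonempty
  set ev : G → E → ZMod 2 := fun a p => f p + D p (w (lam p) + Dat.wa U μ ψ a) with hev
  -- constancy
  have hconst : ∀ a, a ∉ bad → ∀ p ∈ tr a U, ∀ q ∈ tr a U, ev a p = ev a q := by
    intro a ha p hp q hq
    have ha1 : a ∉ BadV S ψ := fun h' => ha (Or.inl h')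
    have ha2 : In (tr a U)ᶜ b := by
      by_contra h'
      exact ha (Or.inr h')
    have hpa := h.wa_prim ha1 ha2
    -- local constancy
    have hloc : ∀ p0 ∈ tr a U, ∀ᶠ q in 𝓝 p0, ev a q = ev a p0 := by
      intro p0 hp0
      obtain ⟨V, ⟨⟨hVo, _⟩, F, hF1, hF2, hF3⟩, hpV⟩ := hWcov p0
      have hVW : V ∈ W := ⟨⟨hVo, by assumption⟩, F, hF1, hF2, hF3⟩
      have h1 : ∀ᶠ q in 𝓝 p0, ∀ j ∈ F, D q (w j + Dat.wa U μ ψ a) = D p0 (w j + Dat.wa U μ ψ a) := by
        rw [Finset.eventually_all]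
        intro j hj
        have hrc := (hprim j).rc h hpa (hF2 j hj hpV) hp0
        filter_upwards [D_loc hM hrc] with q hq
        exact hq.2
      filter_upwards [h1, hVo.mem_nhds hpV] with q hq hqV
      simp only [hev]
      rw [hq _ (hF1 q hqV)]
      have h2 := hfe V hVW p0 hpV q hqV
      have h3 := D_tri hM ((hprim (lam p0)).rc h hpa (hF2 _ (hF1 p0 hpV) hpV) hp0)
        ((hprim (lam q)).rc h hpa (hF2 _ (hF1 q hqV) hpV) hp0)
      rw [← h3] at h2
      have key : ∀ x y s t : ZMod 2, s + t = x + y → y + t = x + s := by decide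
      exact key _ _ _ _ h2
    -- connectedness
    have hpre := tr_preconn hG a
    by_contra hne
    have hne' : ev a q ≠ ev a p := fun h' => hne h'.symm
    have hA : IsOpen {x | x ∈ tr a U ∧ ev a x = ev a p} := by
      rw [isOpen_iff_mem_nhds]
      rintro x ⟨hx, hxe⟩
      filter_upwards [hloc x hx, (tr_open hG a).mem_nhds hx] with y hy hya
      exact ⟨hya, hy.trans hxe⟩
    have hB : IsOpen {x | x ∈ tr a U ∧ ev a x ≠ ev a p} := by
      rw [isOpen_iff_mem_nhds]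
      rintro x ⟨hx, hxe⟩
      filter_upwards [hloc x hx, (tr_open hG a).mem_nhds hx] with y hy hya
      exact ⟨hya, by rw [hy]; exact hxe⟩
    obtain ⟨x, _, hx1, hx2⟩ := hpre _ _ hA hB
      (fun x hx => by
        by_cases h' : ev a x = ev a p
        · exact Or.inl ⟨hx, h'⟩
        · exact Or.inr ⟨hx, h'⟩) ⟨p, hp, hp, rfl⟩ ⟨q, hq, hq, hne'⟩
    exact hx2.2 hx1.2
  refine ⟨fun a => ev a (a • u0), ?_⟩
  -- bad pairs
  have hpairs : {p : G × G | Adj S p.1 p.2 ∧ (p.1 ∈ bad ∨ p.2 ∈ bad)}.Finite := by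
    refine (Finset.finite_toSet ((hbadfin.toFinset ×ˢ S).image
      (fun q : G × G => (q.1, q.1 * q.2)) ∪
      (hbadfin.toFinset ×ˢ S).image (fun q : G × G => (q.1 * q.2⁻¹, q.1)))).subset ?_
    rintro ⟨x, y⟩ ⟨hxy, hx | hy⟩
    · simp only [Finset.coe_union, Set.mem_union, Finset.mem_coe, Finset.mem_image,
        Finset.mem_product, Set.Finite.mem_toFinset]
      left
      exact ⟨(x, x⁻¹ * y), ⟨hx, hxy⟩, by simp⟩
    · simp only [Finset.coe_union, Set.mem_union, Finset.mem_coe, Finset.mem_image,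
        Finset.mem_product, Set.Finite.mem_toFinset]
      right
      exact ⟨(y, x⁻¹ * y), ⟨hy, hxy⟩, by simp⟩
  refine hpairs.subset ?_
  rintro ⟨x, y⟩ ⟨hxy, hne⟩
  refine ⟨hxy, ?_⟩
  by_contra hcon
  push Not at hcon
  obtain ⟨hx, hy⟩ := hcon
  apply hne
  obtain ⟨p, hpx, hpy⟩ := exists_of_adj hG hxy
  have hx1 : x ∉ BadV S ψ := fun h' => hx (Or.inl h')
  have hy1 : y ∉ BadV S ψ := fun h' => hy (Or.inl h')
  have hx2 : In (tr x U)ᶜ b := by
    by_contra h'
    exact hx (Or.inr h')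
  have hy2 : In (tr y U)ᶜ b := by
    by_contra h'
    exact hy (Or.inr h')
  have e1 : ev x (x • u0) = ev x p := hconst x hx _ ⟨u0, hu0, rfl⟩ _ hpx
  have e2 : ev y (y • u0) = ev y p := hconst y hy _ ⟨u0, hu0, rfl⟩ _ hpy
  show ψ x y = ev x (x • u0) + ev y (y • u0)
  rw [e1, e2]
  simp only [hev]
  obtain ⟨V, ⟨_, F, hF1, hF2, hF3⟩, hpV⟩ := hWcov p
  have h1 : D p (w (lam p) + Dat.wa U μ ψ x) + D p (w (lam p) + Dat.wa U μ ψ y) = ψ x y := by
    have h2 := (hprim (lam p)).rc h (h.wa_prim hx1 hx2) (hF2 _ (hF1 p hpV) hpV) hpx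
    have h3 := (hprim (lam p)).rc h (h.wa_prim hy1 hy2) (hF2 _ (hF1 p hpV) hpV) hpy
    rw [← h.wa_add hx1 hpx hpy, add_comm (w (lam p)) (Dat.wa U μ ψ x),
      add_comm (w (lam p)) (Dat.wa U μ ψ y)]
    rw [add_comm (w (lam p)) (Dat.wa U μ ψ x)] at h2
    rw [add_comm (w (lam p)) (Dat.wa U μ ψ y)] at h3
    exact D_tri hM h2 h3
  rw [← h1]
  have key : ∀ a s t : ZMod 2, s + t = a + s + (a + t) := by decide
  exact key _ _ _

end Crest.Agent.R224.T.N2
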